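import Crest.Agent.R264.P5.S4

/-! Row 264, P5/P6: the holomorphic identities on the whole model domain. -/

set_option autoImplicit false
open Set Filter Topology Metric Complex
open scoped Matrix

noncomputable section
namespace Crest.Agent.R264.P5

namespace GM0
variable {𝔤 : Type} [LieRing 𝔤] [LieAlgebra ℝ 𝔤] [FiniteDimensional ℝ 𝔤] {r k : ℕ}
  {G : GM0 𝔤 r k} {Zp : 𝔤} {t : CN k} {J : CN r →ₗ[ℝ] CN r}

/-- The ideal as an algebra of vector fields. -/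
abbrev L (G : GM0 𝔤 r k) : LV G.s (PM r k) := G.toLV.res G.s

theorem fib_hs (h : G.Gr Zp) (ht : t ∈ G.T) : ∃ (J : CN r →ₗ[ℝ] CN r) (K2 : 𝔤) (Z1 : G.s),
    G.IsJ t J ∧ K2 ∈ G.s0 Zp ∧ G.Act K2 J ∧ G.ev K2 (sl I t) = 0 ∧
      (Z1 : 𝔤) = (1 / 2 : ℝ) • (G.Z + Zp + K2) ∧
      ∀ P : PD G.s (PM r k), G.L.At (sl I t) P → P.HS Z1 := by
  obtain ⟨J, hJ⟩ := exists_J (G.small t ht)
  obtain ⟨K2, h2, hA, h0⟩ := h.exists_K2 hJ ht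
  obtain ⟨a1, a2, a3⟩ := h.hs_slice hJ ht h2 hA h0
  refine ⟨J, K2, ⟨(1 / 2 : ℝ) • (G.Z + Zp + K2), G.s.toSubmodule.smul_mem _ (add_mem (add_mem
    (h.mem_s_of_wt G.wt_Z (by norm_num)) (h.mem_s_of_wt h.wZp one_ne_zero)) (h.mem_s_of_s0 h2))⟩,
    hJ, h2, hA, h0, rfl, fun P hP => ⟨?_, fun X => ?_, fun K hK => ?_⟩⟩
  · rw [hP.1]
    exact a1
  · rw [hP.1, hP.1]
    exact a2 X X.2
  · rw [hP.1] at hK
    exact Subtype.ext (a3 K K.2 hK)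

omit [FiniteDimensional ℝ 𝔤] in
theorem fib_zero {f : PM r k → PM r k} (hf : DifferentiableOn ℂ f G.W)
    (hZ : ∀ ω ∈ G.W, fderiv ℂ f ω (1, 0, 0) = 0)
    (hX : ∀ ω ∈ G.W, ∀ ζ : CN r, fderiv ℂ f ω (0, (2 : ℂ) • ζ, 0) = 0)
    (h0 : ∀ t ∈ G.T, f (sl I t) = 0) : ∀ ω ∈ G.W, f ω = 0 := by
  intro ω hω
  rw [fibre_const G.toMBase hf (fun ω hω a u => ?_) ω hω, h0 _ hω.1]
  have e : ((a, u, 0) : PM r k) = a • (1, 0, 0) + (0, (2 : ℂ) • (1 / 2 : ℂ) • u, 0) := by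
    simp [smul_smul]
  rw [e, map_add, map_smul, hZ ω hω, hX ω hω, smul_zero, add_zero]

theorem Gr.exists_hs (h : G.Gr Zp) (ht : t ∈ G.T) {P : PD G.s (PM r k)}
    (hP : G.L.At (sl I t) P) : ∃ Z1, P.HS Z1 := by
  obtain ⟨-, -, Z1, -, -, -, -, -, hZ⟩ := fib_hs h ht
  exact ⟨Z1, hZ P hP⟩

variable [LieAlgebra.IsKilling ℝ G.s]

/-- `fibre_const`; the derivative along `(a,u,0) = a • (1,0,0) + (0, 2 • (u/2), 0)` vanishes by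
`fderiv_h1` with `const_Z`, `const_X`; on the slice `exists_hs`, `HS.H`, `At.H1_iff`. -/
theorem Gr.h1_zero (h : G.Gr Zp) (l : PM r k →L[ℂ] ℂ) : ∀ ω ∈ G.W, G.L.h1 l ω = 0 := by
  have sX : ∀ ζ, G.Xn ζ ∈ G.s := fun ζ => h.mem_s_of_wt (G.wt_X ζ) (by norm_num)
  refine fib_zero (G.L.h1_diff l) (fun ω hω => ?_) (fun ω hω ζ => ?_) fun t ht => ?_
  · exact G.L.fderiv_h1 (Y := ⟨G.Z, h.mem_s_of_wt G.wt_Z (by norm_num)⟩) (Y' := 0) G.const_Z l hω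
  · exact G.L.fderiv_h1 (Y := ⟨_, sX _⟩) (Y' := ⟨_, sX _⟩) (G.const_X ζ) l hω
  · obtain ⟨P, hP⟩ := G.L.exists_pd (G.slI_mem ht)
    obtain ⟨Z1, hZ⟩ := h.exists_hs ht hP
    exact hP.H1_iff.1 hZ.H.1 l

/-- `h2 l V ω` is additive in `V`.  Go up through the weights `-1, -1/2, 0, 1/2, 1`: if the claim holds
for the weights `μ - 1` and `μ - 1/2` (it is trivial below `-1`, `Wt.low`) then `fderiv_h2` and
`fibre_const` give it for `μ`. -/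
theorem Gr.h2_zero (h : G.Gr Zp) (l : PM r k →L[ℂ] ℂ) (V : G.s) :
    ∀ ω ∈ G.W, G.L.h2 l V ω = 0 := by
  have sX : ∀ ζ, G.Xn ζ ∈ G.s := fun ζ => h.mem_s_of_wt (G.wt_X ζ) (by norm_num)
  have sZ : G.Z ∈ G.s := h.mem_s_of_wt G.wt_Z (by norm_num)
  have z0 : ∀ ω, G.L.h2 l 0 ω = 0 := fun ω => by simp [LV.h2]
  have hadd : ∀ (V V' : G.s) ω, G.L.h2 l (V + V') ω = G.L.h2 l V ω + G.L.h2 l V' ω :=
    fun V V' ω => by simp [LV.h2, Finset.sum_add_distrib]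
  let Q : ℝ → Prop := fun μ => ∀ V : G.s, G.Wt μ V → ∀ ω ∈ G.W, G.L.h2 l V ω = 0
  have low : ∀ μ, μ < -1 → Q μ := fun μ hμ V hV ω _ => by
    rw [show V = 0 from Subtype.ext (hV.low hμ), z0]
  have step : ∀ μ ν ρ : ℝ, -1 + μ = ν → -1 / 2 + μ = ρ → Q ν → Q ρ → Q μ := by
    intro μ ν ρ e1 e2 q1 q2 V hV
    refine fib_zero (G.L.h2_diff l V) (fun ω hω => ?_) (fun ω hω ζ => ?_) fun t ht => ?_
    · rw [G.L.fderiv_h2 (Y := ⟨G.Z, sZ⟩) (Y' := 0) G.const_Z l V hω, zero_lie, z0,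
        q1 _ (G.wt_Z.lie hV e1) ω hω, smul_zero, add_zero]
    · rw [G.L.fderiv_h2 (Y := ⟨_, sX _⟩) (Y' := ⟨_, sX _⟩) (G.const_X ζ) l V hω,
        q2 _ ((G.wt_X _).lie hV e2) ω hω, q2 _ ((G.wt_X _).lie hV e2) ω hω, smul_zero, add_zero]
    · obtain ⟨P, hP⟩ := G.L.exists_pd (G.slI_mem ht)
      obtain ⟨Z1, hZ⟩ := h.exists_hs ht hP
      exact hP.H2_iff.1 hZ.H.2 l V
  have q1 : Q (-1) := step _ _ _ rfl rfl (low _ (by norm_num)) (low _ (by norm_num))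
  have q2 : Q (-1 / 2) := step _ _ _ rfl (by norm_num) (low _ (by norm_num)) q1
  have q3 : Q 0 := step _ _ _ (by norm_num) (by norm_num) q1 q2
  have q4 : Q (1 / 2) := step _ _ _ (by norm_num) (by norm_num) q2 q3
  have q5 : Q 1 := step _ _ _ (by norm_num) (by norm_num) q3 q4
  obtain ⟨a, ζ, c, K, η, b, hK, e⟩ := (h.mem_span_iff V).1 V.2
  have m1 := h.mem_s_of_wt (G.wt_Z.smul a) (by norm_num)
  have m3 : c • G.A + K ∈ G.s := add_mem (G.s.toSubmodule.smul_mem c G.A_mem) (h.mem_s_of_s0 hK)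
  have m4 := h.mem_s_of_wt (h.wt_ZpX η) (by norm_num)
  have m5 := h.mem_s_of_wt (h.wZp.smul b) one_ne_zero
  have e' : V = ⟨_, m1⟩ + ⟨_, sX ζ⟩ + ⟨_, m3⟩ + ⟨_, m4⟩ + ⟨_, m5⟩ :=
    Subtype.ext (e.trans (by rw [add_assoc (a • G.Z + G.Xn ζ)]; rfl))
  intro ω hω
  rw [e', hadd, hadd, hadd, hadd, q1 ⟨_, m1⟩ (G.wt_Z.smul a) ω hω, q2 ⟨_, sX ζ⟩ (G.wt_X ζ) ω hω,
    q3 ⟨_, m3⟩ ((G.wt_A.smul c).add (h.s0_wt hK)) ω hω, q4 ⟨_, m4⟩ (h.wt_ZpX η) ω hω,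
    q5 ⟨_, m5⟩ (h.wZp.smul b) ω hω]
  simp

/-- `Full.mem_dist` at the slice point (`neg_res` with `ell`, `At.dh2` with `h2_zero`), `Full.dZ_mem`,
`HS.mem_val`, `dZ1_eq_zero`; the other direction is `dist_sub`. -/
theorem Gr.dist_iff (h : G.Gr Zp) (ht : t ∈ G.T) (u : PM r k) :
    (∀ a ∈ G.s, ∀ b ∈ G.s, G.ev a (sl I t) + I • G.ev b (sl I t) = 0 →
      fderiv ℂ (G.ev a) (sl I t) u + I • fderiv ℂ (G.ev b) (sl I t) u = 0) ↔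
    u.1 = 0 ∧ u.2.1 = 0 ∧ dκ G.κ t u.2.2 = 0 := by
  refine ⟨h.dist_sub ht, ?_⟩
  obtain ⟨w, z, e⟩ := u
  rintro ⟨rfl, rfl, he⟩ a ha b hb hab
  have hω := G.slI_mem ht
  obtain ⟨J, K2, Z1, hJ, h2, hA, h0, hZ1, hZ⟩ := fib_hs h ht
  obtain ⟨P, hP⟩ := G.L.exists_pd hω
  have hF : P.Full Z1 := ⟨hZ P hP, neg_res G.s P fun K hK => G.ell K _ hω ((hP.1 K).symm.trans hK),
    hP.dh2 hω h.h2_zero, h.simp, h.pos⟩
  obtain ⟨X, hX⟩ := (hF.hs.mem_val _).1 (hF.dZ_mem (0, 0, e))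
  have e1 : P.d Z1 = fderiv ℂ (G.ev ((1 / 2 : ℝ) • (G.Z + Zp + K2))) (sl I t) := by
    rw [hP.2, ← hZ1]
    rfl
  rw [hP.1, e1] at hX
  have h3 := h.dZ1_eq_zero hJ ht h2 hA h0 he ⟨X, X.2, hX⟩
  rw [← e1] at h3
  have h4 := (hF.mem_dist _).2 h3 ⟨a, ha⟩ ⟨b, hb⟩ (by rw [hP.1, hP.1]; exact hab)
  rw [hP.2, hP.2] at h4
  exact h4

end GM0

end Crest.Agent.R264.P5
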