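import Crest.Agent.R264.P5.Pull
import Crest.Agent.R264.P5.Fib
import Crest.Agent.R264.P2

/-! Row 264, P5/P6: model charts give good ideals. -/

set_option autoImplicit false
open Set Filter Topology Metric Complex
open scoped Matrix

noncomputable section
namespace Crest.Agent.R264
open P5

namespace TM
variable {M : TM}

/-- The first holomorphic identity on `U`. -/
def h1 (s : LieIdeal ℝ M.g) [LieAlgebra.IsKilling ℝ s] (l : CN M.N →L[ℂ] ℂ) (y : CN M.N) :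
    CN M.N := ∑ a, l (M.fn (ce s a : s) y) • M.fn (cd s a : s) y

/-- The second holomorphic identity on `U`. -/
def h2 (s : LieIdeal ℝ M.g) [LieAlgebra.IsKilling ℝ s] (l : CN M.N →L[ℂ] ℂ) (V : s)
    (y : CN M.N) : CN M.N := ∑ a, l (M.fn (ce s a : s) y) • M.fn (⁅V, cd s a⁆ : s) y

section
variable {E : Type} [NormedAddCommGroup E] [NormedSpace ℂ E] [NormedSpace ℝ E]
  [IsScalarTower ℝ ℂ E] [FiniteDimensional ℂ E] {e : M.Emb E} {pb : M.VF →ₗ[ℂ] (E → E)}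
  (h : e.Pull pb) {s : LieIdeal ℝ M.g} [LieAlgebra.IsKilling ℝ s] {ω : E}

omit [NormedSpace ℝ E] [IsScalarTower ℝ ℂ E] in
theorem Emb.mg1_sum_iff (hω : ω ∈ e.W) {ι : Type} [Fintype ι] (a b : ι → E) :
    (∀ l : E →L[ℂ] ℂ, ∑ i, l (a i) • b i = 0) ↔
      ∀ l : CN M.N →L[ℂ] ℂ, ∑ i, l (fderiv ℂ e.ψ ω (a i)) • fderiv ℂ e.ψ ω (b i) = 0 := by
  have key : ∀ l : CN M.N →L[ℂ] ℂ, ∑ i, l (fderiv ℂ e.ψ ω (a i)) • fderiv ℂ e.ψ ω (b i) =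
      fderiv ℂ e.ψ ω (∑ i, (l.comp (fderiv ℂ e.ψ ω)) (a i) • b i) := fun l => by
    simp only [map_sum, map_smul, ContinuousLinearMap.comp_apply]
  refine ⟨fun H l => by rw [key, H, map_zero], fun H l => e.dinj ω hω ?_⟩
  obtain ⟨A₀, hA₀⟩ := (fderiv ℂ e.ψ ω).toLinearMap.exists_leftInverse_of_injective
    (LinearMap.ker_eq_bot.2 (e.dinj ω hω))
  have h1 : (l.comp (LinearMap.toContinuousLinearMap A₀)).comp (fderiv ℂ e.ψ ω) = l :=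
    ContinuousLinearMap.ext fun u => congrArg l (LinearMap.congr_fun hA₀ u)
  rw [map_zero, ← H (l.comp (LinearMap.toContinuousLinearMap A₀)), key, h1]

/-- `M.h1 s l (ψ ω) = Dψ (L.h1 (l ∘ Dψ) ω)`, `Dψ` is injective and every functional on `E` has the
form `l ∘ Dψ` (left inverse). -/
theorem Emb.Pull.h1_iff (hω : ω ∈ e.W) :
    (∀ l, ((e.lv h).res s).h1 l ω = 0) ↔ ∀ l, h1 s l (e.ψ ω) = 0 := by
  refine (Emb.mg1_sum_iff hω (fun a => pb (ce s a : s) ω) (fun a => pb (cd s a : s) ω)).trans ?_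
  simp only [h.push _ ω hω]
  rfl

theorem Emb.Pull.h2_iff (hω : ω ∈ e.W) :
    (∀ l V, ((e.lv h).res s).h2 l V ω = 0) ↔ ∀ l V, h2 s l V (e.ψ ω) = 0 := by
  refine forall_comm.trans (Iff.trans (forall_congr' fun V => ?_) forall_comm)
  refine (Emb.mg1_sum_iff hω (fun a => pb (ce s a : s) ω)
    (fun a => pb (⁅V, cd s a⁆ : s) ω)).trans ?_
  simp only [h.push _ ω hω]
  rfl

/-- Identity theorem (`eqOn_of_ropen` on `ψ '' W`), then at `y ∈ U` a chart (`chartEmb`,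
`exists_pull`, `exists_pd`, `At.H1_iff`, `At.H2_iff`, `Pull.neg`, `PD.exists_hs`, `Pull.hs_iff`). -/
theorem Emb.Pull.hs_all (hne : e.W.Nonempty)
    (h1 : ∀ l, ∀ ω ∈ e.W, ((e.lv h).res s).h1 l ω = 0)
    (h2 : ∀ l V, ∀ ω ∈ e.W, ((e.lv h).res s).h2 l V ω = 0) :
    ∀ y ∈ M.U, ∃ Z1 ∈ s, M.fn Z1 y = 0 ∧ (∀ X ∈ s, M.fn ⁅X, Z1⁆ y = I • M.fn X y) ∧
      ∀ K ∈ s, M.fn K y = 0 → ⁅K, Z1⁆ = 0 := by
  have hR : ROpen M.U (e.ψ '' e.W) :=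
    ⟨e.maps.image_subset, by rintro _ ⟨ω, hω, rfl⟩; exact e.nhds ω hω⟩
  have H1 : ∀ l, ∀ y ∈ M.U, TM.h1 s l y = 0 := fun l =>
    M.eqOn_of_ropen hR (hne.image _)
      (Hol.sum _ fun a _ => ((M.hol_fn _).clm l).smul (M.hol_fn _)) (Hol.const _ 0) (by
        rintro _ ⟨ω, hω, rfl⟩
        exact (h.h1_iff hω).1 (fun l => h1 l ω hω) l)
  have H2 : ∀ l V, ∀ y ∈ M.U, TM.h2 s l V y = 0 := fun l V =>
    M.eqOn_of_ropen hR (hne.image _)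
      (Hol.sum _ fun a _ => ((M.hol_fn _).clm l).smul (M.hol_fn _)) (Hol.const _ 0) (by
        rintro _ ⟨ω, hω, rfl⟩
        exact (h.h2_iff hω).1 (fun l V => h2 l V ω hω) l V)
  intro y hy
  obtain ⟨ch, u, hu, rfl⟩ := M.chart y hy
  obtain ⟨pb', h'⟩ := (M.chartEmb ch).exists_pull
  have hu' : u ∈ (M.chartEmb ch).W := hu
  obtain ⟨P, hP⟩ := (((M.chartEmb ch).lv h').res s).exists_pd hu'
  obtain ⟨Z1, hZ⟩ := P.exists_hs (h'.neg hu' hP)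
    (hP.H1_iff.2 ((h'.h1_iff hu').2 fun l => H1 l _ hy))
    (hP.H2_iff.2 ((h'.h2_iff hu').2 fun l V => H2 l V _ hy))
  exact ⟨Z1, Z1.2, (h'.hs_iff hu' hP Z1).1 hZ⟩

end

/-- Model charts. -/
def MChart.emb {r k : ℕ} (m : M.MChart r k) : M.Emb (PM r k) where
  W := m.toMBase.W
  W_open := W_open _
  ψ := m.ψ
  diff := m.diff
  maps := m.maps
  nhds := m.nhds
  dinj := m.dinj
  drange := m.drange

section
variable {E : Type} [NormedAddCommGroup E] [NormedSpace ℂ E] {e : M.Emb E}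
  {pb : M.VF →ₗ[ℂ] (E → E)}

theorem Emb.Pull.eq_of (h : e.Pull pb) (X : M.g) {ω : E} (hω : ω ∈ e.W) {u : E}
    (hu : M.fn X (e.ψ ω) = fderiv ℂ e.ψ ω u) : pb X ω = u :=
  e.dinj ω hω ((h.push X ω hω).trans hu)

theorem Emb.Pull.zero_iff (h : e.Pull pb) (X : M.g) {ω : E} (hω : ω ∈ e.W) :
    pb X ω = 0 ↔ M.fn X (e.ψ ω) = 0 :=
  ⟨fun h0 => by rw [← map_zero (fderiv ℂ e.ψ ω), ← h0]; exact (h.push X ω hω).symm,
    fun h0 => h.eq_of X hω (by rw [h0, map_zero])⟩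

theorem Emb.Pull.jet (h : e.Pull pb) (X : M.g) {ω : E} (hω : ω ∈ e.W) (h0 : pb X ω = 0)
    (h1 : fderiv ℂ (pb X) ω = 0) : X = 0 := by
  have h2 := (h.zero_iff X hω).1 h0
  refine M.g_jet X (e.maps hω) h2 fun v hv => ?_
  rw [← e.drange ω hω] at hv
  obtain ⟨u, rfl⟩ := hv
  have := h.dzero X ω hω h2 u
  rw [h1] at this
  simpa using this

theorem Emb.Pull.noC (h : e.Pull pb) (X Y : M.g) (hXY : ⁅X, Y⁆ = 0) {ω : E} (hω : ω ∈ e.W)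
    {c : ℂ} (hc : c.im ≠ 0) (h0 : pb Y ω = c • pb X ω) : pb X ω = 0 := by
  refine (h.zero_iff X hω).2 (M.noC X Y hXY (e.maps hω) hc ?_)
  have h1 := h.push X ω hω
  have h2 := h.push Y ω hω
  rw [h0, map_smul, h1] at h2
  exact h2.symm

end
end TM

/-- The abstract model of a model chart. -/
def TMG.gm0 (S : TMG) {r k : ℕ} (m : S.toTM.MChart r k) {pb : S.toTM.VF →ₗ[ℂ] (PM r k → PM r k)}
    (h : m.emb.Pull pb) : GM0 S.toTM.g r k where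
  toMBase := m.toMBase
  ev := (m.emb.lv h).ev
  diff := (m.emb.lv h).diff
  lie := (m.emb.lv h).lie
  A := m.A
  Z := m.Z
  Xn := m.Xn
  evA ω hω := h.eq_of _ hω (m.fnA ω hω)
  evZ ω hω := h.eq_of _ hω (m.fnZ ω hω)
  evX ζ ω hω := h.eq_of _ hω (m.fnX ζ ω hω)
  jet X _ hω := h.jet X hω
  ell X _ hω h0 := S.toTM.isSkew_of_zero X (m.maps hω) ((h.zero_iff X hω).1 h0)
  noC X Y hXY _ hω _ hc := h.noC X Y hXY hω hc
  uni := S.unimod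

theorem TMG.good_of_chart' (S : TMG) {r k : ℕ} (m : S.toTM.MChart r k) :
    S.toTM.Good (LieSubmodule.lieSpan ℝ S.toTM.g {m.A}) ∧
      m.Z ∈ LieSubmodule.lieSpan ℝ S.toTM.g {m.A} ∧
      ∀ ζ, m.Xn ζ ∈ LieSubmodule.lieSpan ℝ S.toTM.g {m.A} := by
  obtain ⟨pb, h⟩ := m.emb.exists_pull
  obtain ⟨Zp, hG⟩ := (S.gm0 m h).exists_gr
  haveI : LieAlgebra.IsKilling ℝ (LieSubmodule.lieSpan ℝ S.toTM.g {m.A}) := hG.isKilling
  haveI : LieAlgebra.IsKilling ℝ (S.gm0 m h).s := hG.isKilling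
  refine ⟨⟨hG.simple_s, ⟨m.A, (S.gm0 m h).A_mem, hG.killing_A⟩, ?_⟩,
    hG.mem_s_of_wt (S.gm0 m h).wt_Z (by norm_num),
    fun ζ => hG.mem_s_of_wt ((S.gm0 m h).wt_X ζ) (by norm_num)⟩
  exact h.hs_all ⟨_, (S.gm0 m h).slI_mem (S.gm0 m h).t0_mem⟩ hG.h1_zero hG.h2_zero

theorem TMG.dist_model' (S : TMG) {r k : ℕ} (m : S.toTM.MChart r k) {t : CN k}
    (ht : t ∈ ball m.t0 m.R) (v : CN S.N) :
    v ∈ S.toTM.Dist (LieSubmodule.lieSpan ℝ S.toTM.g {m.A}) (m.ψ (I, 0, t)) ↔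
      ∃ e : CN k, (∀ i j, fderiv ℂ (fun t' => m.κ t' i j) t e = 0) ∧
        v = fderiv ℂ m.ψ (I, 0, t) (0, 0, e) := by
  obtain ⟨pb, h⟩ := m.emb.exists_pull
  obtain ⟨Zp, hG⟩ := (S.gm0 m h).exists_gr
  haveI : LieAlgebra.IsKilling ℝ (S.gm0 m h).s := hG.isKilling
  have hω : (sl I t : PM r k) ∈ m.emb.W := (S.gm0 m h).slI_mem ht
  obtain ⟨P, hP⟩ := ((m.emb.lv h).res (S.gm0 m h).s).exists_pd hω
  have key : ∀ u : PM r k, fderiv ℂ m.ψ (I, 0, t) u ∈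
      S.toTM.Dist (LieSubmodule.lieSpan ℝ S.toTM.g {m.A}) (m.ψ (I, 0, t)) ↔
      u.1 = 0 ∧ u.2.1 = 0 ∧ dκ m.κ t u.2.2 = 0 := by
    intro u
    refine (h.dist_iff hω hP u).trans (Iff.trans ?_ (hG.dist_iff ht u))
    simp only [PD.Dist, mem_setOf_eq, hP.1, hP.2]
    exact ⟨fun H a ha b hb => H ⟨a, ha⟩ ⟨b, hb⟩, fun H a b => H a a.2 b b.2⟩
  constructor
  · intro hv
    have hT : v ∈ S.toTM.T (m.ψ (I, 0, t)) := hv.1
    rw [← m.drange _ hω] at hT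
    obtain ⟨u, rfl⟩ := hT
    obtain ⟨h1, h2, h3⟩ := (key u).1 hv
    refine ⟨u.2.2, fun i j => congrFun (congrFun h3 i) j, ?_⟩
    have : u = (0, 0, u.2.2) := Prod.ext h1 (Prod.ext h2 rfl)
    exact congrArg _ this
  · rintro ⟨e, he, rfl⟩
    exact (key _).2 ⟨rfl, rfl, Matrix.ext he⟩

end Crest.Agent.R264
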