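import Crest.Agent.R264.P5.Lin

/-! Row 264, P5/P6: Casimir sums. -/

set_option autoImplicit false
open Set Filter Topology Metric Complex
open scoped Matrix

noncomputable section
namespace Crest.Agent.R264.P5

variable {𝔰 : Type} [LieRing 𝔰] [LieAlgebra ℝ 𝔰] [FiniteDimensional ℝ 𝔰]
  [LieAlgebra.IsKilling ℝ 𝔰]

theorem killing_ext {X Y : 𝔰} (h : ∀ U, killingForm ℝ 𝔰 X U = killingForm ℝ 𝔰 Y U) : X = Y := by
  have hn := LieAlgebra.IsKilling.killingForm_nondegenerate ℝ 𝔰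
  rw [← sub_eq_zero]
  refine hn.1 _ fun U => ?_
  rw [map_sub, LinearMap.sub_apply, h, sub_self]

theorem center_eq {X : 𝔰} (h : ∀ Y : 𝔰, ⁅X, Y⁆ = 0) : X = 0 := by
  refine killing_ext fun U => ?_
  have : LieAlgebra.ad ℝ 𝔰 X = 0 := by
    ext Y; simp [h]
  rw [killingForm_apply_apply, this]
  simp

theorem killing_ce_cd (a b : Ix 𝔰) :
    killingForm ℝ 𝔰 (ce 𝔰 a) (cd 𝔰 b) = if a = b then 1 else 0 := by
  rw [LieModule.traceForm_comm]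
  unfold cd ce
  rw [LinearMap.BilinForm.apply_dualBasis_left]

theorem cas_ext_ce {X Y : 𝔰}
    (h : ∀ a, killingForm ℝ 𝔰 (ce 𝔰 a) X = killingForm ℝ 𝔰 (ce 𝔰 a) Y) : X = Y := by
  refine killing_ext fun U => ?_
  have : killingForm ℝ 𝔰 X = killingForm ℝ 𝔰 Y := by
    refine (Module.finBasis ℝ 𝔰).ext fun a => ?_
    rw [LieModule.traceForm_comm, LieModule.traceForm_comm ℝ 𝔰 𝔰 Y]
    exact h a
  rw [this]

theorem sum_cd (X : 𝔰) : ∑ a, killingForm ℝ 𝔰 (ce 𝔰 a) X • cd 𝔰 a = X := by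
  refine cas_ext_ce fun b => ?_
  simp [killing_ce_cd]

theorem sum_ce (X : 𝔰) : ∑ a, killingForm ℝ 𝔰 (cd 𝔰 a) X • ce 𝔰 a = X := by
  have h := (Module.finBasis ℝ 𝔰).sum_repr X
  conv_rhs => rw [← h]
  refine Finset.sum_congr rfl fun a _ => ?_
  congr 1
  conv_lhs => rw [← h]
  have : ∀ b, killingForm ℝ 𝔰 (cd 𝔰 a) (Module.finBasis ℝ 𝔰 b) = if b = a then 1 else 0 :=
    fun b => by rw [LieModule.traceForm_comm]; exact killing_ce_cd b a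
  simp only [map_sum, map_smul, this]
  simp

theorem killing_sum (φ : 𝔰 →ₗ[ℝ] ℝ) (X : 𝔰) :
    killingForm ℝ 𝔰 (∑ a, φ (ce 𝔰 a) • cd 𝔰 a) X = φ X := by
  conv_rhs => rw [← sum_ce X]
  simp [mul_comm]

variable {V : Type} [AddCommGroup V] [Module ℝ V]

theorem cas_adj (F : 𝔰 →ₗ[ℝ] 𝔰 →ₗ[ℝ] V) (T T' : 𝔰 →ₗ[ℝ] 𝔰)
    (h : ∀ x y, killingForm ℝ 𝔰 (T x) y = killingForm ℝ 𝔰 x (T' y)) :
    ∑ a, F (T (ce 𝔰 a)) (cd 𝔰 a) = ∑ a, F (ce 𝔰 a) (T' (cd 𝔰 a)) := by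
  calc ∑ a, F (T (ce 𝔰 a)) (cd 𝔰 a)
      = ∑ a, ∑ b, killingForm ℝ 𝔰 (cd 𝔰 b) (T (ce 𝔰 a)) • F (ce 𝔰 b) (cd 𝔰 a) := by
        refine Finset.sum_congr rfl fun a _ => ?_
        conv_lhs => rw [← sum_ce (T (ce 𝔰 a))]
        simp
    _ = ∑ b, ∑ a, killingForm ℝ 𝔰 (ce 𝔰 a) (T' (cd 𝔰 b)) • F (ce 𝔰 b) (cd 𝔰 a) := by
        rw [Finset.sum_comm]
        refine Finset.sum_congr rfl fun b _ => Finset.sum_congr rfl fun a _ => ?_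
        rw [← h, LieModule.traceForm_comm]
    _ = _ := by
        refine Finset.sum_congr rfl fun b _ => ?_
        conv_rhs => rw [← sum_cd (T' (cd 𝔰 b))]
        simp

theorem cas_symm (F : 𝔰 →ₗ[ℝ] 𝔰 →ₗ[ℝ] V) :
    ∑ a, F (ce 𝔰 a) (cd 𝔰 a) = ∑ a, F (cd 𝔰 a) (ce 𝔰 a) := by
  calc ∑ a, F (ce 𝔰 a) (cd 𝔰 a)
      = ∑ a, ∑ b, killingForm ℝ 𝔰 (ce 𝔰 b) (ce 𝔰 a) • F (cd 𝔰 b) (cd 𝔰 a) := by
        refine Finset.sum_congr rfl fun a _ => ?_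
        conv_lhs => rw [← sum_cd (ce 𝔰 a)]
        simp
    _ = ∑ b, ∑ a, killingForm ℝ 𝔰 (ce 𝔰 a) (ce 𝔰 b) • F (cd 𝔰 b) (cd 𝔰 a) := by
        rw [Finset.sum_comm]
        refine Finset.sum_congr rfl fun b _ => Finset.sum_congr rfl fun a _ => ?_
        rw [LieModule.traceForm_comm]
    _ = _ := by
        refine Finset.sum_congr rfl fun b _ => ?_
        conv_rhs => rw [← sum_cd (ce 𝔰 b)]
        simp

theorem cas_inv (F : 𝔰 →ₗ[ℝ] 𝔰 →ₗ[ℝ] V) (Y : 𝔰) :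
    ∑ a, F ⁅Y, ce 𝔰 a⁆ (cd 𝔰 a) + ∑ a, F (ce 𝔰 a) ⁅Y, cd 𝔰 a⁆ = 0 := by
  have := cas_adj F (LieAlgebra.ad ℝ 𝔰 Y) (-LieAlgebra.ad ℝ 𝔰 Y) fun x y => by
    have h := LieModule.traceForm_apply_lie_apply ℝ 𝔰 𝔰 x Y y
    rw [← lie_skew x Y, map_neg, LinearMap.neg_apply] at h
    simp only [LieAlgebra.ad_apply, LinearMap.neg_apply, map_neg]
    rw [← h, neg_neg]
  simp only [LieAlgebra.ad_apply, LinearMap.neg_apply, map_neg, Finset.sum_neg_distrib] at this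
  rw [this, neg_add_cancel]

theorem trace_eq_sum (T : 𝔰 →ₗ[ℝ] 𝔰) :
    LinearMap.trace ℝ 𝔰 T = ∑ a, killingForm ℝ 𝔰 (T (ce 𝔰 a)) (cd 𝔰 a) := by
  rw [LinearMap.trace_eq_matrix_trace ℝ (Module.finBasis ℝ 𝔰), Matrix.trace]
  refine Finset.sum_congr rfl fun a _ => ?_
  rw [Matrix.diag_apply, LinearMap.toMatrix_apply, LieModule.traceForm_comm]
  have h := sum_ce (T (ce 𝔰 a))
  have h2 : T (Module.finBasis ℝ 𝔰 a) = ∑ b, killingForm ℝ 𝔰 (cd 𝔰 b) (T (ce 𝔰 a)) •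
      Module.finBasis ℝ 𝔰 b := h.symm
  rw [h2]
  simp [Finsupp.single_apply]

end Crest.Agent.R264.P5
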