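import Crest.Agent.R264.Defs
import Crest.Agent.R264.Osgood

/-!
# Row 264, P5/P6 (helper6): definitions

* `PD`  : values and first derivatives at ONE point of a real Lie algebra of holomorphic fields;
* `LV`  : a real Lie algebra of holomorphic vector fields on an open set;
* `GM0` : the abstract graded model (`GM` without `tang`);
* `ce`, `cd` : a basis and its Killing dual basis.
-/

set_option autoImplicit false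
open Set Filter Topology Metric Complex
open scoped Matrix

noncomputable section
namespace Crest.Agent.R264.P5

section Cas
variable (𝔰 : Type) [LieRing 𝔰] [LieAlgebra ℝ 𝔰] [FiniteDimensional ℝ 𝔰]

/-- The index type of the chosen basis. -/
abbrev Ix : Type := Fin (Module.finrank ℝ 𝔰)

/-- The chosen basis. -/
def ce (a : Ix 𝔰) : 𝔰 := Module.finBasis ℝ 𝔰 a

/-- The Killing dual basis. -/
def cd [LieAlgebra.IsKilling ℝ 𝔰] (a : Ix 𝔰) : 𝔰 :=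
  (killingForm ℝ 𝔰).dualBasis (LieAlgebra.IsKilling.killingForm_nondegenerate ℝ 𝔰)
    (Module.finBasis ℝ 𝔰) a

/-- No proper ideals. -/
def Simp : Prop :=
  ∀ i : Submodule ℝ 𝔰, (∀ U : 𝔰, ∀ X ∈ i, ⁅U, X⁆ ∈ i) → i = ⊤ ∨ i = ⊥

/-- Non compact type. -/
def Pos : Prop := ∃ X : 𝔰, 0 < killingForm ℝ 𝔰 X X

end Cas

/-- First order data at one point. -/
structure PD (𝔰 : Type) [LieRing 𝔰] [LieAlgebra ℝ 𝔰] (E : Type) [NormedAddCommGroup E]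
    [NormedSpace ℂ E] [NormedSpace ℝ E] [IsScalarTower ℝ ℂ E] where
  v : 𝔰 →ₗ[ℝ] E
  d : 𝔰 →ₗ[ℝ] (E →L[ℂ] E)
  lie0 : ∀ X Y, v ⁅X, Y⁆ = d Y (v X) - d X (v Y)
  lie1 : ∀ K X X', v K = 0 → v X + I • v X' = 0 → ∀ u,
    d ⁅K, X⁆ u + I • d ⁅K, X'⁆ u =
      (d X (d K u) + I • d X' (d K u)) - d K (d X u + I • d X' u)

namespace PD
variable {𝔰 : Type} [LieRing 𝔰] [LieAlgebra ℝ 𝔰] {E : Type} [NormedAddCommGroup E]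
  [NormedSpace ℂ E] [NormedSpace ℝ E] [IsScalarTower ℝ ℂ E] (P : PD 𝔰 E)

/-- The Killing form is negative definite on the isotropy algebra. -/
def Neg : Prop := ∀ K, P.v K = 0 → killingForm ℝ 𝔰 K K ≤ 0 ∧ (killingForm ℝ 𝔰 K K = 0 → K = 0)

/-- The orbit is hermitian symmetric at the point, with complex structure `ad Z1`. -/
structure HS (Z1 : 𝔰) : Prop where
  zero : P.v Z1 = 0
  cx : ∀ X, P.v ⁅X, Z1⁆ = I • P.v X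
  comm : ∀ K, P.v K = 0 → ⁅K, Z1⁆ = 0

/-- Values. -/
def val : Submodule ℂ E := Submodule.span ℂ (range P.v)

/-- The complementary directions. -/
def Dist : Set E := {u | ∀ a b, P.v a + I • P.v b = 0 → P.d a u + I • P.d b u = 0}

variable [FiniteDimensional ℝ 𝔰] [LieAlgebra.IsKilling ℝ 𝔰]

def H1 : Prop := ∀ l : E →L[ℂ] ℂ, ∑ a, l (P.v (ce 𝔰 a)) • P.v (cd 𝔰 a) = 0

def H2 : Prop := ∀ (l : E →L[ℂ] ℂ) (V : 𝔰), ∑ a, l (P.v (ce 𝔰 a)) • P.v ⁅V, cd 𝔰 a⁆ = 0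

/-- The derivative of `H2` for normal covectors. -/
def DH2 : Prop := ∀ l : E →L[ℂ] ℂ, (∀ X, l (P.v X) = 0) → ∀ (u : E) (V : 𝔰),
  ∑ a, l (P.d (ce 𝔰 a) u) • P.v ⁅V, cd 𝔰 a⁆ = 0

/-- The Casimir endomorphism. -/
def cas : E →L[ℂ] E := (2 : ℂ) • ∑ a, (P.d (ce 𝔰 a)).comp (P.d (cd 𝔰 a))

/-- Everything that holds at a point for a good ideal. -/
structure Full (Z1 : 𝔰) : Prop where
  hs : P.HS Z1
  neg : P.Neg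
  dh : P.DH2
  simp : Simp 𝔰
  pos : Pos 𝔰

end PD

/-- A Lie algebra of holomorphic vector fields on an open set. -/
structure LV (𝔰 : Type) [LieRing 𝔰] [LieAlgebra ℝ 𝔰] (E : Type) [NormedAddCommGroup E]
    [NormedSpace ℂ E] [NormedSpace ℝ E] [IsScalarTower ℝ ℂ E] where
  W : Set E
  W_open : IsOpen W
  ev : 𝔰 →ₗ[ℝ] (E → E)
  diff : ∀ X, DifferentiableOn ℂ (ev X) W
  lie : ∀ X Y, ∀ ω ∈ W, ev ⁅X, Y⁆ ω = VectorField.lieBracket ℂ (ev X) (ev Y) ω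

namespace LV
variable {𝔰 : Type} [LieRing 𝔰] [LieAlgebra ℝ 𝔰] {E : Type} [NormedAddCommGroup E]
  [NormedSpace ℂ E] [NormedSpace ℝ E] [IsScalarTower ℝ ℂ E] (L : LV 𝔰 E)

/-- `P` is the first order data of `L` at `ω`. -/
def At (ω : E) (P : PD 𝔰 E) : Prop :=
  (∀ X, P.v X = L.ev X ω) ∧ ∀ X, P.d X = fderiv ℂ (L.ev X) ω

/-- Restriction to an ideal. -/
def res (s : LieIdeal ℝ 𝔰) : LV s E where
  W := L.W
  W_open := L.W_open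
  ev := L.ev.comp s.toSubmodule.subtype
  diff X := L.diff X
  lie X Y := L.lie X Y

variable [FiniteDimensional ℝ 𝔰] [LieAlgebra.IsKilling ℝ 𝔰]

def h1 (l : E →L[ℂ] ℂ) (ω : E) : E := ∑ a, l (L.ev (ce 𝔰 a) ω) • L.ev (cd 𝔰 a) ω

def h2 (l : E →L[ℂ] ℂ) (V : 𝔰) (ω : E) : E := ∑ a, l (L.ev (ce 𝔰 a) ω) • L.ev ⁅V, cd 𝔰 a⁆ ω

def cas (ω : E) : E →L[ℂ] E :=
  (2 : ℂ) • ∑ a, (fderiv ℂ (L.ev (ce 𝔰 a)) ω).comp (fderiv ℂ (L.ev (cd 𝔰 a)) ω)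

end LV

/-- The derivative of the period matrix. -/
def dκ {r k : ℕ} (κ : CN k → Matrix (Fin r) (Fin r) ℂ) (t c : CN k) : Matrix (Fin r) (Fin r) ℂ :=
  Matrix.of fun i j => fderiv ℂ (fun t => κ t i j) t c

/-- The symplectic form of the Heisenberg algebra. -/
def om {r : ℕ} (ζ η : CN r) : ℝ := -4 * (star η ⬝ᵥ ζ).im

/-- Slice points. -/
abbrev sl {r k : ℕ} (w : ℂ) (t : CN k) : PM r k := (w, 0, t)

/-- Abstract graded model (`GM` without the tangency condition). -/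
structure GM0 (𝔤 : Type) [LieRing 𝔤] [LieAlgebra ℝ 𝔤] (r k : ℕ) extends MBase r k where
  ev : 𝔤 →ₗ[ℝ] (PM r k → PM r k)
  diff : ∀ X, DifferentiableOn ℂ (ev X) toMBase.W
  lie : ∀ X Y, ∀ ω ∈ toMBase.W, ev ⁅X, Y⁆ ω = VectorField.lieBracket ℂ (ev X) (ev Y) ω
  A : 𝔤
  Z : 𝔤
  Xn : CN r →ₗ[ℝ] 𝔤
  evA : ∀ ω ∈ toMBase.W, ev A ω = fA ω
  evZ : ∀ ω ∈ toMBase.W, ev Z ω = fZ ω
  evX : ∀ ζ, ∀ ω ∈ toMBase.W, ev (Xn ζ) ω = fX κ ζ ω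
  jet : ∀ X, ∀ ω ∈ toMBase.W, ev X ω = 0 → fderiv ℂ (ev X) ω = 0 → X = 0
  ell : ∀ X, ∀ ω ∈ toMBase.W, ev X ω = 0 → IsSkew (LieAlgebra.ad ℝ 𝔤 X)
  noC : ∀ X Y, ⁅X, Y⁆ = 0 → ∀ ω ∈ toMBase.W, ∀ c : ℂ, c.im ≠ 0 → ev Y ω = c • ev X ω →
    ev X ω = 0
  uni : ∀ X, LinearMap.trace ℝ 𝔤 (LieAlgebra.ad ℝ 𝔤 X) = 0

namespace GM0
variable {𝔤 : Type} [LieRing 𝔤] [LieAlgebra ℝ 𝔤] {r k : ℕ} (G : GM0 𝔤 r k)

/-- The model domain. -/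
abbrev W : Set (PM r k) := G.toMBase.W

/-- The base. -/
abbrev T : Set (CN k) := ball G.t0 G.R

/-- `X` has weight `μ`. -/
def Wt (μ : ℝ) (X : 𝔤) : Prop := ⁅G.A, X⁆ = μ • X

/-- `Y` commutes with the Heisenberg algebra. -/
def Spec (Y : 𝔤) : Prop := ⁅G.Z, Y⁆ = 0 ∧ ∀ ζ, ⁅G.Xn ζ, Y⁆ = 0

/-- The result of the first phase: the contact grading. -/
structure Gr (Zp : 𝔤) : Prop where
  wZp : G.Wt 1 Zp
  hZ : ⁅G.Z, Zp⁆ = (2 : ℝ) • G.A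
  evZp : ∀ w : ℂ, 0 < w.im → ∀ t ∈ G.T, G.ev Zp (sl w t) = (w ^ 2, 0, 0)
  low : ∀ μ X, G.Wt μ X → μ ≠ -1 → μ ≠ -1 / 2 → μ ≠ 0 → μ ≠ 1 / 2 → μ ≠ 1 → X = 0
  m1 : ∀ X, G.Wt (-1) X → ∃ a : ℝ, X = a • G.Z
  mh : ∀ X, G.Wt (-1 / 2) X → ∃ ζ, X = G.Xn ζ
  ph : ∀ X, G.Wt (1 / 2) X → ∃ η, X = ⁅Zp, G.Xn η⁆
  p1 : ∀ X, G.Wt 1 X → ∃ b : ℝ, X = b • Zp
  dec : ∀ X, ∃ (a : ℝ) (ζ : CN r) (K : 𝔤) (η : CN r) (b : ℝ), G.Wt 0 K ∧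
    X = a • G.Z + G.Xn ζ + K + ⁅Zp, G.Xn η⁆ + b • Zp

/-- The symmetric moment map. -/
def mu (Zp : 𝔤) (ζ η : CN r) : 𝔤 := ⁅G.Xn ζ, ⁅Zp, G.Xn η⁆⁆ + om ζ η • G.A

/-- Its span. -/
def s0 (Zp : 𝔤) : Submodule ℝ 𝔤 := Submodule.span ℝ {K | ∃ ζ η, K = G.mu Zp ζ η}

/-- The ideal generated by `A`, as a set. -/
def InS (Zp X : 𝔤) : Prop := ∃ (a : ℝ) (ζ : CN r) (c : ℝ) (K : 𝔤) (η : CN r) (b : ℝ),
  K ∈ G.s0 Zp ∧ X = a • G.Z + G.Xn ζ + c • G.A + K + ⁅Zp, G.Xn η⁆ + b • Zp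

/-- `J` is the complex structure of the Heisenberg algebra attached to `t`. -/
def IsJ (t : CN k) (J : CN r →ₗ[ℝ] CN r) : Prop := ∀ ζ, bz (G.κ t) (J ζ) = I • bz (G.κ t) ζ

/-- `K` acts on the Heisenberg algebra by `L`. -/
def Act (K : 𝔤) (L : CN r →ₗ[ℝ] CN r) : Prop := ∀ ζ, ⁅G.Xn ζ, K⁆ = G.Xn (L ζ)

end GM0

end Crest.Agent.R264.P5
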