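import Crest.Agent.R264.P5.Cas

/-! Row 264, P5/P6: Lie algebras of vector fields on an open set. -/

set_option autoImplicit false
open Set Filter Topology Metric Complex
open scoped Matrix

noncomputable section
namespace Crest.Agent.R264.P5

theorem h69_an {E : Type} [NormedAddCommGroup E] [NormedSpace ℂ E]
    [FiniteDimensional ℂ E] {W : Set E} (hW : IsOpen W) {X : E → E}
    (hX : DifferentiableOn ℂ X W) {ω : E} (hω : ω ∈ W) : AnalyticAt ℂ X ω := by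
  have := FiniteDimensional.complete ℂ E
  exact SCV.analyticOnNhd hW hX ω hω

theorem h69_dd {E : Type} [NormedAddCommGroup E] [NormedSpace ℂ E]
    [FiniteDimensional ℂ E] {W : Set E} (hW : IsOpen W) {X : E → E}
    (hX : DifferentiableOn ℂ X W) {ω : E} (hω : ω ∈ W) : DifferentiableAt ℂ (fderiv ℂ X) ω := by
  have := FiniteDimensional.complete ℂ E
  exact (h69_an hW hX hω).fderiv.differentiableAt

theorem h69_fd {E : Type} [NormedAddCommGroup E] [NormedSpace ℂ E] {X Y : E → E} {ω : E}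
    (hX : DifferentiableAt ℂ X ω) (hY : DifferentiableAt ℂ Y ω) :
    fderiv ℂ (fun y => X y + I • Y y) ω = fderiv ℂ X ω + I • fderiv ℂ Y ω :=
  (hX.hasFDerivAt.add (hY.hasFDerivAt.const_smul I)).fderiv

/-- Derivative of the bracket of two holomorphic fields which vanish at the point. -/
theorem fderiv_lieBracket_zero {E : Type} [NormedAddCommGroup E] [NormedSpace ℂ E]
    [FiniteDimensional ℂ E] {W : Set E} (hW : IsOpen W) {X Y : E → E}
    (hX : DifferentiableOn ℂ X W) (hY : DifferentiableOn ℂ Y W) {ω : E} (hω : ω ∈ W)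
    (hX0 : X ω = 0) (hY0 : Y ω = 0) (u : E) :
    fderiv ℂ (VectorField.lieBracket ℂ X Y) ω u =
      fderiv ℂ Y ω (fderiv ℂ X ω u) - fderiv ℂ X ω (fderiv ℂ Y ω u) := by
  have h1 := ((h69_dd hW hY hω).hasFDerivAt.clm_apply
    (hX.differentiableAt (hW.mem_nhds hω)).hasFDerivAt).sub
    ((h69_dd hW hX hω).hasFDerivAt.clm_apply (hY.differentiableAt (hW.mem_nhds hω)).hasFDerivAt)
  have h2 : fderiv ℂ (VectorField.lieBracket ℂ X Y) ω = _ := h1.fderiv
  rw [h2, hX0, hY0]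
  simp

namespace LV
variable {𝔰 : Type} [LieRing 𝔰] [LieAlgebra ℝ 𝔰] {E : Type} [NormedAddCommGroup E]
  [NormedSpace ℂ E] [NormedSpace ℝ E] [IsScalarTower ℝ ℂ E] [FiniteDimensional ℂ E]
  (L : LV 𝔰 E)

/-- `lie1`: apply `fderiv_lieBracket_zero` to `ev K` and `ev X + I • ev X'`; on the open set `W`
the bracket is `ev [K,X] + I • ev [K,X']`. -/
theorem exists_pd {ω : E} (hω : ω ∈ L.W) : ∃ P : PD 𝔰 E, L.At ω P := by
  have hn := L.W_open.mem_nhds hω
  have hd : ∀ X, ∀ y ∈ L.W, DifferentiableAt ℂ (L.ev X) y := fun X y hy =>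
    (L.diff X).differentiableAt (L.W_open.mem_nhds hy)
  refine ⟨⟨(LinearMap.proj ω).comp L.ev,
    { toFun := fun X => fderiv ℂ (L.ev X) ω
      map_add' := fun X Y => by rw [map_add, fderiv_add (hd X ω hω) (hd Y ω hω)]
      map_smul' := fun r X => by rw [map_smul, fderiv_const_smul (hd X ω hω)]; rfl },
    fun X Y => L.lie X Y ω hω, fun K X X' h0 h1 u => ?_⟩, fun X => rfl, fun X => rfl⟩
  have e1 := fderiv_lieBracket_zero L.W_open (L.diff K)
    (Y := fun y => L.ev X y + I • L.ev X' y) ((L.diff X).add ((L.diff X').const_smul I)) hω h0 h1 u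
  have e2 : VectorField.lieBracket ℂ (L.ev K) (fun y => L.ev X y + I • L.ev X' y) =ᶠ[𝓝 ω]
      fun y => L.ev ⁅K, X⁆ y + I • L.ev ⁅K, X'⁆ y := by
    filter_upwards [hn] with y hy
    rw [L.lie K X y hy, L.lie K X' y hy]
    simp only [VectorField.lieBracket]
    rw [h69_fd (hd X y hy) (hd X' y hy)]
    simp only [add_apply, smul_apply, map_add, map_smul,
      smul_sub]
    abel
  rw [e2.fderiv_eq, h69_fd (hd _ ω hω) (hd _ ω hω), h69_fd (hd _ ω hω) (hd _ ω hω)] at e1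
  exact e1

/-- A complex combination which is a constant field differentiates by brackets. -/
theorem fderiv_const {Y Y' : 𝔰} {c : E} (hc : ∀ ω ∈ L.W, L.ev Y ω + I • L.ev Y' ω = c)
    (X : 𝔰) {ω : E} (hω : ω ∈ L.W) :
    fderiv ℂ (L.ev X) ω c = L.ev ⁅Y, X⁆ ω + I • L.ev ⁅Y', X⁆ ω := by
  have hn := L.W_open.mem_nhds hω
  have e1 : (fun y => L.ev Y y + I • L.ev Y' y) =ᶠ[𝓝 ω] fun _ => c := by
    filter_upwards [hn] with y hy using hc y hy
  have e2 := e1.fderiv_eq (𝕜 := ℂ)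
  rw [h69_fd ((L.diff Y).differentiableAt hn) ((L.diff Y').differentiableAt hn),
    fderiv_fun_const] at e2
  have e3 : fderiv ℂ (L.ev Y) ω (L.ev X ω) + I • fderiv ℂ (L.ev Y') ω (L.ev X ω) = 0 :=
    congrArg (fun T : E →L[ℂ] E => T (L.ev X ω)) e2
  rw [L.lie Y X ω hω, L.lie Y' X ω hω, ← hc ω hω, map_add, map_smul]
  simp only [VectorField.lieBracket, smul_sub]
  rw [sub_add_sub_comm, e3, sub_zero]

/-- The same for first derivatives (symmetry of the second derivative). -/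
theorem fderiv_fderiv_const {Y Y' : 𝔰} {c : E} (hc : ∀ ω ∈ L.W, L.ev Y ω + I • L.ev Y' ω = c)
    (X : 𝔰) {ω : E} (hω : ω ∈ L.W) :
    fderiv ℂ (fderiv ℂ (L.ev X)) ω c =
      fderiv ℂ (L.ev ⁅Y, X⁆) ω + I • fderiv ℂ (L.ev ⁅Y', X⁆) ω := by
  have hn := L.W_open.mem_nhds hω
  have e1 : (fun y => fderiv ℂ (L.ev X) y c) =ᶠ[𝓝 ω]
      fun y => L.ev ⁅Y, X⁆ y + I • L.ev ⁅Y', X⁆ y := by
    filter_upwards [hn] with y hy using L.fderiv_const hc X hy
  have e2 := e1.fderiv_eq (𝕜 := ℂ)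
  rw [h69_fd ((L.diff _).differentiableAt hn) ((L.diff _).differentiableAt hn),
    fderiv_clm_apply (h69_dd L.W_open (L.diff X) hω) (differentiableAt_const c)] at e2
  rw [← e2]
  ext u
  have := FiniteDimensional.complete ℂ E
  have hs : IsSymmSndFDerivAt ℂ (L.ev X) ω :=
    ContDiffAt.isSymmSndFDerivAt_of_omega (h69_an L.W_open (L.diff X) hω).contDiffAt
  rw [hs.eq c u]
  simp

omit [FiniteDimensional ℂ E] in
/-- The real bilinear map `(a, b) ↦ l (v a) • w b`. -/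
def h34_bil (l : E →L[ℂ] ℂ) (v w : 𝔰 →ₗ[ℝ] E) : 𝔰 →ₗ[ℝ] 𝔰 →ₗ[ℝ] E :=
  LinearMap.mk₂ ℝ (fun a b => l (v a) • w b) (by intros; simp [add_smul])
    (by intro r a b; rw [map_smul, l.map_smul_of_tower, smul_assoc])
    (by intros; simp)
    (by
      intro r a b
      rw [map_smul, ← smul_one_smul ℂ r (w b), smul_comm, smul_one_smul])

omit [FiniteDimensional ℂ E] in
theorem h34_bil_apply (l : E →L[ℂ] ℂ) (v w : 𝔰 →ₗ[ℝ] E) (a b : 𝔰) :
    h34_bil l v w a b = l (v a) • w b := rfl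

omit [FiniteDimensional ℂ E] in
theorem h34_fderiv {ι : Type} [Fintype ι] (l : E →L[ℂ] ℂ) (f g : ι → 𝔰) {ω : E} (hω : ω ∈ L.W)
    (u : E) : fderiv ℂ (fun ω => ∑ a, l (L.ev (f a) ω) • L.ev (g a) ω) ω u =
      ∑ a, (l (L.ev (f a) ω) • fderiv ℂ (L.ev (g a)) ω u +
        l (fderiv ℂ (L.ev (f a)) ω u) • L.ev (g a) ω) := by
  have hd : ∀ X, HasFDerivAt (L.ev X) (fderiv ℂ (L.ev X) ω) ω := fun X =>
    ((L.diff X).differentiableAt (L.W_open.mem_nhds hω)).hasFDerivAt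
  have h1 := HasFDerivAt.fun_sum (u := Finset.univ)
    fun a _ => (l.hasFDerivAt.comp ω (hd (f a))).fun_smul (hd (g a))
  simp only [Function.comp_def] at h1
  rw [h1.fderiv]
  simp

variable [FiniteDimensional ℝ 𝔰] [LieAlgebra.IsKilling ℝ 𝔰]

omit [FiniteDimensional ℂ E] in
theorem h1_diff (l : E →L[ℂ] ℂ) : DifferentiableOn ℂ (L.h1 l) L.W := by
  exact DifferentiableOn.fun_sum fun a _ =>
    (l.differentiable.comp_differentiableOn (L.diff _)).smul (L.diff _)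

omit [FiniteDimensional ℂ E] in
theorem h2_diff (l : E →L[ℂ] ℂ) (V : 𝔰) : DifferentiableOn ℂ (L.h2 l V) L.W := by
  exact DifferentiableOn.fun_sum fun a _ =>
    (l.differentiable.comp_differentiableOn (L.diff _)).smul (L.diff _)

theorem cas_diff : DifferentiableOn ℂ L.cas L.W := by
  intro ω hω
  exact ((DifferentiableAt.fun_sum fun a _ => (h69_dd L.W_open (L.diff _) hω).clm_comp
    (h69_dd L.W_open (L.diff _) hω)).const_smul (2 : ℂ)).differentiableWithinAt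

omit [FiniteDimensional ℂ E] in
theorem At.H1_iff {L : LV 𝔰 E} {ω : E} {P : PD 𝔰 E} (h : L.At ω P) :
    P.H1 ↔ ∀ l, L.h1 l ω = 0 := by
  simp only [PD.H1, LV.h1, h.1]

omit [FiniteDimensional ℂ E] in
theorem At.H2_iff {L : LV 𝔰 E} {ω : E} {P : PD 𝔰 E} (h : L.At ω P) :
    P.H2 ↔ ∀ l V, L.h2 l V ω = 0 := by
  simp only [PD.H2, LV.h2, h.1]

omit [FiniteDimensional ℂ E] in
theorem At.cas_eq {L : LV 𝔰 E} {ω : E} {P : PD 𝔰 E} (h : L.At ω P) : P.cas = L.cas ω := by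
  simp only [PD.cas, LV.cas, h.2]

omit [FiniteDimensional ℂ E] in
/-- Differentiate `h2 l V = 0` at `ω`. -/
theorem At.dh2 {L : LV 𝔰 E} {ω : E} {P : PD 𝔰 E} (h : L.At ω P) (hω : ω ∈ L.W)
    (h2 : ∀ l V, ∀ ω' ∈ L.W, L.h2 l V ω' = 0) : P.DH2 := by
  intro l hl u V
  have e : L.h2 l V =ᶠ[𝓝 ω] fun _ => 0 :=
    (L.W_open.eventually_mem hω).mono fun ω' hω' => h2 l V ω' hω'
  have e0 : fderiv ℂ (L.h2 l V) ω u = 0 := by
    rw [e.fderiv_eq]; simp
  have e1 := L.h34_fderiv l (ce 𝔰) (fun a => ⁅V, cd 𝔰 a⁆) hω u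
  have e2 : L.h2 l V = fun ω => ∑ a, l (L.ev (ce 𝔰 a) ω) • L.ev ⁅V, cd 𝔰 a⁆ ω := rfl
  rw [← e2, e0] at e1
  simp only [← h.1, ← h.2, hl, zero_smul, zero_add] at e1
  exact e1.symm

/-- `fderiv_const` and `cas_inv`. -/
theorem fderiv_h1 {Y Y' : 𝔰} {c : E} (hc : ∀ ω ∈ L.W, L.ev Y ω + I • L.ev Y' ω = c)
    (l : E →L[ℂ] ℂ) {ω : E} (hω : ω ∈ L.W) : fderiv ℂ (L.h1 l) ω c = 0 := by
  obtain ⟨P, hP⟩ := L.exists_pd hω
  have e1 := L.h34_fderiv l (ce 𝔰) (cd 𝔰) hω c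
  have e2 : L.h1 l = fun ω => ∑ a, l (L.ev (ce 𝔰 a) ω) • L.ev (cd 𝔰 a) ω := rfl
  rw [e2, e1]
  simp only [L.fderiv_const hc _ hω, ← hP.1]
  have k := fun U => cas_inv (h34_bil l P.v P.v) U
  simp only [h34_bil_apply] at k
  have k1 := k Y
  have k2 := k Y'
  simp only [map_add, map_smul, smul_add, add_smul, Finset.sum_add_distrib, smul_eq_mul, mul_smul,
    smul_comm _ I, ← Finset.smul_sum]
  linear_combination (norm := module) k1 + I • k2

theorem fderiv_h2 {Y Y' : 𝔰} {c : E} (hc : ∀ ω ∈ L.W, L.ev Y ω + I • L.ev Y' ω = c)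
    (l : E →L[ℂ] ℂ) (V : 𝔰) {ω : E} (hω : ω ∈ L.W) :
    fderiv ℂ (L.h2 l V) ω c = L.h2 l ⁅Y, V⁆ ω + I • L.h2 l ⁅Y', V⁆ ω := by
  obtain ⟨P, hP⟩ := L.exists_pd hω
  have e1 := L.h34_fderiv l (ce 𝔰) (fun a => ⁅V, cd 𝔰 a⁆) hω c
  have e2 : L.h2 l V = fun ω => ∑ a, l (L.ev (ce 𝔰 a) ω) • L.ev ⁅V, cd 𝔰 a⁆ ω := rfl
  rw [e2, e1]
  simp only [L.fderiv_const hc _ hω, LV.h2, ← hP.1]
  have k := fun U => cas_inv (h34_bil l P.v (P.v.comp (LieAlgebra.ad ℝ 𝔰 V))) U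
  simp only [h34_bil_apply, LinearMap.comp_apply, LieAlgebra.ad_apply] at k
  have k1 := k Y
  have k2 := k Y'
  simp only [leibniz_lie Y V, leibniz_lie Y' V, map_add, map_smul, smul_add, add_smul,
    Finset.sum_add_distrib, smul_eq_mul, mul_smul, smul_comm _ I, ← Finset.smul_sum]
  linear_combination (norm := module) k1 + I • k2

theorem fderiv_cas {Y Y' : 𝔰} {c : E} (hc : ∀ ω ∈ L.W, L.ev Y ω + I • L.ev Y' ω = c)
    {ω : E} (hω : ω ∈ L.W) : fderiv ℂ L.cas ω c = 0 := by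
  obtain ⟨P, hP⟩ := L.exists_pd hω
  have : CompleteSpace E := FiniteDimensional.complete ℂ E
  have hd : ∀ X, HasFDerivAt (fderiv ℂ (L.ev X)) (fderiv ℂ (fderiv ℂ (L.ev X)) ω) ω := fun X =>
    ((SCV.differentiableOn_fderiv L.W_open (L.diff X)).differentiableAt
      (L.W_open.mem_nhds hω)).hasFDerivAt
  have h1 := (HasFDerivAt.fun_sum (u := Finset.univ)
    fun a _ => (hd (ce 𝔰 a)).clm_comp (hd (cd 𝔰 a))).fun_const_smul (2 : ℂ)
  have e2 : L.cas = fun ω => (2 : ℂ) •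
    ∑ a, (fderiv ℂ (L.ev (ce 𝔰 a)) ω).comp (fderiv ℂ (L.ev (cd 𝔰 a)) ω) := rfl
  rw [e2, h1.fderiv]
  ext u
  have k := fun U => cas_inv (LinearMap.mk₂ ℝ (fun a b : 𝔰 => P.d a (P.d b u))
    (by intros; simp) (by intros; simp) (by intros; simp)
    (by intro r a b; rw [map_smul]; exact (P.d a).map_smul_of_tower r _)) U
  simp only [LinearMap.mk₂_apply] at k
  have k1 := k Y
  have k2 := k Y'
  simp only [smul_apply, sum_apply,
    add_apply, ContinuousLinearMap.comp_apply, ContinuousLinearMap.compL_apply,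
    ContinuousLinearMap.flip_apply, L.fderiv_fderiv_const hc _ hω, ← hP.2, map_add, map_smul,
    Finset.sum_add_distrib, ← Finset.smul_sum, zero_apply]
  linear_combination (norm := module) (2 : ℂ) • k1 + (2 * I) • k2

end LV

end Crest.Agent.R264.P5
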