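import Mathlib

/-! Row 264, P5: lowering operators and eigenspaces (helper15). -/

set_option autoImplicit false
open scoped TensorProduct

noncomputable section
namespace Crest.Agent.R264.P5

variable {Q : Type} [AddCommGroup Q] [Module ℝ Q]

/-- Real components of a complexified vector. -/
def h15_part (φ : ℂ →ₗ[ℝ] ℝ) : ℂ ⊗[ℝ] Q →ₗ[ℝ] Q :=
  TensorProduct.lift ((LinearMap.lsmul ℝ Q).comp φ)

theorem h15_part_tmul (φ : ℂ →ₗ[ℝ] ℝ) (a : ℂ) (q : Q) : h15_part φ (a ⊗ₜ[ℝ] q) = φ a • q := by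
  simp [h15_part]

theorem h15_part_comm (φ : ℂ →ₗ[ℝ] ℝ) (g : Module.End ℝ Q) (v : ℂ ⊗[ℝ] Q) :
    h15_part φ (g.baseChange ℂ v) = g (h15_part φ v) := by
  induction v using TensorProduct.induction_on with
  | zero => simp
  | tmul a q => simp [h15_part_tmul]
  | add x y hx hy => simp [hx, hy]

theorem h15_part_sum (v : ℂ ⊗[ℝ] Q) :
    v = (1 : ℂ) ⊗ₜ[ℝ] h15_part Complex.reLm v + Complex.I ⊗ₜ[ℝ] h15_part Complex.imLm v := by
  induction v using TensorProduct.induction_on with
  | zero => simp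
  | tmul a q =>
    rw [h15_part_tmul, h15_part_tmul, ← TensorProduct.smul_tmul, ← TensorProduct.smul_tmul,
      ← TensorProduct.add_tmul]
    congr 1
    simp
  | add x y hx hy =>
    rw [map_add, map_add, TensorProduct.tmul_add, TensorProduct.tmul_add]
    conv_lhs => rw [hx, hy]
    abel

theorem h15_low [FiniteDimensional ℝ Q] [Nontrivial Q] {ι : Type} (f : Module.End ℝ Q)
    (L : ι → Module.End ℝ Q) (s : ι → ℝ) (hs : ∀ i, 0 < s i)
    (h : ∀ i x, L i (f x) = f (L i x) + s i • L i x) : ∃ Y, Y ≠ 0 ∧ ∀ i, L i Y = 0 := by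
  have : Nontrivial (ℂ ⊗[ℝ] Q) := by
    apply Module.nontrivial_of_finrank_pos (R := ℂ)
    rw [Module.finrank_baseChange]
    exact Module.finrank_pos
  let F : Module.End ℂ (ℂ ⊗[ℝ] Q) := f.baseChange ℂ
  obtain ⟨z, hz, hmin⟩ := Set.exists_min_image {z | F.HasEigenvalue z} Complex.re
    F.finite_hasEigenvalue (Module.End.exists_eigenvalue F)
  obtain ⟨v, hv⟩ := Module.End.HasEigenvalue.exists_hasEigenvector hz
  have hc : ∀ i (w : ℂ ⊗[ℝ] Q), (L i).baseChange ℂ (F w) =
      F ((L i).baseChange ℂ w) + (s i : ℂ) • (L i).baseChange ℂ w := by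
    intro i w
    induction w using TensorProduct.induction_on with
    | zero => simp
    | tmul a q =>
      simp only [F, LinearMap.baseChange_tmul, h, TensorProduct.tmul_add, TensorProduct.tmul_smul]
      rfl
    | add x y hx hy =>
      simp only [map_add, hx, hy, smul_add]
      abel
  have h0 : ∀ i, (L i).baseChange ℂ v = 0 := by
    intro i
    by_contra hne
    have e : F ((L i).baseChange ℂ v) = (z - s i) • (L i).baseChange ℂ v := by
      have := hc i v
      rw [hv.apply_eq_smul, map_smul] at this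
      rw [sub_smul, this]
      abel
    have := hmin (z - s i) (Module.End.hasEigenvalue_of_hasEigenvector
      ⟨Module.End.mem_eigenspace_iff.mpr e, hne⟩)
    simp only [Complex.sub_re, Complex.ofReal_re] at this
    linarith [hs i]
  have hp : ∀ (φ : ℂ →ₗ[ℝ] ℝ) i, L i (h15_part φ v) = 0 := by
    intro φ i
    rw [← h15_part_comm, h0, map_zero]
  by_cases h1 : h15_part Complex.reLm v = 0
  · refine ⟨_, fun h2 => hv.2 ?_, hp Complex.imLm⟩
    rw [h15_part_sum v, h1, h2]
    simp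
  · exact ⟨_, h1, hp Complex.reLm⟩

theorem h15_exists_low [FiniteDimensional ℝ Q] {ι : Type} (f : Module.End ℝ Q)
    (L : ι → Module.End ℝ Q) (s : ι → ℝ)
    (hs : ∀ i, 0 < s i) (h : ∀ i x, L i (f x) = f (L i x) + s i • L i x) (S : Submodule ℝ Q)
    (hf : ∀ x ∈ S, f x ∈ S) (hL : ∀ i, ∀ x ∈ S, L i x ∈ S) (hS : S ≠ ⊤) :
    ∃ Y, Y ∉ S ∧ ∀ i, L i Y ∈ S := by
  have : Nontrivial (Q ⧸ S) := Submodule.Quotient.nontrivial_iff.mpr hS
  obtain ⟨Y, hY, hLY⟩ := h15_low (S.mapQ S f hf) (fun i => S.mapQ S (L i) (hL i)) s hs (by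
    intro i x
    obtain ⟨x, rfl⟩ := S.mkQ_surjective x
    simp only [Submodule.mkQ_apply, Submodule.mapQ_apply, h, Submodule.Quotient.mk_add,
      Submodule.Quotient.mk_smul])
  obtain ⟨Y, rfl⟩ := S.mkQ_surjective Y
  refine ⟨Y, fun hm => hY ((Submodule.Quotient.mk_eq_zero S).mpr hm), fun i => ?_⟩
  have := hLY i
  rw [Submodule.mkQ_apply, Submodule.mapQ_apply] at this
  exact (Submodule.Quotient.mk_eq_zero S).mp this

theorem h15_mem_iSup (f : Module.End ℝ Q) (s : Finset ℝ) (Y : Q)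
    (h : Polynomial.aeval f (∏ μ ∈ s, (Polynomial.X - Polynomial.C μ)) Y = 0) :
    Y ∈ ⨆ μ ∈ s, f.eigenspace μ := by
  classical
  induction s using Finset.induction_on generalizing Y with
  | empty =>
    have : Y = 0 := by simpa using h
    rw [this]
    exact Submodule.zero_mem _
  | insert a s ha ih =>
    rw [Finset.prod_insert ha, mul_comm, map_mul, Module.End.mul_apply] at h
    have h1 := ih _ h
    have hle : (⨆ μ ∈ s, f.eigenspace μ) ≤ (⨆ μ ∈ s, f.eigenspace μ).map
        (Polynomial.aeval f (Polynomial.X - Polynomial.C a) : Module.End ℝ Q) := by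
      refine iSup₂_le fun μ hμ y hy => ?_
      have hne : μ - a ≠ 0 := sub_ne_zero.mpr fun e => ha (e ▸ hμ)
      refine ⟨(μ - a)⁻¹ • y, Submodule.smul_mem _ _
        (Submodule.mem_iSup_of_mem μ (Submodule.mem_iSup_of_mem hμ hy)), ?_⟩
      have hy' := Module.End.mem_eigenspace_iff.mp hy
      simp only [map_smul, map_sub, Polynomial.aeval_X, Polynomial.aeval_C, LinearMap.sub_apply,
        Module.algebraMap_end_apply, hy']
      rw [← sub_smul, smul_smul, inv_mul_cancel₀ hne, one_smul]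
    obtain ⟨w, hw, hwe⟩ := hle h1
    have h2 : Y - w ∈ f.eigenspace a := by
      rw [Module.End.mem_eigenspace_iff]
      simp only [map_sub, Polynomial.aeval_X, Polynomial.aeval_C, LinearMap.sub_apply,
        Module.algebraMap_end_apply] at hwe
      rw [map_sub, smul_sub]
      linear_combination (norm := module) -hwe
    have h3 : (⨆ μ ∈ s, f.eigenspace μ) ≤ ⨆ μ ∈ insert a s, f.eigenspace μ :=
      biSup_mono fun μ hμ => Finset.mem_insert_of_mem hμ
    have h4 : Y - w ∈ ⨆ μ ∈ insert a s, f.eigenspace μ :=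
      Submodule.mem_iSup_of_mem a (Submodule.mem_iSup_of_mem (Finset.mem_insert_self a s) h2)
    simpa using Submodule.add_mem _ h4 (h3 hw)

theorem h15_aeval_zero (f : Module.End ℝ Q) (s : Finset ℝ) (p : Polynomial ℝ)
    (hp : ∀ μ ∈ s, p.eval μ = 0) (Y : Q) (h : Y ∈ ⨆ μ ∈ s, f.eigenspace μ) :
    Polynomial.aeval f p Y = 0 := by
  have hle : (⨆ μ ∈ s, f.eigenspace μ) ≤
      LinearMap.ker (Polynomial.aeval f p : Module.End ℝ Q) := by
    refine iSup₂_le fun μ hμ y hy => ?_
    rw [LinearMap.mem_ker]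
    by_cases h0 : y = 0
    · rw [h0, map_zero]
    · rw [Module.End.aeval_apply_of_hasEigenvector ⟨hy, h0⟩, hp μ hμ, zero_smul]
  exact hle h

end Crest.Agent.R264.P5
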