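import Crest.Agent.R264.P5.Defs
import Crest.Agent.R264.P5.Lin_h15

/-! Row 264, P5/P6: linear algebra lemmas. -/

set_option autoImplicit false
open Set Filter Topology Metric Complex
open scoped Matrix

noncomputable section
namespace Crest.Agent.R264.P5

section
variable {V : Type} [AddCommGroup V] [Module ℝ V] [FiniteDimensional ℝ V]

/-- Take a `β`-orthonormal basis `e` (e.g. `InnerProductSpace.Core` from `β` and
`stdOrthonormalBasis`, or `LinearMap.BilinForm.exists_orthogonal_basis`):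
`tr (f f) = ∑ β (f f e_i) e_i / β e_i e_i = - ∑ β (f e_i) (f e_i) / β e_i e_i`. -/
theorem skew_trace {f : Module.End ℝ V} (h : IsSkew f) :
    LinearMap.trace ℝ V (f * f) ≤ 0 ∧ (LinearMap.trace ℝ V (f * f) = 0 → f = 0) := by
  obtain ⟨β, h1, h2, h3⟩ := h
  obtain ⟨e, he⟩ := LinearMap.BilinForm.exists_orthogonal_basis (B := β) ⟨h1⟩
  have hnn : ∀ x, 0 ≤ β x x := fun x => by
    rcases eq_or_ne x 0 with rfl | hx
    · simp
    · exact (h2 x hx).le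
  have hr : ∀ x i, e.repr x i = β x (e i) / β (e i) (e i) := fun x i => by
    rw [eq_div_iff (h2 _ (e.ne_zero i)).ne']
    conv_rhs => rw [← e.sum_repr x]
    rw [map_sum, LinearMap.sum_apply, Finset.sum_eq_single i]
    · simp
    · intro j _ hj
      simp [LinearMap.isOrthoᵢ_def.1 he j i hj]
    · exact fun hi => absurd (Finset.mem_univ i) hi
  have ht : LinearMap.trace ℝ V (f * f) = -∑ i, β (f (e i)) (f (e i)) / β (e i) (e i) := by
    rw [LinearMap.trace_eq_matrix_trace ℝ e, Matrix.trace, ← Finset.sum_neg_distrib]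
    refine Finset.sum_congr rfl fun i _ => ?_
    rw [Matrix.diag_apply, LinearMap.toMatrix_apply, hr, Module.End.mul_apply, ← neg_div,
      eq_neg_of_add_eq_zero_left (h3 (f (e i)) (e i))]
  have hp : ∀ i ∈ Finset.univ, 0 ≤ β (f (e i)) (f (e i)) / β (e i) (e i) :=
    fun i _ => div_nonneg (hnn _) (hnn _)
  rw [ht]
  refine ⟨neg_nonpos.2 (Finset.sum_nonneg hp), fun h0 => e.ext fun i => ?_⟩
  have := (Finset.sum_eq_zero_iff_of_nonneg hp).1 (neg_eq_zero.1 h0) i (Finset.mem_univ i)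
  by_contra hne
  exact (div_pos (h2 _ hne) (h2 _ (e.ne_zero i))).ne' this

omit [FiniteDimensional ℝ V] in
theorem skew_restrict {f : Module.End ℝ V} (h : IsSkew f) (p : Submodule ℝ V)
    (g : Module.End ℝ p) (hg : ∀ x : p, (g x : V) = f x) : IsSkew g := by
  obtain ⟨β, h1, h2, h3⟩ := h
  refine ⟨β.restrict p, fun u v => h1 u v, fun v hv => h2 v fun e => hv (Subtype.ext e),
    fun u v => ?_⟩
  change β (g u) v + β u (g v) = 0
  rw [hg, hg]
  exact h3 u v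

/-- Lowering operators have a common kernel vector modulo a proper invariant subspace.
Pass to `Q = V ⧸ S ≠ 0` (`Submodule.mapQ`).  Let `m` be the minimal polynomial of `f` on `Q`, `z` a
complex root of `m` with minimal real part, `π = minpoly ℝ z` (its complex roots are `z`, `conj z`;
or take `π = (X - z)(X - conj z)` with real coefficients).  `π(f)` is not injective (`π` and `m` are
not coprime), take `v ≠ 0` with `π(f) v = 0`.  From `L f = (f + s) L` one gets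
`L π(f) = π(f + s) L`; `π(X + s)` has roots `z - s`, `conj z - s`, which are not roots of `m`, so it
is coprime to `m` (`Polynomial.isCoprime_iff_aeval_ne_zero_of_isAlgClosed`), `π(f + s)` is
injective and `L v = 0`.  (Alternative: complexify with `baseChange` and use an eigenvector.) -/
theorem exists_low {ι : Type} (f : Module.End ℝ V) (L : ι → Module.End ℝ V) (s : ι → ℝ)
    (hs : ∀ i, 0 < s i) (h : ∀ i x, L i (f x) = f (L i x) + s i • L i x) (S : Submodule ℝ V)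
    (hf : ∀ x ∈ S, f x ∈ S) (hL : ∀ i, ∀ x ∈ S, L i x ∈ S) (hS : S ≠ ⊤) :
    ∃ Y, Y ∉ S ∧ ∀ i, L i Y ∈ S :=
  h15_exists_low f L s hs h S hf hL hS

omit [FiniteDimensional ℝ V] in
/-- A vector killed by a split squarefree polynomial is a sum of eigenvectors (induction on `s`:
`(f - a) Y = ∑ y_μ`, `Y - ∑ (μ - a)⁻¹ y_μ` is an eigenvector for `a`). -/
theorem mem_iSup_eigenspace (f : Module.End ℝ V) (s : Finset ℝ) (Y : V)
    (h : Polynomial.aeval f (∏ μ ∈ s, (Polynomial.X - Polynomial.C μ)) Y = 0) :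
    Y ∈ ⨆ μ ∈ s, f.eigenspace μ :=
  h15_mem_iSup f s Y h

omit [FiniteDimensional ℝ V] in
/-- Conversely. -/
theorem aeval_eq_zero_of_mem (f : Module.End ℝ V) (s : Finset ℝ) (p : Polynomial ℝ)
    (hp : ∀ μ ∈ s, p.eval μ = 0) (Y : V) (h : Y ∈ ⨆ μ ∈ s, f.eigenspace μ) :
    Polynomial.aeval f p Y = 0 :=
  h15_aeval_zero f s p hp Y h

/-- `LinearMap.trace_eq_sum_trace_restrict`, `Module.End.eigenspaces_iSupIndep`. -/
theorem trace_eq_sum_eigen (f : Module.End ℝ V) (s : Finset ℝ)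
    (h : ⨆ μ ∈ s, f.eigenspace μ = ⊤) :
    LinearMap.trace ℝ V f = ∑ μ ∈ s, μ * (Module.finrank ℝ (f.eigenspace μ) : ℝ) := by
  classical
  have hi : DirectSum.IsInternal fun μ : s => f.eigenspace μ :=
    DirectSum.isInternal_submodule_of_iSupIndep_of_iSup_eq_top
      (f.eigenspaces_iSupIndep.comp Subtype.val_injective) (by rw [← h, iSup_subtype])
  have hm : ∀ μ : s, MapsTo f (f.eigenspace μ) (f.eigenspace μ) := fun μ x hx => by
    have hx' := Module.End.mem_eigenspace_iff.1 hx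
    rw [hx']
    exact Submodule.smul_mem _ _ hx
  rw [LinearMap.trace_eq_sum_trace_restrict hi hm, ← Finset.sum_coe_sort s]
  refine Finset.sum_congr rfl fun μ _ => ?_
  have : f.restrict (hm μ) = (μ : ℝ) • LinearMap.id := by
    ext x
    exact Module.End.mem_eigenspace_iff.1 x.2
  rw [this, map_smul, LinearMap.trace_id, smul_eq_mul]

omit [FiniteDimensional ℝ V] in
/-- Components of an element of an invariant subspace (apply `f` four times, Vandermonde). -/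
theorem comp_mem (f : Module.End ℝ V) (i : Submodule ℝ V) (hi : ∀ x ∈ i, f x ∈ i)
    {x₁ x₂ x₃ x₄ x₅ : V} (h₁ : f x₁ = (-1 : ℝ) • x₁) (h₂ : f x₂ = (-1 / 2 : ℝ) • x₂)
    (h₃ : f x₃ = (0 : ℝ) • x₃) (h₄ : f x₄ = (1 / 2 : ℝ) • x₄) (h₅ : f x₅ = (1 : ℝ) • x₅)
    (h : x₁ + x₂ + x₃ + x₄ + x₅ ∈ i) : x₁ ∈ i ∧ x₂ ∈ i ∧ x₃ ∈ i ∧ x₄ ∈ i ∧ x₅ ∈ i := by
  have step : ∀ c a₁ a₂ a₃ a₄ a₅ : ℝ, a₁ • x₁ + a₂ • x₂ + a₃ • x₃ + a₄ • x₄ + a₅ • x₅ ∈ i →
      (a₁ * (-1 - c)) • x₁ + (a₂ * (-1 / 2 - c)) • x₂ + (a₃ * (0 - c)) • x₃ +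
        (a₄ * (1 / 2 - c)) • x₄ + (a₅ * (1 - c)) • x₅ ∈ i := by
    intro c a₁ a₂ a₃ a₄ a₅ ha
    have := i.sub_mem (hi _ ha) (i.smul_mem c ha)
    simp only [map_add, map_smul, h₁, h₂, h₃, h₄, h₅] at this
    convert this using 1
    module
  have h0 : (1 : ℝ) • x₁ + (1 : ℝ) • x₂ + (1 : ℝ) • x₃ + (1 : ℝ) • x₄ + (1 : ℝ) • x₅ ∈ i := by
    simpa only [one_smul] using h
  have four := fun c₁ c₂ c₃ c₄ : ℝ =>
    step c₄ _ _ _ _ _ (step c₃ _ _ _ _ _ (step c₂ _ _ _ _ _ (step c₁ _ _ _ _ _ h0)))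
  have k₁ := four (-1 / 2) 0 (1 / 2) 1
  have k₂ := four (-1) 0 (1 / 2) 1
  have k₃ := four (-1) (-1 / 2) (1 / 2) 1
  have k₄ := four (-1) (-1 / 2) 0 1
  have k₅ := four (-1) (-1 / 2) 0 (1 / 2)
  simp only [sub_self, mul_zero, zero_mul, zero_smul, add_zero, zero_add] at k₁ k₂ k₃ k₄ k₅
  exact ⟨(i.smul_mem_iff (by norm_num)).1 k₁, (i.smul_mem_iff (by norm_num)).1 k₂,
    (i.smul_mem_iff (by norm_num)).1 k₃, (i.smul_mem_iff (by norm_num)).1 k₄,
    (i.smul_mem_iff (by norm_num)).1 k₅⟩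

omit [FiniteDimensional ℝ V] in
/-- A linear relation which is total and single valued is a linear map. -/
theorem exists_linear_of_rel {V' : Type} [AddCommGroup V'] [Module ℝ V'] (R : V → V' → Prop)
    (hadd : ∀ x y x' y', R x x' → R y y' → R (x + y) (x' + y'))
    (hsmul : ∀ (c : ℝ) x x', R x x' → R (c • x) (c • x')) (htot : ∀ x, ∃ x', R x x')
    (huniq : ∀ x', R 0 x' → x' = 0) : ∃ δ : V →ₗ[ℝ] V', ∀ x x', R x x' ↔ δ x = x' := by
  choose δ hδ using htot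
  have hu : ∀ x a b, R x a → R x b → a = b := fun x a b ha hb => by
    have := hadd _ _ _ _ ha (hsmul (-1) _ _ hb)
    rw [neg_one_smul, neg_one_smul, add_neg_cancel] at this
    exact add_neg_eq_zero.1 (huniq _ this)
  exact ⟨{  toFun := δ
            map_add' := fun x y => hu _ _ _ (hδ _) (hadd _ _ _ _ (hδ x) (hδ y))
            map_smul' := fun c x => hu _ _ _ (hδ _) (hsmul c _ _ (hδ x)) },
    fun x x' => ⟨fun h => hu _ _ _ (hδ x) h, fun h => h ▸ hδ x⟩⟩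

end

section
variable {E : Type} [NormedAddCommGroup E] [NormedSpace ℂ E] [NormedSpace ℝ E]
  [IsScalarTower ℝ ℂ E] [FiniteDimensional ℂ E]

/-- A real functional which kills the kernel of `v` is the real part of a complex functional
(factor through the range, extend to `E`, put `l x = φ x - I * φ (I • x)`). -/
theorem exists_re {V : Type} [AddCommGroup V] [Module ℝ V] (v : V →ₗ[ℝ] E) (φ : V →ₗ[ℝ] ℝ)
    (h : ∀ x, v x = 0 → φ x = 0) : ∃ l : E →L[ℂ] ℂ, ∀ x, (l (v x)).re = φ x := by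
  have h1 : φ ∈ LinearMap.range v.dualMap := by
    rw [LinearMap.range_dualMap_eq_dualAnnihilator_ker]
    exact (Submodule.mem_dualAnnihilator φ).2 h
  obtain ⟨ψ, rfl⟩ := h1
  exact ⟨LinearMap.toContinuousLinearMap (Module.Dual.extendRCLike (𝕜 := ℂ) ψ), fun x =>
    Module.Dual.re_extendRCLike_apply (𝕜 := ℂ) ψ (v x)⟩

omit [NormedSpace ℝ E] [IsScalarTower ℝ ℂ E] in
theorem mem_of_forall_dual (p : Submodule ℂ E) (u : E)
    (h : ∀ l : E →L[ℂ] ℂ, (∀ x ∈ p, l x = 0) → l u = 0) : u ∈ p := by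
  exact (Subspace.forall_mem_dualAnnihilator_apply_eq_zero_iff p u).1 fun φ hφ =>
    h (LinearMap.toContinuousLinearMap φ) ((Submodule.mem_dualAnnihilator φ).1 hφ)

end

section
variable {𝔤 : Type} [LieRing 𝔤] [LieAlgebra ℝ 𝔤] [FiniteDimensional ℝ 𝔤]

/-- `LieModule.traceForm_apply_lie_apply`, `LieModule.traceForm_lieInvariant`. -/
theorem killing_lie (X Y Z : 𝔤) : killingForm ℝ 𝔤 ⁅X, Y⁆ Z = -killingForm ℝ 𝔤 Y ⁅X, Z⁆ :=
  LieModule.traceForm_apply_lie_apply' ℝ 𝔤 𝔤 X Y Z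

theorem killing_lie' (X Y Z : 𝔤) : killingForm ℝ 𝔤 ⁅X, Y⁆ Z = killingForm ℝ 𝔤 X ⁅Y, Z⁆ :=
  LieModule.traceForm_apply_lie_apply ℝ 𝔤 𝔤 X Y Z

theorem killing_comm (X Y : 𝔤) : killingForm ℝ 𝔤 X Y = killingForm ℝ 𝔤 Y X :=
  LieModule.traceForm_comm ℝ 𝔤 𝔤 X Y

theorem killing_wt {A X Y : 𝔤} {μ ν : ℝ} (hX : ⁅A, X⁆ = μ • X) (hY : ⁅A, Y⁆ = ν • Y)
    (h : μ + ν ≠ 0) : killingForm ℝ 𝔤 X Y = 0 := by
  have h1 := killing_lie A X Y
  rw [hX, hY, map_smul, LinearMap.smul_apply, map_smul, smul_eq_mul, smul_eq_mul] at h1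
  refine (mul_eq_zero.1 (?_ : (μ + ν) * killingForm ℝ 𝔤 X Y = 0)).resolve_left h
  linarith

theorem killing_skew {X : 𝔤} (h : IsSkew (LieAlgebra.ad ℝ 𝔤 X)) :
    killingForm ℝ 𝔤 X X ≤ 0 ∧ (killingForm ℝ 𝔤 X X = 0 → ∀ Y : 𝔤, ⁅X, Y⁆ = 0) := by
  obtain ⟨h1, h2⟩ := skew_trace h
  refine ⟨h1, fun h0 Y => ?_⟩
  have h3 := LinearMap.congr_fun (h2 h0) Y
  simpa using h3

/-- The radical of the Killing form is an ideal. -/
theorem isKilling_of_simp (h : Simp 𝔤) (h' : Pos 𝔤) : LieAlgebra.IsKilling ℝ 𝔤 := by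
  rcases h (LieIdeal.killingCompl ℝ 𝔤 ⊤).toSubmodule
    (fun U X hX => (LieIdeal.killingCompl ℝ 𝔤 ⊤).lie_mem hX) with h1 | h1
  · obtain ⟨X, hX⟩ := h'
    have h2 : X ∈ (LieIdeal.killingCompl ℝ 𝔤 ⊤).toSubmodule := by rw [h1]; trivial
    have h3 := (LieIdeal.mem_killingCompl ℝ 𝔤 ⊤).1 h2 X trivial
    exact absurd h3 hX.ne'
  · exact ⟨(LieSubmodule.toSubmodule_eq_bot _).1 h1⟩

/-- A linear map `δ` is inner on every `U` with `[δ, ad U] = ad (δ U)`: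
let `K` represent `Y ↦ tr (δ ∘ ad Y)`; then
`B (δ U) Y = tr ((δ adU - adU δ) adY) = tr (δ ad [U,Y]) = B K [U,Y] = B [K,U] Y`. -/
theorem exists_inner [LieAlgebra.IsKilling ℝ 𝔤] (δ : 𝔤 →ₗ[ℝ] 𝔤) :
    ∃ K : 𝔤, ∀ U : 𝔤, (∀ Y : 𝔤, δ ⁅U, Y⁆ = ⁅δ U, Y⁆ + ⁅U, δ Y⁆) → ⁅K, U⁆ = δ U := by
  have hB := LieAlgebra.IsKilling.killingForm_nondegenerate ℝ 𝔤
  let φ : Module.Dual ℝ 𝔤 :=
    { toFun := fun Y => LinearMap.trace ℝ 𝔤 (δ * LieAlgebra.ad ℝ 𝔤 Y)
      map_add' := fun X Y => by simp [mul_add]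
      map_smul' := fun c X => by simp }
  refine ⟨((killingForm ℝ 𝔤).toDual hB).symm φ, fun U hU => ?_⟩
  have hK : ∀ Y, killingForm ℝ 𝔤 (((killingForm ℝ 𝔤).toDual hB).symm φ) Y =
      LinearMap.trace ℝ 𝔤 (δ * LieAlgebra.ad ℝ 𝔤 Y) := fun Y =>
    LinearMap.BilinForm.apply_toDual_symm_apply φ Y
  generalize ((killingForm ℝ 𝔤).toDual hB).symm φ = K at hK
  refine sub_eq_zero.1 (hB.1 _ fun Y => ?_)
  have h1 : LieAlgebra.ad ℝ 𝔤 (δ U) = δ * LieAlgebra.ad ℝ 𝔤 U - LieAlgebra.ad ℝ 𝔤 U * δ := by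
    ext Y
    simp [hU Y]
  have h2 : LieAlgebra.ad ℝ 𝔤 ⁅U, Y⁆ = LieAlgebra.ad ℝ 𝔤 U * LieAlgebra.ad ℝ 𝔤 Y -
      LieAlgebra.ad ℝ 𝔤 Y * LieAlgebra.ad ℝ 𝔤 U := by
    ext Z
    simp
  rw [map_sub, LinearMap.sub_apply, killing_lie', hK, killingForm_apply_apply, h1, h2,
    ← Module.End.mul_eq_comp, mul_sub, sub_mul, map_sub, map_sub, mul_assoc,
    mul_assoc (LieAlgebra.ad ℝ 𝔤 U), LinearMap.trace_mul_comm ℝ (LieAlgebra.ad ℝ 𝔤 U), mul_assoc,
    sub_self]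

end

end Crest.Agent.R264.P5
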