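import Crest.Agent.R264.P5.Model
import Crest.Agent.R264.P5.Lin
import Crest.Agent.R264.P5.LVb

/-! Row 264, P5/P6: basic brackets in the graded model. -/

set_option autoImplicit false
open Set Filter Topology Metric Complex
open scoped Matrix

noncomputable section
namespace Crest.Agent.R264.P5

namespace GM0
variable {𝔤 : Type} [LieRing 𝔤] [LieAlgebra ℝ 𝔤] {r k : ℕ} (G : GM0 𝔤 r k)

/-- The underlying algebra of vector fields. -/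
def toLV : LV 𝔤 (PM r k) := ⟨G.W, W_open _, G.ev, G.diff, G.lie⟩

theorem t0_mem : G.t0 ∈ G.T := mem_ball_self G.R_pos

theorem sl_mem {w : ℂ} (hw : 0 < w.im) {t : CN k} (ht : t ∈ G.T) : (sl w t : PM r k) ∈ G.W :=
  P5.sl_mem _ hw ht

theorem slI_mem {t : CN k} (ht : t ∈ G.T) : (sl I t : PM r k) ∈ G.W := G.sl_mem (by simp) ht

theorem h19_fderiv_congr {X : 𝔤} {g : PM r k → PM r k} (h : ∀ ω ∈ G.W, G.ev X ω = g ω)
    {ω : PM r k} (hω : ω ∈ G.W) : fderiv ℂ (G.ev X) ω = fderiv ℂ g ω :=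
  Filter.EventuallyEq.fderiv_eq (Filter.mem_of_superset ((W_open _).mem_nhds hω) h)

theorem ext0 (X : 𝔤) (h : ∀ ω ∈ G.W, G.ev X ω = 0) : X = 0 := by
  have hω := G.slI_mem G.t0_mem
  refine G.jet X _ hω (h _ hω) ?_
  rw [G.h19_fderiv_congr (g := fun _ => 0) h hω]
  simp

theorem ext1 {X Y : 𝔤} (h : ∀ ω ∈ G.W, G.ev X ω = G.ev Y ω) : X = Y := by
  rw [← sub_eq_zero]
  refine G.ext0 _ fun ω hω => ?_
  rw [map_sub, Pi.sub_apply, h ω hω, sub_self]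

theorem lie0 (X Y : 𝔤) {ω : PM r k} (hω : ω ∈ G.W) :
    G.ev ⁅X, Y⁆ ω = fderiv ℂ (G.ev Y) ω (G.ev X ω) - fderiv ℂ (G.ev X) ω (G.ev Y ω) := by
  rw [G.lie X Y ω hω]
  rfl

theorem d_A {ω : PM r k} (hω : ω ∈ G.W) (u : PM r k) : fderiv ℂ (G.ev G.A) ω u = fA u := by
  rw [G.h19_fderiv_congr G.evA hω, fderiv_fA]

theorem d_Z {ω : PM r k} (hω : ω ∈ G.W) : fderiv ℂ (G.ev G.Z) ω = 0 := by
  rw [G.h19_fderiv_congr G.evZ hω, fderiv_fZ]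

theorem d_X (ζ : CN r) {ω : PM r k} (hω : ω ∈ G.W) (u : PM r k) :
    fderiv ℂ (G.ev (G.Xn ζ)) ω u =
      (2 * I * (star ζ ⬝ᵥ u.2.1), dκ G.κ ω.2.2 u.2.2 *ᵥ star ζ, 0) := by
  rw [G.h19_fderiv_congr (G.evX ζ) hω, fderiv_fX G.toMBase ζ hω.1]

theorem ev_Z_lie (Y : 𝔤) {ω : PM r k} (hω : ω ∈ G.W) :
    G.ev ⁅G.Z, Y⁆ ω = fderiv ℂ (G.ev Y) ω (1, 0, 0) := by
  rw [G.lie0 _ _ hω, G.d_Z hω, G.evZ ω hω]
  simp [fZ]

theorem ev_A_lie (Y : 𝔤) {ω : PM r k} (hω : ω ∈ G.W) :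
    G.ev ⁅G.A, Y⁆ ω = fderiv ℂ (G.ev Y) ω (fA ω) - fA (G.ev Y ω) := by
  rw [G.lie0 _ _ hω, G.d_A hω, G.evA ω hω]

theorem ev_X_lie (ζ : CN r) (Y : 𝔤) {ω : PM r k} (hω : ω ∈ G.W) :
    G.ev ⁅G.Xn ζ, Y⁆ ω = fderiv ℂ (G.ev Y) ω (fX G.κ ζ ω) -
      (2 * I * (star ζ ⬝ᵥ (G.ev Y ω).2.1), dκ G.κ ω.2.2 (G.ev Y ω).2.2 *ᵥ star ζ, 0) := by
  rw [G.lie0 _ _ hω, G.d_X ζ hω, G.evX ζ ω hω]

theorem ev_X_sl (ζ : CN r) {w : ℂ} (hw : 0 < w.im) {t : CN k} (ht : t ∈ G.T) :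
    G.ev (G.Xn ζ) (sl w t) = (0, bz (G.κ t) ζ, 0) := by
  rw [G.evX ζ _ (G.sl_mem hw ht)]
  simp [fX]

theorem ev_A_sl {w : ℂ} (hw : 0 < w.im) {t : CN k} (ht : t ∈ G.T) :
    G.ev G.A (sl w t) = (w, 0, 0) := by
  rw [G.evA _ (G.sl_mem hw ht)]
  simp [fA]

theorem ev_Z_sl {w : ℂ} (hw : 0 < w.im) {t : CN k} (ht : t ∈ G.T) :
    G.ev G.Z (sl w t) = (1, 0, 0) := by
  rw [G.evZ _ (G.sl_mem hw ht)]
  rfl

theorem wt_A : G.Wt 0 G.A := by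
  simp [Wt]

theorem wt_Z : G.Wt (-1) G.Z := by
  refine G.ext1 fun ω hω => ?_
  rw [G.ev_A_lie _ hω, G.d_Z hω, map_smul, Pi.smul_apply, G.evZ ω hω]
  simp [fA, fZ]

theorem wt_X (ζ : CN r) : G.Wt (-1 / 2) (G.Xn ζ) := by
  refine G.ext1 fun ω hω => ?_
  rw [G.ev_A_lie _ hω, G.d_X ζ hω, map_smul, Pi.smul_apply, G.evX ζ ω hω]
  simp only [fA, fX, dκ_zero, Matrix.zero_mulVec, Prod.mk_sub_mk, Prod.smul_mk, sub_zero,
    smul_zero, dotProduct_smul, smul_eq_mul, Prod.mk.injEq, and_true]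
  refine ⟨?_, ?_⟩
  · rw [Complex.real_smul]; push_cast; ring
  · ext i
    simp only [Pi.sub_apply, Pi.zero_apply, Pi.smul_apply, smul_eq_mul, Complex.real_smul]
    push_cast; ring

theorem Z_X (ζ : CN r) : ⁅G.Z, G.Xn ζ⁆ = 0 := by
  refine G.ext0 _ fun ω hω => ?_
  rw [G.ev_Z_lie _ hω, G.d_X ζ hω]
  simp [dκ_zero]

/-- `κ` is symmetric; `om_coe`. -/
theorem X_X (ζ η : CN r) : ⁅G.Xn ζ, G.Xn η⁆ = om ζ η • G.Z := by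
  refine G.ext1 fun ω hω => ?_
  rw [G.ev_X_lie ζ _ hω, G.d_X η hω, map_smul, Pi.smul_apply, G.evZ ω hω, G.evX η ω hω]
  have hs : (G.κ ω.2.2).IsSymm := (G.small _ hω.1).1
  have h1 : star η ⬝ᵥ (G.κ ω.2.2 *ᵥ star ζ) = star ζ ⬝ᵥ (G.κ ω.2.2 *ᵥ star η) := by
    rw [Matrix.dotProduct_mulVec, ← Matrix.mulVec_transpose, hs.eq, dotProduct_comm]
  simp only [fZ, fX, bz, dκ_zero, Matrix.zero_mulVec, Prod.mk_sub_mk, Prod.smul_mk, sub_zero,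
    smul_zero, dotProduct_add, h1, Prod.mk.injEq, and_true]
  rw [Complex.real_smul, om_coe]
  ring

theorem Z_ne : G.Z ≠ 0 := by
  intro h
  have := G.ev_Z_sl (w := I) (by simp) G.t0_mem
  rw [h, map_zero] at this
  simpa using congrArg Prod.fst this

theorem A_ne : G.A ≠ 0 := by
  intro h
  have := G.ev_A_sl (w := I) (by simp) G.t0_mem
  rw [h, map_zero] at this
  exact I_ne_zero (by simpa using (congrArg Prod.fst this).symm)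

theorem Xn_inj {ζ η : CN r} (h : G.Xn ζ = G.Xn η) : ζ = η := by
  have h1 := G.ev_X_sl ζ (w := I) (by simp) G.t0_mem
  rw [h, G.ev_X_sl η (by simp) G.t0_mem] at h1
  exact bz_inj (G.small _ G.t0_mem) (congrArg (fun p : PM r k => p.2.1) h1).symm

theorem const_Z : ∀ ω ∈ G.W, G.ev G.Z ω + I • G.ev 0 ω = (1, 0, 0) := by
  intro ω hω
  rw [G.evZ ω hω, map_zero]
  simp [fZ]

theorem const_X (ζ : CN r) :
    ∀ ω ∈ G.W, G.ev (G.Xn ζ) ω + I • G.ev (G.Xn (-(I • ζ))) ω = (0, (2 : ℂ) • ζ, 0) := by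
  intro ω hω
  rw [G.evX _ ω hω, G.evX _ ω hω]
  have h1 : star (-(I • ζ)) = I • star ζ := by
    rw [star_neg, star_smul]; simp
  simp only [fX, bz, h1, Prod.smul_mk, Prod.mk_add_mk, smul_zero, add_zero, smul_dotProduct,
    Matrix.mulVec_smul, smul_eq_mul, Prod.mk.injEq, and_true]
  refine ⟨?_, ?_⟩
  · linear_combination (2 * I * (star ζ ⬝ᵥ ω.2.1)) * I_mul_I
  · ext i
    simp only [Pi.add_apply, Pi.smul_apply, Pi.neg_apply, smul_eq_mul]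
    linear_combination ((G.κ ω.2.2 *ᵥ star ζ) i - ζ i) * I_mul_I

variable {G}

theorem Wt.zero (μ : ℝ) : G.Wt μ 0 := by
  simp [Wt]

theorem Wt.add {μ : ℝ} {X Y : 𝔤} (hX : G.Wt μ X) (hY : G.Wt μ Y) : G.Wt μ (X + Y) := by
  unfold Wt at *
  rw [lie_add, hX, hY, smul_add]

theorem Wt.sub {μ : ℝ} {X Y : 𝔤} (hX : G.Wt μ X) (hY : G.Wt μ Y) : G.Wt μ (X - Y) := by
  unfold Wt at *
  rw [lie_sub, hX, hY, smul_sub]

theorem Wt.neg {μ : ℝ} {X : 𝔤} (hX : G.Wt μ X) : G.Wt μ (-X) := by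
  unfold Wt at *
  rw [lie_neg, hX, smul_neg]

theorem Wt.smul {μ : ℝ} {X : 𝔤} (hX : G.Wt μ X) (a : ℝ) : G.Wt μ (a • X) := by
  unfold Wt at *
  rw [lie_smul, hX, smul_comm]

theorem Wt.lie {μ ν ρ : ℝ} {X Y : 𝔤} (hX : G.Wt μ X) (hY : G.Wt ν Y) (h : μ + ν = ρ) :
    G.Wt ρ ⁅X, Y⁆ := by
  unfold Wt at *
  rw [leibniz_lie, hX, hY, smul_lie, lie_smul, ← add_smul, h]

/-- Euler's identity on the slice, where `A = w Z`. -/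
theorem Wt.euler {μ : ℝ} {X : 𝔤} (hX : G.Wt μ X) {w : ℂ} (hw : 0 < w.im) {t : CN k}
    (ht : t ∈ G.T) : w • G.ev ⁅G.Z, X⁆ (sl w t) =
      (((μ : ℂ) + 1) * (G.ev X (sl w t)).1, ((μ : ℂ) + 1 / 2) • (G.ev X (sl w t)).2.1,
        (μ : ℂ) • (G.ev X (sl w t)).2.2) := by
  have hω := G.sl_mem hw ht
  have h1 := G.ev_A_lie X hω
  have e : fA (sl w t : PM r k) = w • ((1, 0, 0) : PM r k) := by simp [fA]
  rw [e, map_smul, ← G.ev_Z_lie X hω, show ⁅G.A, X⁆ = μ • X from hX, map_smul,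
    eq_sub_iff_add_eq] at h1
  rw [← h1]
  refine Prod.ext ?_ (Prod.ext ?_ ?_)
  · simp [fA]
    ring
  · simp [fA, add_smul]
  · simp [fA]

/-- `ell`, `killing_wt`, `killing_skew`. -/
theorem Wt.vanish [FiniteDimensional ℝ 𝔤] {μ : ℝ} {X : 𝔤} (hX : G.Wt μ X) (hμ : μ ≠ 0)
    {ω : PM r k} (hω : ω ∈ G.W) (h0 : G.ev X ω = 0) : X = 0 := by
  have h1 : killingForm ℝ 𝔤 X X = 0 := killing_wt hX hX (by intro h; apply hμ; linarith)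
  have h2 := (killing_skew (G.ell X ω hω h0)).2 h1 G.A
  have h3 : μ • X = 0 := by rw [← show ⁅G.A, X⁆ = μ • X from hX, ← lie_skew, h2, neg_zero]
  exact (smul_eq_zero.1 h3).resolve_left hμ

theorem h97_d_fib (Y : 𝔤) {ω : PM r k} (hω : ω ∈ G.W) (a : ℂ) (u : CN r) :
    fderiv ℂ (G.ev Y) ω (a, u, 0) = a • G.ev ⁅G.Z, Y⁆ ω + (G.ev ⁅G.Xn ((1 / 2 : ℂ) • u), Y⁆ ω +
      I • G.ev ⁅G.Xn (-(I • (1 / 2 : ℂ) • u)), Y⁆ ω) := by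
  have h1 := G.toLV.fderiv_const (G.const_X ((1 / 2 : ℂ) • u)) Y hω
  have e : ((a, u, 0) : PM r k) = a • ((1, 0, 0) : PM r k) + (0, (2 : ℂ) • (1 / 2 : ℂ) • u, 0) := by
    simp [smul_smul]
  rw [e, map_add, map_smul, ← G.ev_Z_lie Y hω]
  exact congrArg _ h1

/-- `LV.fderiv_const` with `const_Z`, `const_X`. -/
theorem Spec.d_eq {Y : 𝔤} (h : G.Spec Y) {ω : PM r k} (hω : ω ∈ G.W) (a : ℂ) (u : CN r) :
    fderiv ℂ (G.ev Y) ω (a, u, 0) = 0 := by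
  rw [h97_d_fib Y hω, h.1, h.2, h.2]
  simp

/-- From `ev_X_lie` and `d_eq`: `star ζ ⬝ᵥ Y_z = 0` for all `ζ`. -/
theorem Spec.z_eq {Y : 𝔤} (h : G.Spec Y) {ω : PM r k} (hω : ω ∈ G.W) : (G.ev Y ω).2.1 = 0 := by
  funext i
  have h1 := G.ev_X_lie (Pi.single i 1) Y hω
  rw [h.2, fX, h.d_eq hω] at h1
  have h2 := congrArg Prod.fst h1
  have h3 : star (Pi.single i 1 : CN r) = Pi.single i 1 := by
    funext j
    by_cases hj : j = i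
    · subst hj; simp
    · simp [hj]
  rw [h3] at h2
  simpa using h2

theorem Spec.ev_A {Y : 𝔤} (h : G.Spec Y) {ω : PM r k} (hω : ω ∈ G.W) :
    G.ev ⁅G.A, Y⁆ ω = (-(G.ev Y ω).1, 0, 0) := by
  rw [G.ev_A_lie Y hω, fA, h.d_eq hω, fA, h.z_eq hω]
  simp

theorem Spec.lie_A {Y : 𝔤} (h : G.Spec Y) : G.Spec ⁅G.A, Y⁆ := by
  refine ⟨?_, fun ζ => ?_⟩
  · rw [leibniz_lie, h.1, lie_zero, add_zero, ← lie_skew G.Z G.A, show ⁅G.A, G.Z⁆ = _ from G.wt_Z,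
      neg_lie, smul_lie, h.1]
    simp
  · rw [leibniz_lie, h.2, lie_zero, add_zero, ← lie_skew (G.Xn ζ) G.A,
      show ⁅G.A, G.Xn ζ⁆ = _ from G.wt_X ζ, neg_lie, smul_lie, h.2]
    simp

theorem Spec.AA {Y : 𝔤} (h : G.Spec Y) : ⁅G.A, ⁅G.A, Y⁆⁆ = -⁅G.A, Y⁆ := by
  refine G.ext1 fun ω hω => ?_
  rw [h.lie_A.ev_A hω, map_neg, Pi.neg_apply, h.ev_A hω]
  simp

/-- `jet` at `sl I t0`: `d_eq` and `fderiv_slice_clm`. -/
theorem Spec.eq_zero {K : 𝔤} (h : G.Spec K) (h0 : ∀ t ∈ G.T, G.ev K (sl I t) = 0) : K = 0 := by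
  have hω := G.slI_mem G.t0_mem
  refine G.jet K _ hω (h0 _ G.t0_mem) (ContinuousLinearMap.ext fun u => ?_)
  obtain ⟨a, z, e⟩ := u
  have e1 : ((a, z, e) : PM r k) = (a, z, 0) + (0, 0, e) := by simp
  have h1 := fderiv_slice_clm G.toMBase (G.diff K) (ContinuousLinearMap.id ℂ (PM r k))
    (w := I) (by simp) (c := 0) (fun t ht => h0 t ht) G.t0_mem e
  rw [e1, map_add, h.d_eq hω, zero_add]
  exact h1

/-- The base component (`LV.fderiv_const`). -/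
theorem d_t_eq {Y : 𝔤} {ω : PM r k} (hω : ω ∈ G.W) (hZ : (G.ev ⁅G.Z, Y⁆ ω).2.2 = 0)
    (hX : ∀ ζ, (G.ev ⁅G.Xn ζ, Y⁆ ω).2.2 = 0) (a : ℂ) (u : CN r) :
    (fderiv ℂ (G.ev Y) ω (a, u, 0)).2.2 = 0 := by
  rw [h97_d_fib Y hω]
  simp only [Prod.snd_add, Prod.smul_snd, hZ, hX, smul_zero, add_zero]

end GM0

end Crest.Agent.R264.P5
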