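import Crest.Agent.R264.P5.GM1

/-! Row 264, P5/P6: the weights of the dilation field. -/

set_option autoImplicit false
open Set Filter Topology Metric Complex
open scoped Matrix

noncomputable section
namespace Crest.Agent.R264.P5

namespace GM0
variable {𝔤 : Type} [LieRing 𝔤] [LieAlgebra ℝ 𝔤] [FiniteDimensional ℝ 𝔤] {r k : ℕ}
  (G : GM0 𝔤 r k)

variable {G}

/-- The set of eigenvalues is finite (`Module.End.finite_hasEigenvalue`).  Take a minimal eigenvalue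
`μ` which is not of this form: `μ - 1`, `μ - 1/2` are not of this form either, so they are not
eigenvalues, the eigenvector is `Spec` and `Spec.AA` gives `μ (μ + 1) = 0`. -/
theorem Wt.cases {μ : ℝ} {X : 𝔤} (hX : G.Wt μ X) (h0 : X ≠ 0) : ∃ n : ℕ, μ = n / 2 - 1 := by
  by_contra hμ
  have hfin : {ν : ℝ | (∃ Y, G.Wt ν Y ∧ Y ≠ 0) ∧ ¬ ∃ n : ℕ, ν = n / 2 - 1}.Finite := by
    refine (Module.End.finite_hasEigenvalue (LieAlgebra.ad ℝ 𝔤 G.A)).subset ?_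
    rintro ν ⟨⟨Y, hY, hY0⟩, -⟩
    exact Module.End.hasEigenvalue_of_hasEigenvector ⟨Module.End.mem_eigenspace_iff.2 hY, hY0⟩
  obtain ⟨ν, ⟨⟨Y, hY, hY0⟩, hν⟩, hmin⟩ := Set.exists_min_image _ id hfin ⟨μ, ⟨X, hX, h0⟩, hμ⟩
  have key : ∀ (c : ℕ) (W : 𝔤), 0 < c → G.Wt (ν - c / 2) W → W = 0 := fun c W hc hW => by
    by_contra hW0
    have h1 : ν ≤ ν - c / 2 := hmin _ ⟨⟨W, hW, hW0⟩, by
      rintro ⟨n, hn⟩
      exact hν ⟨n + c, by push_cast; linarith⟩⟩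
    have h2 : (0 : ℝ) < c := by exact_mod_cast hc
    linarith
  have hsp : G.Spec Y := ⟨key 2 _ two_pos (G.wt_Z.lie hY (by push_cast; ring)),
    fun ζ => key 1 _ one_pos ((G.wt_X ζ).lie hY (by push_cast; ring))⟩
  have h1 := hsp.AA
  rw [show ⁅G.A, Y⁆ = ν • Y from hY, lie_smul, show ⁅G.A, Y⁆ = ν • Y from hY, smul_smul,
    eq_neg_iff_add_eq_zero, ← add_smul, smul_eq_zero] at h1
  have h2 : ν * (ν + 1) = 0 := by linarith [h1.resolve_right hY0]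
  rcases mul_eq_zero.1 h2 with h | h
  · exact hν ⟨2, by push_cast; linarith⟩
  · exact hν ⟨0, by push_cast; linarith⟩

theorem Wt.low {μ : ℝ} {X : 𝔤} (hX : G.Wt μ X) (h : μ < -1) : X = 0 := by
  by_contra h0
  obtain ⟨n, hn⟩ := hX.cases h0
  have : (0 : ℝ) ≤ n := Nat.cast_nonneg n
  linarith

/-- `X` is `Spec`, `ev X = (a,0,0)` (`Spec.ev_A`); at `ω = sl I t0`, `noC` (for `Z, X`) shows that `a` is
real; `X - a • Z` vanishes at `ω` (`Wt.vanish`). -/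
theorem Wt.m1 {X : 𝔤} (hX : G.Wt (-1) X) : ∃ a : ℝ, X = a • G.Z := by
  have hsp : G.Spec X := ⟨(G.wt_Z.lie hX rfl).low (by norm_num),
    fun ζ => ((G.wt_X ζ).lie hX rfl).low (by norm_num)⟩
  have hω := G.slI_mem G.t0_mem
  have hZ := G.ev_Z_sl (w := I) (by simp) G.t0_mem
  have h1 := hsp.ev_A hω
  rw [show ⁅G.A, X⁆ = (-1 : ℝ) • X from hX, neg_one_smul, map_neg, Pi.neg_apply,
    neg_eq_iff_eq_neg] at h1
  obtain ⟨a, ha⟩ : ∃ a : ℂ, G.ev X (sl I G.t0) = (a, 0, 0) :=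
    ⟨(G.ev X (sl I G.t0)).1, h1.trans (by simp)⟩
  have him : a.im = 0 := by
    by_contra him
    have := G.noC G.Z X hsp.1 _ hω a him (by rw [ha, hZ]; simp)
    rw [hZ] at this
    exact one_ne_zero (congrArg Prod.fst this)
  refine ⟨a.re, sub_eq_zero.1 ((hX.sub (G.wt_Z.smul a.re)).vanish (by norm_num) hω ?_)⟩
  rw [map_sub, map_smul, Pi.sub_apply, Pi.smul_apply, ha, hZ, sub_eq_zero]
  refine Prod.ext (Complex.ext ?_ ?_) ?_ <;> simp [him]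

/-- `[Z,X] = 0`, Euler: the value at `sl I t0` is `(0,u,0)`; `bz_surj`, `Wt.vanish`. -/
theorem Wt.mh {X : 𝔤} (hX : G.Wt (-1 / 2) X) : ∃ ζ, X = G.Xn ζ := by
  have hZ : ⁅G.Z, X⁆ = 0 := (G.wt_Z.lie hX rfl).low (by norm_num)
  have hI : 0 < (I : ℂ).im := by simp
  have hω := G.slI_mem G.t0_mem
  have h1 := hX.euler hI G.t0_mem
  rw [hZ, map_zero, Pi.zero_apply, smul_zero] at h1
  have h2 : (G.ev X (sl I G.t0)).1 = 0 :=
    (mul_eq_zero.1 (congrArg Prod.fst h1).symm).resolve_left (by push_cast; norm_num)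
  have h3 : (G.ev X (sl I G.t0)).2.2 = 0 :=
    (smul_eq_zero.1 (congrArg (fun x : PM r k => x.2.2) h1).symm).resolve_left
      (by push_cast; norm_num)
  obtain ⟨ζ, hζ⟩ := bz_surj (G.small _ G.t0_mem) (G.ev X (sl I G.t0)).2.1
  refine ⟨ζ, sub_eq_zero.1 ((hX.sub (G.wt_X ζ)).vanish (by norm_num) hω ?_)⟩
  rw [map_sub, Pi.sub_apply, G.ev_X_sl ζ hI G.t0_mem, sub_eq_zero, hζ]
  exact Prod.ext h2 (Prod.ext rfl h3)

variable (G)

theorem gm2_wt {V : Type} [AddCommGroup V] [Module ℝ V] (f L : Module.End ℝ V) {c : ℝ}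
    (h : ∀ x, L (f x) = f (L x) + c • L x) (s : Finset ℝ) (p : Polynomial ℝ) (ν : ℝ)
    (hp : ∀ μ ∈ s, μ ≠ ν → p.eval (μ + c) = 0) {Y : V} (hY : L Y ∈ ⨆ μ ∈ s, f.eigenspace μ) :
    f (L (Polynomial.aeval f p Y)) = ν • L (Polynomial.aeval f p Y) := by
  have h1 : ∀ q : Polynomial ℝ, ∀ x, L (Polynomial.aeval f q x) =
      Polynomial.aeval f (q.comp (Polynomial.X + Polynomial.C c)) (L x) := fun q => by
    induction q using Polynomial.induction_on with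
    | C a => simp
    | add q q' ih ih' => intro x; simp [ih, ih']
    | monomial n a ih =>
      intro x
      rw [pow_succ, ← mul_assoc, map_mul, Module.End.mul_apply, ih, Polynomial.mul_comp _ Polynomial.X,
        map_mul _ _ (Polynomial.X.comp _), Module.End.mul_apply]
      simp [h, Algebra.algebraMap_eq_smul_one]
  have h2 := aeval_eq_zero_of_mem f s
    ((Polynomial.X - Polynomial.C ν) * p.comp (Polynomial.X + Polynomial.C c)) (fun μ hμ => by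
      by_cases e : μ = ν
      · simp [e]
      · simp [hp μ hμ e]) _ hY
  rw [map_mul, Module.End.mul_apply, ← h1] at h2
  simpa [Algebra.algebraMap_eq_smul_one, sub_eq_zero] using h2

/-- Let `f = ad A`, `S` the sum of the eigenspaces, `s` the finite set of eigenvalues (all `≥ -1`).
If `S ≠ ⊤`, `exists_low` (index type `Option (CN r)`) gives `Y ∉ S` with `[Z,Y], [X ζ, Y] ∈ S`.
`[Z, p(f) Y] = p(X+1)(f) [Z,Y]`, `[X ζ, p(f) Y] = p(X+1/2)(f) [X ζ,Y]`.  Let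
`s' = (s+1) ∪ (s+1/2) ∪ {0}` (`-1 ∉ s'`), `p = ∏_{s'} (X - μ) = X * p₁`.  Then `p(f) Y` is `Spec`
(`aeval_eq_zero_of_mem`).  Put `Y' = (f+1) p₁(f) Y`; `f Y' = (f+1) p(f) Y` is `Spec` and killed by `f`
(`Spec.AA`), so its values are `(0,0,c)` (`Spec.ev_A`, `Spec.z_eq`).  `[Z,Y'] ∈ S` is killed by `(f+1)²`
so it has weight `-1` (on `S`, `f` is diagonalisable: independence of eigenspaces, or
`[Z,Y'] = ((X+2) p₁(X+1))(f) [Z,Y]` is killed by `f+1` by `aeval_eq_zero_of_mem`), `[X ζ,Y']` has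
weight `-1/2`; by `m1`, `mh` their base components vanish, `d_t_eq` and `ev_A_lie` give `c = 0`.
So `(f+1) p(f) Y = 0` and `mem_iSup_eigenspace` gives `Y ∈ S`. -/
theorem diag : ⨆ μ : ℝ, (LieAlgebra.ad ℝ 𝔤 G.A).eigenspace μ = ⊤ := by
  classical
  set f := LieAlgebra.ad ℝ 𝔤 G.A with hf
  have hmem : ∀ μ X, X ∈ f.eigenspace μ ↔ G.Wt μ X := fun μ X => Module.End.mem_eigenspace_iff
  have hmap : ∀ {W : 𝔤} {ν : ℝ}, G.Wt ν W → ∀ x ∈ ⨆ μ : ℝ, f.eigenspace μ,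
      LieAlgebra.ad ℝ 𝔤 W x ∈ ⨆ μ : ℝ, f.eigenspace μ := fun {W ν} hW x hx =>
    (iSup_le (a := (⨆ μ : ℝ, f.eigenspace μ).comap (LieAlgebra.ad ℝ 𝔤 W)) fun μ y hy =>
      Submodule.mem_iSup_of_mem (ν + μ) ((hmem _ _).2 (hW.lie ((hmem _ _).1 hy) rfl))) hx
  have hcomm : ∀ {W : 𝔤} {ν : ℝ}, G.Wt ν W → ∀ x, LieAlgebra.ad ℝ 𝔤 W (f x) =
      f (LieAlgebra.ad ℝ 𝔤 W x) + (-ν) • LieAlgebra.ad ℝ 𝔤 W x := fun {W ν} hW x => by
    have h : ⁅G.A, W⁆ = ν • W := hW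
    simp only [hf, LieAlgebra.ad_apply]
    rw [leibniz_lie G.A W x, h, smul_lie, neg_smul]
    abel
  by_contra hS
  obtain ⟨Y, hY, hL⟩ := exists_low f
    (fun i : Option (CN r) => LieAlgebra.ad ℝ 𝔤 (i.elim G.Z fun ζ => G.Xn ζ))
    (fun i => i.elim (- -1) fun _ => -(-1 / 2)) (by rintro (_ | ζ) <;> norm_num)
    (by
      rintro (_ | ζ)
      · exact hcomm G.wt_Z
      · exact hcomm (G.wt_X ζ)) _ (hmap G.wt_A)
    (by
      rintro (_ | ζ)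
      · exact hmap G.wt_Z
      · exact hmap (G.wt_X ζ)) hS
  set s := (Module.End.finite_hasEigenvalue f).toFinset with hs
  have hSs : ⨆ μ : ℝ, f.eigenspace μ ≤ ⨆ μ ∈ s, f.eigenspace μ := iSup_le fun μ => by
    by_cases h : f.eigenspace μ = ⊥
    · rw [h]; exact bot_le
    · exact le_iSup₂_of_le μ ((Set.Finite.mem_toFinset _).2 h) le_rfl
  have hlow : ∀ μ ∈ s, -1 ≤ μ := fun μ hμ => by
    obtain ⟨X, hX⟩ := Module.End.HasEigenvalue.exists_hasEigenvector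
      ((Set.Finite.mem_toFinset _).1 hμ)
    exact not_lt.1 fun h => hX.2 (((hmem _ _).1 hX.1).low h)
  set s' := (s.image (· + 1) ∪ s.image (· + 1 / 2)).erase 0 with hs'
  set p : Polynomial ℝ := ∏ μ ∈ s', (Polynomial.X - Polynomial.C μ) with hp
  have hp0 : ∀ μ ∈ s', p.eval μ = 0 := fun μ hμ => by
    rw [hp, Polynomial.eval_prod]
    exact Finset.prod_eq_zero hμ (by simp)
  set Y₁ := Polynomial.aeval f p Y with hY₁
  have hZ : G.Wt (-1) ⁅G.Z, Y₁⁆ := gm2_wt f _ (hcomm G.wt_Z) s p (-1) (fun μ hμ h => hp0 _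
    (Finset.mem_erase.2 ⟨fun e => h (by linarith), Finset.mem_union_left _
      (Finset.mem_image.2 ⟨μ, hμ, by ring⟩)⟩)) (hSs (hL none))
  have hX : ∀ ζ, G.Wt (-1 / 2) ⁅G.Xn ζ, Y₁⁆ := fun ζ =>
    gm2_wt f _ (hcomm (G.wt_X ζ)) s p (-1 / 2) (fun μ hμ h => hp0 _
      (Finset.mem_erase.2 ⟨fun e => h (by linarith), Finset.mem_union_right _
        (Finset.mem_image.2 ⟨μ, hμ, by ring⟩)⟩)) (hSs (hL (some ζ)))
  have hsp : G.Spec ⁅G.A, Y₁⁆ := by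
    refine ⟨(hcomm G.wt_Z Y₁).trans ?_, fun ζ => (hcomm (G.wt_X ζ) Y₁).trans ?_⟩
    · exact (congrArg (· + _) hZ).trans (by rw [neg_smul (-1 : ℝ)]; exact add_neg_cancel _)
    · exact (congrArg (· + _) (hX ζ)).trans (by rw [neg_smul (-1 / 2 : ℝ)]; exact add_neg_cancel _)
  have h0 : ⁅G.A, ⁅G.A, Y₁⁆⁆ + ⁅G.A, Y₁⁆ = 0 := by
    refine G.ext0 _ fun ω hω => ?_
    have h1 : (G.ev ⁅G.A, Y₁⁆ ω).2.2 = 0 := by
      have h2 := d_t_eq (Y := Y₁) hω
        (by obtain ⟨a, ha⟩ := hZ.m1; simp [ha, G.evZ ω hω, fZ])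
        (fun ζ => by obtain ⟨a, ha⟩ := (hX ζ).mh; simp [ha, G.evX a ω hω, fX])
        ω.1 ((1 / 2 : ℂ) • ω.2.1)
      rw [G.ev_A_lie Y₁ hω, Prod.snd_sub, Prod.snd_sub]
      exact sub_eq_zero.2 h2
    rw [map_add, Pi.add_apply, hsp.ev_A hω]
    exact Prod.ext (neg_add_cancel _) (Prod.ext ((zero_add _).trans (hsp.z_eq hω))
      ((zero_add _).trans h1))
  have n0 : (0 : ℝ) ∉ s' := Finset.notMem_erase _ _
  have n1 : (-1 : ℝ) ∉ insert 0 s' := by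
    simp only [hs', Finset.mem_insert, Finset.mem_erase, Finset.mem_union, Finset.mem_image]
    rintro (h | ⟨-, ⟨μ, hμ, h⟩ | ⟨μ, hμ, h⟩⟩)
    · norm_num at h
    · linarith [hlow μ hμ]
    · linarith [hlow μ hμ]
  refine hY ((iSup₂_le fun μ _ => le_iSup f.eigenspace μ : ⨆ μ ∈ insert (-1) (insert 0 s'), _ ≤ _)
    (mem_iSup_eigenspace f _ Y ?_))
  rw [Finset.prod_insert n1, Finset.prod_insert n0, ← hp, map_mul, map_mul, Module.End.mul_apply,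
    Module.End.mul_apply, ← hY₁, ← h0]
  simp [hf, Algebra.algebraMap_eq_smul_one]

end GM0

end Crest.Agent.R264.P5
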