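import Crest.Agent.R264.P5.GM2

/-! Row 264, P5/P6: positive weights. -/

set_option autoImplicit false
open Set Filter Topology Metric Complex
open scoped Matrix

noncomputable section
namespace Crest.Agent.R264.P5

namespace GM0
variable {𝔤 : Type} [LieRing 𝔤] [LieAlgebra ℝ 𝔤] [FiniteDimensional ℝ 𝔤] {r k : ℕ}
  {G : GM0 𝔤 r k} {Zp : 𝔤}

/-- Induction with `Wt.euler`. -/
theorem Wt.slice_half (m : ℕ) {X : 𝔤} (hX : G.Wt ((m : ℝ) - 1 / 2) X) {w : ℂ} (hw : 0 < w.im)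
    {t : CN k} (ht : t ∈ G.T) : (G.ev X (sl w t)).1 = 0 ∧ (G.ev X (sl w t)).2.2 = 0 := by
  induction m generalizing X with
  | zero =>
    have e : ((0 : ℕ) : ℝ) - 1 / 2 = -1 / 2 := by norm_num
    rw [e] at hX
    obtain ⟨ζ, rfl⟩ := hX.mh
    rw [G.ev_X_sl ζ hw ht]
    exact ⟨rfl, rfl⟩
  | succ m ih =>
    obtain ⟨h1, h2⟩ := ih (G.wt_Z.lie hX (by push_cast; ring))
    have h := hX.euler hw ht
    have a1 := congrArg (fun x : PM r k => x.1) h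
    have a2 := congrArg (fun x : PM r k => x.2.2) h
    simp only [Prod.smul_fst, Prod.smul_snd, h1, h2, smul_zero] at a1 a2
    have p : (0 : ℝ) ≤ m := Nat.cast_nonneg m
    have n1 : ((((m + 1 : ℕ) : ℝ) - 1 / 2 : ℝ) : ℂ) + 1 ≠ 0 := by
      have : (((m + 1 : ℕ) : ℝ) - 1 / 2 : ℝ) + 1 ≠ 0 := by push_cast; linarith
      exact_mod_cast this
    have n2 : ((((m + 1 : ℕ) : ℝ) - 1 / 2 : ℝ) : ℂ) ≠ 0 :=
      Complex.ofReal_ne_zero.2 (by push_cast; linarith)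
    exact ⟨(mul_eq_zero.1 a1.symm).resolve_left n1, (smul_eq_zero.1 a2.symm).resolve_left n2⟩

/-- Induction with `Wt.euler`, starting from `Wt.m1`. -/
theorem Wt.slice_int (m : ℕ) {X : 𝔤} (hX : G.Wt ((m : ℝ) - 1) X) : ∃ α : ℝ, ∀ w : ℂ, 0 < w.im →
    ∀ t ∈ G.T, (G.ev X (sl w t)).1 = α * w ^ m ∧ (G.ev X (sl w t)).2.1 = 0 := by
  induction m generalizing X with
  | zero =>
    have e : ((0 : ℕ) : ℝ) - 1 = -1 := by norm_num
    rw [e] at hX
    obtain ⟨a, rfl⟩ := hX.m1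
    refine ⟨a, fun w hw t ht => ?_⟩
    rw [map_smul, Pi.smul_apply, G.ev_Z_sl hw ht]
    simp
  | succ m ih =>
    obtain ⟨α, hα⟩ := ih (G.wt_Z.lie hX (by push_cast; ring))
    refine ⟨α / (m + 1), fun w hw t ht => ?_⟩
    obtain ⟨h1, h2⟩ := hα w hw t ht
    have h := hX.euler hw ht
    have a1 := congrArg (fun x : PM r k => x.1) h
    have a2 := congrArg (fun x : PM r k => x.2.1) h
    simp only [Prod.smul_fst, Prod.smul_snd, h1, h2, smul_zero, smul_eq_mul] at a1 a2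
    have p : (0 : ℝ) ≤ m := Nat.cast_nonneg m
    have n1 : (m : ℂ) + 1 ≠ 0 := by exact_mod_cast Nat.succ_ne_zero m
    have n2 : ((((m + 1 : ℕ) : ℝ) - 1 : ℝ) : ℂ) + 1 / 2 ≠ 0 := by
      have : ((((m + 1 : ℕ) : ℝ) - 1 + 1 / 2 : ℝ) : ℂ) ≠ 0 :=
        Complex.ofReal_ne_zero.2 (by push_cast; linarith)
      push_cast at this ⊢
      exact this
    refine ⟨?_, (smul_eq_zero.1 a2.symm).resolve_left n2⟩
    push_cast at a1 ⊢
    field_simp
    linear_combination -a1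

theorem Wt.Z_inj {μ : ℝ} {X : 𝔤} (hX : G.Wt μ X) (hμ : 0 < μ) (h : ⁅G.Z, X⁆ = 0) : X = 0 := by
  have hw : 0 < (I : ℂ).im := by simp
  have e := hX.euler hw G.t0_mem
  rw [h, map_zero, Pi.zero_apply, smul_zero] at e
  have a1 := congrArg (fun x : PM r k => x.1) e
  have a2 := congrArg (fun x : PM r k => x.2.1) e
  have a3 := congrArg (fun x : PM r k => x.2.2) e
  have n1 : (μ : ℂ) + 1 ≠ 0 := by
    have : μ + 1 ≠ 0 := by linarith
    exact_mod_cast this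
  have n2 : (μ : ℂ) + 1 / 2 ≠ 0 := by
    have : ((μ + 1 / 2 : ℝ) : ℂ) ≠ 0 := Complex.ofReal_ne_zero.2 (by linarith)
    push_cast at this
    exact this
  have n3 : (μ : ℂ) ≠ 0 := Complex.ofReal_ne_zero.2 hμ.ne'
  exact hX.vanish hμ.ne' (G.slI_mem G.t0_mem) (Prod.ext ((mul_eq_zero.1 a1.symm).resolve_left n1)
    (Prod.ext ((smul_eq_zero.1 a2.symm).resolve_left n2) ((smul_eq_zero.1 a3.symm).resolve_left n3)))

/-- First component of the derivative along a slice value. -/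
theorem h85_fst_d {X : 𝔤} {c : ℂ} (h : ∀ t ∈ G.T, (G.ev X (sl I t)).1 = c) (a : ℂ) (e : CN k) :
    (fderiv ℂ (G.ev X) (sl I G.t0) (a, 0, e)).1 = a * (G.ev ⁅G.Z, X⁆ (sl I G.t0)).1 := by
  have hω := G.slI_mem G.t0_mem
  have h1 : ((a, 0, e) : PM r k) = a • ((1, 0, 0) : PM r k) + (0, 0, e) := by
    ext <;> simp
  have h2 := fderiv_slice_clm G.toMBase (G.diff X) (ContinuousLinearMap.fst ℂ ℂ (CN r × CN k))
    (w := I) (by simp) (c := c) h G.t0_mem e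
  rw [h1, map_add, map_smul, ← G.ev_Z_lie X hω]
  simp only [ContinuousLinearMap.coe_fst'] at h2
  simp [h2]

theorem h85_fin {μ : ℝ} {X : 𝔤} (hX : G.Wt μ X) (hμ : μ ≠ 0) (h0 : ⁅⁅G.Z, X⁆, X⁆ = 0) {a : ℝ}
    (ha : a ≠ 0) (h : I • G.ev ⁅G.Z, X⁆ (sl I G.t0) = (a : ℂ) • G.ev X (sl I G.t0)) : X = 0 := by
  have hω := G.slI_mem G.t0_mem
  have ha' : (a : ℂ) ≠ 0 := by exact_mod_cast ha
  have h1 : G.ev X (sl I G.t0) = ((a⁻¹ : ℝ) * I : ℂ) • G.ev ⁅G.Z, X⁆ (sl I G.t0) := by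
    rw [mul_smul, h, smul_smul]
    push_cast
    rw [inv_mul_cancel₀ ha', one_smul]
  have h2 := G.noC _ _ h0 _ hω _ (by simpa using ha) h1
  rw [h2, smul_zero] at h1
  exact hX.vanish hμ hω h1

theorem h85_max {μ : ℝ} {X : 𝔤} (hX : G.Wt μ X) (hμ : 1 < μ)
    (hmax : ∀ ν Y, G.Wt ν Y → μ < ν → Y = 0) : X = 0 := by
  by_contra hne
  apply hne
  have hω := G.slI_mem G.t0_mem
  have hX' : G.Wt (μ - 1) ⁅G.Z, X⁆ := G.wt_Z.lie hX (by ring)
  have h0 : ⁅⁅G.Z, X⁆, X⁆ = 0 := hmax _ _ (hX'.lie hX rfl) (by linarith)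
  have hE := hX.euler (w := I) (by simp) G.t0_mem
  obtain ⟨n, hn⟩ := hX.cases hne
  rcases Nat.even_or_odd' n with ⟨m, rfl | rfl⟩
  · have hm : μ = (m : ℝ) - 1 := by rw [hn]; push_cast; ring
    have hm1 : 1 ≤ m := by
      have : (1 : ℝ) ≤ m := by linarith
      exact_mod_cast this
    obtain ⟨α, hα⟩ := Wt.slice_int m (hm ▸ hX)
    have hX'' : G.Wt (((m - 1 : ℕ) : ℝ) - 1) ⁅G.Z, X⁆ := by
      rw [Nat.cast_sub hm1, Nat.cast_one, ← hm]; exact hX'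
    obtain ⟨α', hα'⟩ := Wt.slice_int (m - 1) hX''
    have hE' := hX'.euler (w := I) (by simp) G.t0_mem
    have hz := (hα I (by simp) _ G.t0_mem).2
    have hz' := (hα' I (by simp) _ G.t0_mem).2
    have hl := G.lie0 ⁅G.Z, X⁆ X hω
    have d1 := h85_fst_d (fun t ht => (hα I (by simp) t ht).1) (G.ev ⁅G.Z, X⁆ (sl I G.t0)).1
      (G.ev ⁅G.Z, X⁆ (sl I G.t0)).2.2
    have d2 := h85_fst_d (fun t ht => (hα' I (by simp) t ht).1) (G.ev X (sl I G.t0)).1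
      (G.ev X (sl I G.t0)).2.2
    rw [← hz'] at d1
    rw [← hz] at d2
    simp only [Prod.mk.eta] at d1 d2
    have hl1 := congrArg Prod.fst hl
    rw [h0, map_zero, Prod.fst_sub, d1, d2] at hl1
    have e1 := congrArg Prod.fst hE
    have e2 := congrArg Prod.fst hE'
    simp only [Prod.smul_fst, smul_eq_mul, Pi.zero_apply, Prod.fst_zero] at e1 e2 hl1
    push_cast at e2
    set x := (G.ev X (sl I G.t0)).1
    set x' := (G.ev ⁅G.Z, X⁆ (sl I G.t0)).1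
    set x'' := (G.ev ⁅G.Z, ⁅G.Z, X⁆⁆ (sl I G.t0)).1
    have hx : ((μ : ℂ) + 1) * x ^ 2 = 0 := by
      linear_combination (-(I * x' + (μ + 1) * x) + μ * x) * e1 + (I * x) * e2 - I ^ 2 * hl1
    have hμ1 : (μ : ℂ) + 1 ≠ 0 := by
      have : μ + 1 ≠ 0 := by linarith
      exact_mod_cast this
    have hx0 : x = 0 := by simpa [hμ1] using hx
    refine h85_fin hX (by linarith) h0 (a := μ) (by linarith) ?_
    rw [hE]
    refine Prod.ext ?_ (Prod.ext ?_ rfl)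
    · simp only [Prod.smul_fst, smul_eq_mul]
      change _ = (μ : ℂ) * x
      rw [hx0]; simp
    · simp [hz]
  · have hm : μ = (m : ℝ) - 1 / 2 := by rw [hn]; push_cast; ring
    obtain ⟨h1, h2⟩ := Wt.slice_half m (hm ▸ hX) (w := I) (by simp) G.t0_mem
    refine h85_fin hX (by linarith) h0 (a := μ + 1 / 2) (by linarith) ?_
    rw [hE]
    refine Prod.ext ?_ (Prod.ext ?_ ?_)
    · simp [h1]
    · simp
    · simp [h2]

/-- Take the maximal eigenvalue `μ > 1`, `X' = [Z,X]`; `[X',X]` has weight `2μ - 1 > μ`, so it is `0`.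
Work at `ω = sl I t0`.  Half integers: `X ω = (i/(μ+1/2)) • X' ω` (`slice_half`, Euler).
Integers `μ ≥ 2`: the first component of `[X',X] ω = DX(X') - DX'(X)` is
`X'_w X'_w - X''_w X_w` (`ev_Z_lie`; the base derivatives of the first components vanish by
`slice_int` and `fderiv_slice_clm`), Euler gives `(μ+1) X_w² = 0`, so `X ω = (i/μ) • X' ω`.
In both cases `noC` gives `X' ω = 0`, `X ω = 0`, `X = 0` (`Wt.vanish`). -/
theorem Wt.high {μ : ℝ} {X : 𝔤} (hX : G.Wt μ X) (hμ : 1 < μ) : X = 0 := by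
  by_contra hne
  have hfin := Module.End.finite_hasEigenvalue (LieAlgebra.ad ℝ 𝔤 G.A)
  have hmem : ∀ ν Y, G.Wt ν Y → Y ≠ 0 → Module.End.HasEigenvalue (LieAlgebra.ad ℝ 𝔤 G.A) ν :=
    fun ν Y hY h0 => Module.End.hasEigenvalue_of_hasEigenvector
      ⟨Module.End.mem_eigenspace_iff.2 hY, h0⟩
  obtain ⟨ν, hν, hmax⟩ := Set.exists_max_image _ id hfin ⟨μ, hmem μ X hX hne⟩
  obtain ⟨Y, hY⟩ := Module.End.HasEigenvalue.exists_hasEigenvector hν
  have hYw : G.Wt ν Y := hY.apply_eq_smul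
  have hle : μ ≤ ν := hmax μ (hmem μ X hX hne)
  refine hY.2 (h85_max hYw (by linarith) fun ρ V hV hρ => ?_)
  by_contra hV0
  exact absurd (hmax ρ (hmem ρ V hV hV0)) (not_le.2 hρ)

/-- On the slice `X = w • X'` with `X' = [Z,X]`, both with values `(0,0,c)`; `fderiv_slice` shows that
`[X',X]` vanishes on the slice, it has weight one so it is zero; `noC`. -/
theorem Wt.one {X : 𝔤} (hX : G.Wt 1 X)
    (h : ∀ w : ℂ, 0 < w.im → ∀ t ∈ G.T, (G.ev X (sl w t)).1 = 0) : X = 0 := by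
  have hω := G.slI_mem G.t0_mem
  have hX' : G.Wt 0 ⁅G.Z, X⁆ := G.wt_Z.lie hX (by ring)
  obtain ⟨α, hα⟩ := Wt.slice_int 2 (X := X) (G := G) (by convert hX using 1; norm_num)
  have hE : ∀ t ∈ G.T, G.ev X (sl I t) = I • G.ev ⁅G.Z, X⁆ (sl I t) := by
    intro t ht
    rw [hX.euler (w := I) (by simp) ht]
    refine Prod.ext ?_ (Prod.ext ?_ ?_)
    · simp [h I (by simp) t ht]
    · simp [(hα I (by simp) t ht).2]
    · simp
  have h1 : G.ev X (sl I G.t0) = (0, 0, (G.ev X (sl I G.t0)).2.2) :=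
    Prod.ext (h I (by simp) _ G.t0_mem) (Prod.ext (hα I (by simp) _ G.t0_mem).2 rfl)
  have h2 : G.ev ⁅G.Z, X⁆ (sl I G.t0) = (-I) • G.ev X (sl I G.t0) := by
    rw [hE _ G.t0_mem, smul_smul]; simp
  have h3 := fderiv_slice G.toMBase (G.diff X) (G.diff ⁅G.Z, X⁆) (w := I) (by simp) I hE G.t0_mem
    (G.ev X (sl I G.t0)).2.2
  rw [← h1] at h3
  have h4 : G.ev ⁅⁅G.Z, X⁆, X⁆ (sl I G.t0) = 0 := by
    rw [G.lie0 _ _ hω, h2, map_smul, h3, smul_smul]; simp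
  have h0 : ⁅⁅G.Z, X⁆, X⁆ = 0 := (hX'.lie hX (zero_add 1)).vanish one_ne_zero hω h4
  refine h85_fin hX one_ne_zero h0 (a := 1) one_ne_zero ?_
  rw [← hE _ G.t0_mem]; simp

end GM0

end Crest.Agent.R264.P5
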