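import Crest.Agent.R264.P5.GM3

/-! Row 264, P5/P6: the contact grading. -/

set_option autoImplicit false
open Set Filter Topology Metric Complex
open scoped Matrix

noncomputable section
namespace Crest.Agent.R264.P5

namespace GM0
variable {𝔤 : Type} [LieRing 𝔤] [LieAlgebra ℝ 𝔤] [FiniteDimensional ℝ 𝔤] {r k : ℕ}
  (G : GM0 𝔤 r k)

/-- Only five weights occur (`cases`, `high`). -/
theorem wt_five {μ : ℝ} {X : 𝔤} (hX : G.Wt μ X) (h1 : μ ≠ -1) (h2 : μ ≠ -1 / 2) (h3 : μ ≠ 0)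
    (h4 : μ ≠ 1 / 2) (h5 : μ ≠ 1) : X = 0 := by
  by_contra h0
  obtain ⟨n, rfl⟩ := hX.cases h0
  rcases lt_or_ge n 5 with hn | hn
  · interval_cases n
    · exact h1 (by norm_num)
    · exact h2 (by norm_num)
    · exact h3 (by norm_num)
    · exact h4 (by norm_num)
    · exact h5 (by norm_num)
  · have : (5 : ℝ) ≤ n := by exact_mod_cast hn
    exact h0 (hX.high (by linarith))

theorem h49_mem {μ : ℝ} {X : 𝔤} :
    X ∈ (LieAlgebra.ad ℝ 𝔤 G.A).eigenspace μ ↔ G.Wt μ X := by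
  rw [Module.End.mem_eigenspace_iff, LieAlgebra.ad_apply]
  rfl

theorem dec_five (X : 𝔤) : ∃ x₁ x₂ x₃ x₄ x₅ : 𝔤, G.Wt (-1) x₁ ∧ G.Wt (-1 / 2) x₂ ∧ G.Wt 0 x₃ ∧
    G.Wt (1 / 2) x₄ ∧ G.Wt 1 x₅ ∧ X = x₁ + x₂ + x₃ + x₄ + x₅ := by
  have hX : X ∈ ⨆ μ : ℝ, (LieAlgebra.ad ℝ 𝔤 G.A).eigenspace μ := by
    rw [G.diag]; exact Submodule.mem_top
  have z := fun μ : ℝ => (Wt.zero μ : G.Wt μ 0)
  induction hX using Submodule.iSup_induction' with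
  | mem μ x hx =>
    rw [G.h49_mem] at hx
    by_cases h1 : μ = -1
    · exact ⟨x, 0, 0, 0, 0, h1 ▸ hx, z _, z _, z _, z _, by simp⟩
    by_cases h2 : μ = -1 / 2
    · exact ⟨0, x, 0, 0, 0, z _, h2 ▸ hx, z _, z _, z _, by simp⟩
    by_cases h3 : μ = 0
    · exact ⟨0, 0, x, 0, 0, z _, z _, h3 ▸ hx, z _, z _, by simp⟩
    by_cases h4 : μ = 1 / 2
    · exact ⟨0, 0, 0, x, 0, z _, z _, z _, h4 ▸ hx, z _, by simp⟩
    by_cases h5 : μ = 1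
    · exact ⟨0, 0, 0, 0, x, z _, z _, z _, z _, h5 ▸ hx, by simp⟩
    exact ⟨0, 0, 0, 0, 0, z _, z _, z _, z _, z _, by
      rw [G.wt_five hx h1 h2 h3 h4 h5]; simp⟩
  | zero => exact ⟨0, 0, 0, 0, 0, z _, z _, z _, z _, z _, by simp⟩
  | add x y _ _ hx hy =>
    obtain ⟨a1, a2, a3, a4, a5, p1, p2, p3, p4, p5, rfl⟩ := hx
    obtain ⟨b1, b2, b3, b4, b5, q1, q2, q3, q4, q5, rfl⟩ := hy
    exact ⟨a1 + b1, a2 + b2, a3 + b3, a4 + b4, a5 + b5, p1.add q1, p2.add q2, p3.add q3,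
      p4.add q4, p5.add q5, by abel⟩

theorem h49_trace :
    (Module.finrank ℝ ((LieAlgebra.ad ℝ 𝔤 G.A).eigenspace (-1)) : ℝ) +
      (Module.finrank ℝ ((LieAlgebra.ad ℝ 𝔤 G.A).eigenspace (-1 / 2)) : ℝ) / 2 =
    (Module.finrank ℝ ((LieAlgebra.ad ℝ 𝔤 G.A).eigenspace 1) : ℝ) +
      (Module.finrank ℝ ((LieAlgebra.ad ℝ 𝔤 G.A).eigenspace (1 / 2)) : ℝ) / 2 := by
  classical
  have htop : ⨆ μ ∈ ({-1, -1 / 2, 0, 1 / 2, 1} : Finset ℝ),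
      (LieAlgebra.ad ℝ 𝔤 G.A).eigenspace μ = ⊤ := by
    rw [eq_top_iff]
    intro X _
    obtain ⟨a1, a2, a3, a4, a5, p1, p2, p3, p4, p5, rfl⟩ := G.dec_five X
    have key : ∀ (μ : ℝ) (x : 𝔤), μ ∈ ({-1, -1 / 2, 0, 1 / 2, 1} : Finset ℝ) → G.Wt μ x →
        x ∈ ⨆ μ ∈ ({-1, -1 / 2, 0, 1 / 2, 1} : Finset ℝ),
          (LieAlgebra.ad ℝ 𝔤 G.A).eigenspace μ := fun μ x hμ hx =>
      Submodule.mem_iSup_of_mem μ (Submodule.mem_iSup_of_mem hμ (G.h49_mem.mpr hx))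
    exact add_mem (add_mem (add_mem (add_mem (key _ _ (by simp) p1) (key _ _ (by simp) p2))
      (key _ _ (by simp) p3)) (key _ _ (by simp) p4)) (key _ _ (by simp) p5)
  have h := trace_eq_sum_eigen _ _ htop
  rw [G.uni, Finset.sum_insert (by simp only [Finset.mem_insert, Finset.mem_singleton]; norm_num),
    Finset.sum_insert (by simp only [Finset.mem_insert, Finset.mem_singleton]; norm_num),
    Finset.sum_insert (by simp only [Finset.mem_insert, Finset.mem_singleton]; norm_num),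
    Finset.sum_insert (by simp only [Finset.mem_singleton]; norm_num),
    Finset.sum_singleton] at h
  linarith

theorem h49_one : Module.finrank ℝ ((LieAlgebra.ad ℝ 𝔤 G.A).eigenspace 1) ≤ 1 := by
  let φ : (LieAlgebra.ad ℝ 𝔤 G.A).eigenspace 1 →ₗ[ℝ] ℝ :=
    { toFun := fun X => (G.ev X (sl I G.t0)).1.re
      map_add' := fun X Y => by simp
      map_smul' := fun a X => by simp }
  have hφ : Function.Injective φ := by
    rw [injective_iff_map_eq_zero]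
    intro X hX
    have hw : G.Wt 1 X.1 := G.h49_mem.mp X.2
    have hw' : G.Wt (((2 : ℕ) : ℝ) - 1) X.1 := by
      have : (((2 : ℕ) : ℝ) - 1) = 1 := by norm_num
      rw [this]; exact hw
    obtain ⟨α, hα⟩ := hw'.slice_int 2
    have h1 := (hα I (by simp) _ G.t0_mem).1
    have h2 : (G.ev X (sl I G.t0)).1.re = 0 := hX
    rw [h1, I_sq] at h2
    have h3 : α = 0 := by simpa using h2
    refine Subtype.ext (hw.one fun w hw t ht => ?_)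
    rw [(hα w hw t ht).1, h3]
    simp
  simpa using LinearMap.finrank_le_finrank_of_injective hφ

/-- Unimodularity: `0 = tr ad A = -1 - d₋/2 + d₊/2 + d₁` (`trace_eq_sum_eigen`), `d₁ ≤ 1` (`Wt.one`,
`slice_int`), `d₊ ≤ d₋` (`Z_inj`).  So `d₁ = 1` and `ad Z : g_{1/2} → g_{-1/2}` is onto. -/
theorem exists_top : (∃ X, G.Wt 1 X ∧ X ≠ 0) ∧
    ∀ ζ, ∃ Y, G.Wt (1 / 2) Y ∧ ⁅G.Z, Y⁆ = G.Xn ζ := by
  let ψ : (LieAlgebra.ad ℝ 𝔤 G.A).eigenspace (1 / 2) →ₗ[ℝ]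
      (LieAlgebra.ad ℝ 𝔤 G.A).eigenspace (-1 / 2) :=
    { toFun := fun Y => ⟨⁅G.Z, Y.1⁆,
        G.h49_mem.mpr (G.wt_Z.lie (G.h49_mem.mp Y.2) (by norm_num))⟩
      map_add' := fun X Y => Subtype.ext (by simp)
      map_smul' := fun a X => Subtype.ext (by simp) }
  have hψ : Function.Injective ψ := by
    rw [injective_iff_map_eq_zero]
    intro Y hY
    exact Subtype.ext ((G.h49_mem.mp Y.2).Z_inj (by norm_num) (congrArg Subtype.val hY))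
  have h1 := LinearMap.finrank_le_finrank_of_injective hψ
  have h2 := G.h49_one
  have h3 : 0 < Module.finrank ℝ ((LieAlgebra.ad ℝ 𝔤 G.A).eigenspace (-1)) :=
    Module.finrank_pos_iff_exists_ne_zero.mpr
      ⟨⟨G.Z, G.h49_mem.mpr G.wt_Z⟩, fun h => G.Z_ne (congrArg Subtype.val h)⟩
  have h4 := G.h49_trace
  have h5 : 2 * Module.finrank ℝ ((LieAlgebra.ad ℝ 𝔤 G.A).eigenspace (-1)) +
      Module.finrank ℝ ((LieAlgebra.ad ℝ 𝔤 G.A).eigenspace (-1 / 2)) =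
      2 * Module.finrank ℝ ((LieAlgebra.ad ℝ 𝔤 G.A).eigenspace 1) +
      Module.finrank ℝ ((LieAlgebra.ad ℝ 𝔤 G.A).eigenspace (1 / 2)) := by
    have : ((2 * Module.finrank ℝ ((LieAlgebra.ad ℝ 𝔤 G.A).eigenspace (-1)) +
        Module.finrank ℝ ((LieAlgebra.ad ℝ 𝔤 G.A).eigenspace (-1 / 2)) : ℕ) : ℝ) =
        ((2 * Module.finrank ℝ ((LieAlgebra.ad ℝ 𝔤 G.A).eigenspace 1) +
        Module.finrank ℝ ((LieAlgebra.ad ℝ 𝔤 G.A).eigenspace (1 / 2)) : ℕ) : ℝ) := by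
      push_cast
      linarith
    exact_mod_cast this
  constructor
  · have h6 : 0 < Module.finrank ℝ ((LieAlgebra.ad ℝ 𝔤 G.A).eigenspace 1) := by omega
    obtain ⟨X, hX⟩ := Module.finrank_pos_iff_exists_ne_zero.mp h6
    exact ⟨X.1, G.h49_mem.mp X.2, fun h => hX (Subtype.ext h)⟩
  · intro ζ
    have h7 := (LinearMap.injective_iff_surjective_of_finrank_eq_finrank (by omega)).mp hψ
    obtain ⟨Y, hY⟩ := h7 ⟨G.Xn ζ, G.h49_mem.mpr (G.wt_X ζ)⟩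
    exact ⟨Y.1, G.h49_mem.mp Y.2, congrArg Subtype.val hY⟩

/-- Normalise `Zp` by `α = 1` in `slice_int 2`.  `H = [Z,Zp]`, `K = H - 2A` has weight `0` and values
`(0,0,γ)` on the slice (Euler for `Zp`), `[Z,K] = 0` (`m1` and Euler for `K`), `[K,Zp] = 0` (`Z_inj`).
At `ω = sl I t`: `(Z + Zp) ω = i • K ω`, `noC` gives `K ω = 0`.  For `Y` of weight `1/2`, `F = [Z,Y]`:
`[H,F] = [Z,[Zp,F]]` and `[H,F] = -2F - [Z,[Zp,F]]` (use `[Zp,Y] = 0`, `[Z,F] = 0`, `[H,Z] = -2Z`), so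
`[Z,[Zp,F]] = -F`, `[K,F] = 0`; `K` is `Spec`, `K = 0` (`Spec.eq_zero`).  Finally `Y = -[Zp,F]`
(`Z_inj`). -/
theorem exists_gr : ∃ Zp, G.Gr Zp := by
  obtain ⟨⟨X, hX, hX0⟩, hs⟩ := G.exists_top
  have two : ∀ {Y : 𝔤}, G.Wt 1 Y → G.Wt (((2 : ℕ) : ℝ) - 1) Y := fun h => by
    convert h using 1; norm_num
  obtain ⟨α, hα⟩ := Wt.slice_int 2 (two hX)
  have hα0 : α ≠ 0 := fun h => hX0 (hX.one fun w hw t ht => by rw [(hα w hw t ht).1, h]; simp)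
  have hαc : (α : ℂ) ≠ 0 := by exact_mod_cast hα0
  obtain ⟨Zp, wZp, e1, e2⟩ : ∃ Zp, G.Wt 1 Zp ∧
      (∀ w : ℂ, 0 < w.im → ∀ t ∈ G.T, (G.ev Zp (sl w t)).1 = w ^ 2) ∧
      (∀ w : ℂ, 0 < w.im → ∀ t ∈ G.T, (G.ev Zp (sl w t)).2.1 = 0) := by
    refine ⟨α⁻¹ • X, hX.smul _, fun w hw t ht => ?_, fun w hw t ht => ?_⟩
    · rw [map_smul, Pi.smul_apply, Prod.smul_fst, (hα w hw t ht).1, Complex.real_smul]
      push_cast
      field_simp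
    · rw [map_smul, Pi.smul_apply, Prod.smul_snd, Prod.smul_fst, (hα w hw t ht).2, smul_zero]
  obtain ⟨K, hK⟩ : ∃ K, K = ⁅G.Z, Zp⁆ - (2 : ℝ) • G.A := ⟨_, rfl⟩
  have hH : ⁅G.Z, Zp⁆ = K + (2 : ℝ) • G.A := by rw [hK]; abel
  have wK : G.Wt 0 K := hK ▸ (G.wt_Z.lie wZp (by norm_num)).sub (G.wt_A.smul _)
  have hw0 : ∀ {w : ℂ}, 0 < w.im → w ≠ 0 := fun hw h => by simp [h] at hw
  have evK : ∀ w : ℂ, 0 < w.im → ∀ t ∈ G.T,
      w • G.ev K (sl w t) = (0, 0, (G.ev Zp (sl w t)).2.2) := fun w hw t ht => by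
    have h := wZp.euler hw ht
    rw [hK, map_sub, Pi.sub_apply, smul_sub, h, map_smul, Pi.smul_apply, G.ev_A_sl hw ht,
      e1 w hw t ht, e2 w hw t ht]
    refine Prod.ext ?_ (Prod.ext ?_ ?_)
    · simp only [Prod.fst_sub, Prod.smul_fst, smul_eq_mul, Complex.real_smul]
      push_cast
      ring
    · simp
    · simp
  have evK1 : ∀ w : ℂ, 0 < w.im → ∀ t ∈ G.T, (G.ev K (sl w t)).1 = 0 := fun w hw t ht => by
    have := congrArg Prod.fst (evK w hw t ht)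
    simpa [hw0 hw] using this
  have hZK : ⁅G.Z, K⁆ = 0 := by
    obtain ⟨a, ha⟩ := (G.wt_Z.lie wK (by norm_num : (-1 : ℝ) + 0 = -1)).m1
    have h := congrArg Prod.fst (wK.euler (w := I) (by simp) G.t0_mem)
    rw [ha, map_smul, Pi.smul_apply, G.ev_Z_sl (by simp) G.t0_mem,
      evK1 I (by simp) _ G.t0_mem] at h
    have : a = 0 := by simpa using h
    rw [ha, this, zero_smul]
  have hKA : ⁅K, G.A⁆ = 0 := by
    rw [← lie_skew, show ⁅G.A, K⁆ = 0 by rw [show ⁅G.A, K⁆ = _ from wK, zero_smul], neg_zero]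
  have hKZp : ⁅K, Zp⁆ = 0 := by
    refine (wK.lie wZp (by norm_num : (0 : ℝ) + 1 = 1)).Z_inj one_pos ?_
    rw [leibniz_lie, hZK, zero_lie, zero_add, hH, lie_add, lie_self, lie_smul, hKA, smul_zero,
      add_zero]
  have hK0 : ∀ t ∈ G.T, G.ev K (sl I t) = 0 := fun t ht => by
    refine G.noC K (G.Z + Zp) ?_ _ (G.slI_mem ht) I (by simp) ?_
    · rw [lie_add, hKZp, ← lie_skew, hZK]; simp
    · rw [evK I (by simp) t ht, map_add, Pi.add_apply, G.ev_Z_sl (by simp) ht]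
      refine Prod.ext ?_ (Prod.ext ?_ ?_)
      · simp [e1 I (by simp) t ht]
      · simp [e2 I (by simp) t ht]
      · simp
  have hHZ : ⁅⁅G.Z, Zp⁆, G.Z⁆ = -((2 : ℝ) • G.Z) := by
    rw [hH, add_lie, smul_lie, show ⁅G.A, G.Z⁆ = _ from G.wt_Z, ← lie_skew, hZK]
    simp
  have key : ∀ ζ, ⁅G.Z, ⁅Zp, G.Xn ζ⁆⁆ = -G.Xn ζ ∧ ⁅⁅G.Z, Zp⁆, G.Xn ζ⁆ = -G.Xn ζ := fun ζ => by
    obtain ⟨Y, wY, hY⟩ := hs ζ
    have h1 : ⁅Zp, Y⁆ = 0 := (wZp.lie wY rfl).high (by norm_num)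
    have h2 : ⁅⁅G.Z, Zp⁆, G.Xn ζ⁆ = ⁅G.Z, ⁅Zp, G.Xn ζ⁆⁆ := by
      rw [lie_lie, G.Z_X, lie_zero, sub_zero]
    have h3 : ⁅⁅G.Z, Zp⁆, Y⁆ = -⁅Zp, G.Xn ζ⁆ := by
      rw [lie_lie, h1, hY, lie_zero, zero_sub]
    have h4 : ⁅⁅G.Z, Zp⁆, G.Xn ζ⁆ = -((2 : ℝ) • G.Xn ζ) - ⁅G.Z, ⁅Zp, G.Xn ζ⁆⁆ := by
      conv_lhs => rw [← hY, leibniz_lie, hHZ, h3]
      rw [neg_lie, smul_lie, hY, lie_neg, sub_eq_add_neg]
    have h5 : ⁅G.Z, ⁅Zp, G.Xn ζ⁆⁆ = -G.Xn ζ := by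
      rw [h2] at h4
      have : (2 : ℝ) • ⁅G.Z, ⁅Zp, G.Xn ζ⁆⁆ = (2 : ℝ) • -G.Xn ζ := by
        rw [two_smul, smul_neg]
        exact eq_sub_iff_add_eq.1 h4
      exact smul_right_injective _ two_ne_zero this
    exact ⟨h5, h2.trans h5⟩
  have hKz : K = 0 := by
    refine Spec.eq_zero ⟨hZK, fun ζ => ?_⟩ hK0
    rw [← lie_skew, hK, sub_lie, (key ζ).2, smul_lie, show ⁅G.A, G.Xn ζ⁆ = _ from G.wt_X ζ,
      smul_smul]
    norm_num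
  have ph : ∀ X, G.Wt (1 / 2) X → ∃ η, X = ⁅Zp, G.Xn η⁆ := fun X wX => by
    obtain ⟨ζ, hζ⟩ := (G.wt_Z.lie wX (by norm_num : (-1 : ℝ) + 1 / 2 = -1 / 2)).mh
    refine ⟨-ζ, ?_⟩
    have := (wX.add (wZp.lie (G.wt_X ζ) (by norm_num))).Z_inj (by norm_num)
      (by rw [lie_add, hζ, (key ζ).1, add_neg_cancel])
    rw [map_neg, lie_neg]
    exact eq_neg_of_add_eq_zero_left this
  have p1 : ∀ X, G.Wt 1 X → ∃ b : ℝ, X = b • Zp := fun X wX => by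
    obtain ⟨β, hβ⟩ := Wt.slice_int 2 (two wX)
    refine ⟨β, sub_eq_zero.1 ((wX.sub (wZp.smul β)).one fun w hw t ht => ?_)⟩
    rw [map_sub, map_smul, Pi.sub_apply, Pi.smul_apply, Prod.fst_sub, Prod.smul_fst,
      (hβ w hw t ht).1, e1 w hw t ht, Complex.real_smul, sub_self]
  refine ⟨Zp, wZp, by rw [hH, hKz, zero_add], fun w hw t ht => ?_,
    fun μ X hX => G.wt_five hX, fun X hX => hX.m1, fun X hX => hX.mh, ph, p1, fun X => ?_⟩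
  · have h := congrArg (fun p => p.2.2) (evK w hw t ht)
    simp only [hKz, map_zero, Pi.zero_apply, smul_zero, Prod.snd_zero] at h
    exact Prod.ext (e1 w hw t ht) (Prod.ext (e2 w hw t ht) h.symm)
  · obtain ⟨x₁, x₂, x₃, x₄, x₅, h₁, h₂, h₃, h₄, h₅, e⟩ := G.dec_five X
    obtain ⟨a, rfl⟩ := h₁.m1
    obtain ⟨ζ, rfl⟩ := h₂.mh
    obtain ⟨η, rfl⟩ := ph _ h₄
    obtain ⟨b, rfl⟩ := p1 _ h₅
    exact ⟨a, ζ, x₃, η, b, h₃, e⟩

end GM0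

end Crest.Agent.R264.P5
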