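import Crest.Agent.R264.P5.Pt3

/-! Row 264, P5/P6: the splitting of the tangent space, II. -/

set_option autoImplicit false
open Set Filter Topology Metric Complex
open scoped Matrix

noncomputable section
namespace Crest.Agent.R264.P5

namespace PD
variable {𝔰 : Type} [LieRing 𝔰] [LieAlgebra ℝ 𝔰] {E : Type} [NormedAddCommGroup E]
  [NormedSpace ℂ E] [NormedSpace ℝ E] [IsScalarTower ℝ ℂ E] {P : PD 𝔰 E} {Z1 : 𝔰}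
  [FiniteDimensional ℝ 𝔰] [LieAlgebra.IsKilling ℝ 𝔰] [FiniteDimensional ℂ E]

theorem Full.dZ_mem (h : P.Full Z1) (u : E) : P.d Z1 u ∈ P.val := by
  have := h.normal (a := Z1) (b := 0) (by simp [h.hs.zero]) u
  simpa using this

omit [FiniteDimensional ℂ E] in
theorem Full.dZ_val (h : P.Full Z1) {u : E} (hu : u ∈ P.val) : P.d Z1 u = I • u := by
  obtain ⟨X, rfl⟩ := (h.hs.mem_val u).1 hu
  exact h.hs.d_v X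

/-- For `Q = j X ∈ p` the field `W = Q + i jQ` vanishes to second order.  `lie1` with `K = Z1`:
`i DW u = DW (dZ1 u) - dZ1 (DW u)`, `dZ1 (DW u) = i DW u` (`normal`), and `DW` kills `val`
(`dZ1 u = v Q'` with `Q' ∈ p`, `DW (v Q') = v [Q',Q] + i v [Q',jQ] + dQ' (v W) = 0` by `p_p`). -/
theorem Full.second (h : P.Full Z1) (X : 𝔰) (u : E) :
    P.d ⁅X, Z1⁆ u + I • P.d ⁅⁅X, Z1⁆, Z1⁆ u = 0 := by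
  have hW : P.v ⁅X, Z1⁆ + I • P.v ⁅⁅X, Z1⁆, Z1⁆ = 0 := by
    rw [h.hs.cx ⁅X, Z1⁆, smul_smul, I_mul_I, neg_one_smul, add_neg_cancel]
  have h1 := P.lie1 Z1 ⁅X, Z1⁆ ⁅⁅X, Z1⁆, Z1⁆ h.hs.zero hW u
  have e1 : ⁅Z1, ⁅X, Z1⁆⁆ = -⁅⁅X, Z1⁆, Z1⁆ := (lie_skew _ _).symm
  have e2 : ⁅Z1, ⁅⁅X, Z1⁆, Z1⁆⁆ = ⁅X, Z1⁆ := by
    rw [← lie_skew, h.hs.jjj, neg_neg]
  have hn := h.dZ_val (h.normal hW u)
  obtain ⟨Y, hY⟩ := (h.hs.mem_val _).1 (h.dZ_mem u)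
  have hY' : P.d Z1 u = P.v ⁅-⁅Y, Z1⁆, Z1⁆ := by
    have := h.hs.dec Y
    rw [map_add] at this
    rw [← hY, neg_lie, map_neg]
    exact eq_neg_of_add_eq_zero_left this
  have k1 := P.lie0 ⁅-⁅Y, Z1⁆, Z1⁆ ⁅X, Z1⁆
  have k2 := P.lie0 ⁅-⁅Y, Z1⁆, Z1⁆ ⁅⁅X, Z1⁆, Z1⁆
  rw [h.hs.p_p] at k1 k2
  have k3 : P.d ⁅X, Z1⁆ (P.d Z1 u) + I • P.d ⁅⁅X, Z1⁆, Z1⁆ (P.d Z1 u) = 0 := by
    rw [hY', sub_eq_zero.1 k1.symm, sub_eq_zero.1 k2.symm, ← map_smul, ← map_add, hW, map_zero]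
  rw [k3, hn, e1, e2, map_neg, _root_.neg_apply] at h1
  have h2 : (2 * I) • (P.d ⁅X, Z1⁆ u + I • P.d ⁅⁅X, Z1⁆, Z1⁆ u) = 0 := by
    have h3 : I • (P.d ⁅X, Z1⁆ u + I • P.d ⁅⁅X, Z1⁆, Z1⁆ u) =
        -P.d ⁅⁅X, Z1⁆, Z1⁆ u + I • P.d ⁅X, Z1⁆ u := by
      rw [smul_add, smul_smul, I_mul_I, neg_one_smul, add_comm]
    rw [mul_smul, two_smul]
    nth_rewrite 1 [h3]
    rw [h1]
    abel
  have h4 : (2 * I : ℂ) ≠ 0 := mul_ne_zero two_ne_zero I_ne_zero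
  exact (smul_eq_zero.1 h2).resolve_left h4

/-- `lie1` with `K = Z1`, `X = K`, `X' = 0`. -/
theorem Full.k_ker (h : P.Full Z1) {K : 𝔰} (hK : P.v K = 0) {u : E} (hu : P.d Z1 u = 0) :
    P.d K u = 0 := by
  have hK0 : P.v K + I • P.v 0 = 0 := by simp [hK]
  have h1 := P.lie1 Z1 K 0 h.hs.zero hK0 u
  have e1 : ⁅Z1, K⁆ = 0 := by rw [← lie_skew, h.hs.comm K hK, neg_zero]
  have hn : P.d K u ∈ P.val := by simpa using h.normal hK0 u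
  have h2 : P.d Z1 (P.d K u) = 0 := by simpa [e1, hu] using h1
  rw [h.dZ_val hn] at h2
  exact (smul_eq_zero.1 h2).resolve_left I_ne_zero

theorem Full.mem_dist (h : P.Full Z1) (u : E) : u ∈ P.Dist ↔ P.d Z1 u = 0 := by
  constructor
  · intro hu
    simpa using hu Z1 0 (by simp [h.hs.zero])
  · intro hu a b hab
    have ha := h.k_ker (h.hs.dec a) hu
    have hb := h.k_ker (h.hs.dec b) hu
    have hs := h.second b u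
    rw [h.hs.q_eq hab] at ha
    rw [map_add, _root_.add_apply] at ha hb
    rw [eq_neg_of_add_eq_zero_left ha, eq_neg_of_add_eq_zero_left hb, smul_neg, ← neg_add, hs,
      neg_zero]

/-- `X ↦ [X, Z1]`. -/
def Pt4c_j (Z1 : 𝔰) : 𝔰 →ₗ[ℝ] 𝔰 := -(LieAlgebra.ad ℝ 𝔰 Z1)

/-- The projection to the isotropy algebra. -/
def Pt4c_pi (Z1 : 𝔰) : 𝔰 →ₗ[ℝ] 𝔰 := LinearMap.id + Pt4c_j Z1 ∘ₗ Pt4c_j Z1

omit [FiniteDimensional ℝ 𝔰] [LieAlgebra.IsKilling ℝ 𝔰] in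
theorem Pt4c_j_apply (Z1 X : 𝔰) : Pt4c_j Z1 X = ⁅X, Z1⁆ := by
  simp [Pt4c_j]

omit [FiniteDimensional ℝ 𝔰] [LieAlgebra.IsKilling ℝ 𝔰] in
theorem Pt4c_pi_apply (Z1 X : 𝔰) : Pt4c_pi Z1 X = X + ⁅⁅X, Z1⁆, Z1⁆ := by
  rw [Pt4c_pi, LinearMap.add_apply, LinearMap.comp_apply, Pt4c_j_apply, Pt4c_j_apply,
    LinearMap.id_apply]

omit [LieAlgebra.IsKilling ℝ 𝔰] in
theorem Pt4c_pi_adj (Z1 X Y : 𝔰) :
    killingForm ℝ 𝔰 (Pt4c_pi Z1 X) Y = killingForm ℝ 𝔰 X (Pt4c_pi Z1 Y) := by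
  rw [Pt4c_pi_apply, Pt4c_pi_apply, map_add, LinearMap.add_apply, map_add, killing_j, killing_j,
    neg_neg]

omit [LieAlgebra.IsKilling ℝ 𝔰] in
theorem Pt4c_j_adj (Z1 X Y : 𝔰) :
    killingForm ℝ 𝔰 (Pt4c_j Z1 X) Y = killingForm ℝ 𝔰 X ((-Pt4c_j Z1) Y) := by
  rw [LinearMap.neg_apply, Pt4c_j_apply, Pt4c_j_apply, killing_j, map_neg]

omit [FiniteDimensional ℂ E] [FiniteDimensional ℝ 𝔰] [LieAlgebra.IsKilling ℝ 𝔰] in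
theorem HS.Pt4c_pi_pi (h : P.HS Z1) (X : 𝔰) : Pt4c_pi Z1 (Pt4c_pi Z1 X) = Pt4c_pi Z1 X := by
  have := h.comm _ (h.dec X)
  rw [Pt4c_pi_apply Z1 (Pt4c_pi Z1 X), Pt4c_pi_apply, this, zero_lie, add_zero]

omit [FiniteDimensional ℂ E] [FiniteDimensional ℝ 𝔰] [LieAlgebra.IsKilling ℝ 𝔰] in
/-- `(1 - π) ad Q = ad Q π` for `Q ∈ p`. -/
theorem HS.Pt4c_swap (h : P.HS Z1) (X U : 𝔰) :
    ⁅⁅X, Z1⁆, U⁆ = Pt4c_pi Z1 ⁅⁅X, Z1⁆, U⁆ + ⁅⁅X, Z1⁆, Pt4c_pi Z1 U⁆ := by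
  have h1 : ⁅⁅⁅X, Z1⁆, ⁅⁅U, Z1⁆, Z1⁆⁆, Z1⁆ = 0 := h.comm _ (h.p_p X ⁅U, Z1⁆)
  have h2 := h.dec U
  have h3 : ⁅⁅⁅U + ⁅⁅U, Z1⁆, Z1⁆, ⁅X, Z1⁆⁆, Z1⁆, Z1⁆ = -⁅U + ⁅⁅U, Z1⁆, Z1⁆, ⁅X, Z1⁆⁆ := by
    rw [h.k_j h2, h.k_j h2, h.jjj, lie_neg]
  have h4 : ⁅⁅X, Z1⁆, U⁆ = -⁅U + ⁅⁅U, Z1⁆, Z1⁆, ⁅X, Z1⁆⁆ - ⁅⁅X, Z1⁆, ⁅⁅U, Z1⁆, Z1⁆⁆ := by
    rw [lie_skew, lie_add]
    abel
  have h5 : ⁅⁅⁅⁅X, Z1⁆, U⁆, Z1⁆, Z1⁆ = ⁅U + ⁅⁅U, Z1⁆, Z1⁆, ⁅X, Z1⁆⁆ := by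
    conv_lhs => rw [h4, sub_lie, h1, sub_zero, neg_lie, neg_lie, h3, neg_neg]
  rw [Pt4c_pi_apply, Pt4c_pi_apply, h5, ← lie_skew (U + ⁅⁅U, Z1⁆, Z1⁆)]
  abel

omit [FiniteDimensional ℝ 𝔰] [LieAlgebra.IsKilling ℝ 𝔰] in
theorem Pt4c_inv (X Y U : 𝔰) :
    killingForm ℝ 𝔰 ⁅X, Y⁆ U = -killingForm ℝ 𝔰 Y ⁅X, U⁆ := by
  rw [← lie_skew X Y, map_neg, LinearMap.neg_apply, killingForm,
    LieModule.traceForm_apply_lie_apply]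

omit [FiniteDimensional ℝ 𝔰] [LieAlgebra.IsKilling ℝ 𝔰] in
theorem Pt4c_comm (X Y : 𝔰) : killingForm ℝ 𝔰 X Y = killingForm ℝ 𝔰 Y X :=
  LieModule.traceForm_comm ℝ 𝔰 𝔰 X Y

theorem Pt4c_tr_adj (T T' : 𝔰 →ₗ[ℝ] 𝔰)
    (h : ∀ x y, killingForm ℝ 𝔰 (T x) y = killingForm ℝ 𝔰 x (T' y)) :
    LinearMap.trace ℝ 𝔰 T = LinearMap.trace ℝ 𝔰 T' := by
  rw [trace_eq_sum, trace_eq_sum, cas_adj (killingForm ℝ 𝔰) T T' h]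
  have := cas_symm (LinearMap.comp (killingForm ℝ 𝔰) T')
  simp only [LinearMap.comp_apply] at this
  rw [this]
  exact Finset.sum_congr rfl fun a _ => Pt4c_comm _ _

omit [FiniteDimensional ℂ E] in
theorem HS.Pt4c_tr (h : P.HS Z1) (X Y : 𝔰) :
    2 * LinearMap.trace ℝ 𝔰 (Pt4c_pi Z1 ∘ₗ LieAlgebra.ad ℝ 𝔰 ⁅X, Z1⁆ ∘ₗ LieAlgebra.ad ℝ 𝔰 Y) =
      killingForm ℝ 𝔰 ⁅X, Z1⁆ Y := by
  have e1 : LieAlgebra.ad ℝ 𝔰 ⁅X, Z1⁆ ∘ₗ LieAlgebra.ad ℝ 𝔰 Y =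
      Pt4c_pi Z1 ∘ₗ LieAlgebra.ad ℝ 𝔰 ⁅X, Z1⁆ ∘ₗ LieAlgebra.ad ℝ 𝔰 Y +
        LieAlgebra.ad ℝ 𝔰 ⁅X, Z1⁆ ∘ₗ (Pt4c_pi Z1 ∘ₗ LieAlgebra.ad ℝ 𝔰 Y) := by
    ext U
    simpa only [LinearMap.comp_apply, LinearMap.add_apply, LieAlgebra.ad_apply] using
      h.Pt4c_swap X ⁅Y, U⁆
  have e2 : LinearMap.trace ℝ 𝔰 (LieAlgebra.ad ℝ 𝔰 ⁅X, Z1⁆ ∘ₗ (Pt4c_pi Z1 ∘ₗ LieAlgebra.ad ℝ 𝔰 Y)) =
      LinearMap.trace ℝ 𝔰 (Pt4c_pi Z1 ∘ₗ LieAlgebra.ad ℝ 𝔰 ⁅X, Z1⁆ ∘ₗ LieAlgebra.ad ℝ 𝔰 Y) := by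
    rw [LinearMap.trace_comp_comm', LinearMap.trace_comp_comm' (LieAlgebra.ad ℝ 𝔰 ⁅X, Z1⁆ ∘ₗ
      LieAlgebra.ad ℝ 𝔰 Y)]
    refine Pt4c_tr_adj _ _ fun x y => ?_
    simp only [LinearMap.comp_apply, LieAlgebra.ad_apply]
    rw [Pt4c_pi_adj, Pt4c_inv, Pt4c_inv, neg_neg]
  rw [killingForm_apply_apply]
  conv_rhs => rw [e1, map_add, e2]
  ring

/-- The Casimir operator of `k` on `p` is `1/2`.  With `π X = X + j j X` (the projection to `k`,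
self adjoint) and `C X = ∑ [π e_a, [π e^a, X]]`, for `X, Y ∈ p`:
`B (C X) Y = tr (π ad X ad Y)` up to the symmetry of Casimir sums (`trace_eq_sum`, `cas_adj`,
`cas_symm`), `B X Y = tr (π adX adY) + tr ((1-π) adX adY)`, `(1-π) adX = adX π`. -/
theorem HS.cas_k (h : P.HS Z1) (X : 𝔰) :
    ∑ a, ⁅ce 𝔰 a + ⁅⁅ce 𝔰 a, Z1⁆, Z1⁆, ⁅cd 𝔰 a + ⁅⁅cd 𝔰 a, Z1⁆, Z1⁆, ⁅X, Z1⁆⁆⁆ =
      (1 / 2 : ℝ) • ⁅X, Z1⁆ := by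
  refine killing_ext fun U => ?_
  have e0 : ∀ Y : 𝔰, killingForm ℝ 𝔰 (∑ a, ⁅ce 𝔰 a + ⁅⁅ce 𝔰 a, Z1⁆, Z1⁆,
      ⁅cd 𝔰 a + ⁅⁅cd 𝔰 a, Z1⁆, Z1⁆, ⁅X, Z1⁆⁆⁆) Y =
      LinearMap.trace ℝ 𝔰 (Pt4c_pi Z1 ∘ₗ LieAlgebra.ad ℝ 𝔰 ⁅X, Z1⁆ ∘ₗ LieAlgebra.ad ℝ 𝔰 Y) := by
    intro Y
    have := cas_adj (LinearMap.compl₂ (LinearMap.comp (killingForm ℝ 𝔰)
      (LieAlgebra.ad ℝ 𝔰 ⁅X, Z1⁆ ∘ₗ LieAlgebra.ad ℝ 𝔰 Y)) (Pt4c_pi Z1)) _ _ (Pt4c_pi_adj Z1)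
    simp only [LinearMap.compl₂_apply, LinearMap.comp_apply, LieAlgebra.ad_apply,
      h.Pt4c_pi_pi] at this
    rw [trace_eq_sum, map_sum, LinearMap.sum_apply]
    simp only [LinearMap.comp_apply, LieAlgebra.ad_apply, Pt4c_pi_adj, ← Pt4c_pi_apply]
    rw [← this]
    refine Finset.sum_congr rfl fun a _ => ?_
    rw [Pt4c_inv, Pt4c_inv ⁅X, Z1⁆, Pt4c_comm, ← lie_skew Y,
      ← lie_skew ⁅X, Z1⁆ (Pt4c_pi Z1 (cd 𝔰 a))]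
    simp only [map_neg, LinearMap.neg_apply, neg_neg]
  rw [e0, map_smul, LinearMap.smul_apply, ← h.Pt4c_tr, smul_eq_mul]
  ring

/-- The bilinear map behind the Casimir endomorphism. -/
def Pt4c_F (P : PD 𝔰 E) (u : E) : 𝔰 →ₗ[ℝ] 𝔰 →ₗ[ℝ] E :=
  LinearMap.mk₂ ℝ (fun x y => P.d x (P.d y u)) (fun x x' y => by simp) (fun c x y => by simp)
    (fun x y y' => by simp) fun c x y => by simp

theorem Full.Pt4c_jj (h : P.Full Z1) (X : 𝔰) (u : E) :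
    P.d ⁅⁅X, Z1⁆, Z1⁆ u = I • P.d ⁅X, Z1⁆ u := by
  have h1 := congrArg (fun w => I • w) (h.second X u)
  simp only [smul_add, smul_smul, I_mul_I, neg_smul, one_smul, smul_zero] at h1
  exact (add_neg_eq_zero.1 h1).symm

theorem Full.Pt4c_sum (h : P.Full Z1) (u : E) :
    ∑ a, P.d (ce 𝔰 a) (P.d (cd 𝔰 a) u) =
      ∑ a, P.d (Pt4c_pi Z1 (ce 𝔰 a)) (P.d (Pt4c_pi Z1 (cd 𝔰 a)) u) := by
  have a1 := cas_adj ((Pt4c_F P u).comp (Pt4c_pi Z1)) _ _ (Pt4c_pi_adj Z1)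
  have a2 := cas_adj ((Pt4c_F P u).comp (Pt4c_j Z1)) _ _ (Pt4c_j_adj Z1)
  have a3 := cas_adj (((Pt4c_F P u).comp (Pt4c_j Z1)).compl₂ (Pt4c_j Z1 ∘ₗ Pt4c_j Z1)) _ _
    (Pt4c_j_adj Z1)
  simp only [LinearMap.comp_apply, LinearMap.compl₂_apply, Pt4c_F, LinearMap.mk₂_apply,
    h.hs.Pt4c_pi_pi, LinearMap.neg_apply, Pt4c_j_apply, h.hs.jjj, neg_neg, map_neg] at a1 a2 a3
  have a4 : ∑ a, P.d ⁅ce 𝔰 a, Z1⁆ (P.d ⁅cd 𝔰 a, Z1⁆ u) = 0 := by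
    simp only [h.Pt4c_jj, map_smul, smul_smul, I_mul_I, neg_smul, one_smul,
      Finset.sum_neg_distrib] at a3
    have a5 : (2 : ℂ) • ∑ a, P.d ⁅ce 𝔰 a, Z1⁆ (P.d ⁅cd 𝔰 a, Z1⁆ u) = 0 := by
      rw [two_smul]
      nth_rewrite 1 [← a3]
      exact neg_add_cancel _
    exact (smul_eq_zero.1 a5).resolve_left two_ne_zero
  rw [Finset.sum_neg_distrib, a4, neg_zero] at a2
  rw [← a1]
  simp only [Pt4c_pi_apply, map_add, add_apply, Finset.sum_add_distrib, a2,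
    add_zero]

/-- `∑ d e_a d e^a = ∑ d (π e_a) d (π e^a) + ∑ d (π' e_a) d (π' e^a)` (`cas_adj`; `π' = - j j`).
The second sum `S` equals `∑ d (j e_a) d (j e^a)` (`cas_adj`), and `d (j j X) = i d (j X)` (`second`)
gives `S = - S`.  The first sum kills `ker dZ1` (`k_ker`) and is `1/2` on `val`
(`d K (v X) = - v [K, X]`, `cas_k`); `u = (u + i dZ1 u) - i dZ1 u`. -/
theorem Full.cas_eq (h : P.Full Z1) (u : E) : P.cas u = -I • P.d Z1 u := by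
  have e : ∀ w, P.cas w =
      (2 : ℂ) • ∑ a, P.d (Pt4c_pi Z1 (ce 𝔰 a)) (P.d (Pt4c_pi Z1 (cd 𝔰 a)) w) := fun w => by
    rw [← h.Pt4c_sum]
    simp [cas]
  have hk : ∀ X, P.v (Pt4c_pi Z1 X) = 0 := fun X => by
    rw [Pt4c_pi_apply]
    exact h.hs.dec X
  have h1 : ∀ w, P.d Z1 w = 0 → P.cas w = 0 := fun w hw => by
    rw [e]
    simp [h.k_ker (hk _) hw]
  have h2 : ∀ w ∈ P.val, P.cas w = w := fun w hw => by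
    obtain ⟨X, rfl⟩ := (h.hs.mem_val w).1 hw
    have b1 : P.v X = P.v ⁅-⁅X, Z1⁆, Z1⁆ := by
      have := h.hs.dec X
      rw [map_add] at this
      rw [neg_lie, map_neg]
      exact eq_neg_of_add_eq_zero_left this
    have b2 : ∀ K Q, P.v K = 0 → P.d K (P.v Q) = -P.v ⁅K, Q⁆ := fun K Q hK => by
      rw [P.lie0, hK]
      simp
    have b3 := congrArg P.v (h.hs.cas_k (-⁅X, Z1⁆))
    rw [map_sum, map_smul] at b3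
    rw [e, b1]
    generalize -⁅X, Z1⁆ = Y at b3
    simp only [b2 _ _ (hk _), map_neg, neg_neg]
    simp only [Pt4c_pi_apply]
    rw [b3, two_smul, ← add_smul]
    norm_num
  have h3 := h1 (u + I • P.d Z1 u) (by
    rw [map_add, map_smul, h.dZ_val (h.dZ_mem u), smul_smul, I_mul_I]
    simp)
  rw [map_add, map_smul, h2 _ (h.dZ_mem u)] at h3
  rw [neg_smul]
  exact eq_neg_of_add_eq_zero_left h3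

theorem Full.cas_mem (h : P.Full Z1) (u : E) : P.cas u ∈ P.val := by
  rw [h.cas_eq]
  exact P.val.smul_mem _ (h.dZ_mem u)

theorem Full.cas_val (h : P.Full Z1) {u : E} (hu : u ∈ P.val) : P.cas u = u := by
  rw [h.cas_eq, h.dZ_val hu, smul_smul]
  simp

theorem Full.cas_eq_zero (h : P.Full Z1) (u : E) : P.cas u = 0 ↔ u ∈ P.Dist := by
  rw [h.cas_eq, h.mem_dist, smul_eq_zero]
  simp

end PD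

end Crest.Agent.R264.P5
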