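import Crest.Agent.R264.P5.Pt2
import Crest.Agent.R264.P5.Pt4
import Crest.Agent.R264.P5.LVb

/-! Row 264, P5/P6: passing from a Lie algebra to an ideal. -/

set_option autoImplicit false
open Set Filter Topology Metric Complex
open scoped Matrix

noncomputable section
namespace Crest.Agent.R264.P5

variable {𝔤 : Type} [LieRing 𝔤] [LieAlgebra ℝ 𝔤] [FiniteDimensional ℝ 𝔤] (s : LieIdeal ℝ 𝔤)

/-- `LieIdeal.killingForm_eq`. -/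
theorem killing_res (X Y : s) : killingForm ℝ s X Y = killingForm ℝ 𝔤 X Y := by
  rw [LieIdeal.killingForm_eq]
  rfl

omit [FiniteDimensional ℝ 𝔤] in
theorem simp_res (h : ∀ i : Submodule ℝ 𝔤, (∀ X ∈ i, X ∈ s) → (∀ U ∈ s, ∀ X ∈ i, ⁅U, X⁆ ∈ i) →
    (∀ X ∈ s, X ∈ i) ∨ i = ⊥) : Simp s := by
  intro i hi
  rcases h (i.map s.toSubmodule.subtype) (by rintro _ ⟨X, -, rfl⟩; exact X.2)
    (by rintro U hU _ ⟨X, hX, rfl⟩; exact ⟨⁅(⟨U, hU⟩ : s), X⁆, hi _ X hX, rfl⟩) with h1 | h1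
  · refine Or.inl (eq_top_iff.2 fun X _ => ?_)
    obtain ⟨Y, hY, e⟩ := h1 X X.2
    rwa [← Subtype.ext e]
  · refine Or.inr (eq_bot_iff.2 fun X hX => ?_)
    have : (X : 𝔤) ∈ i.map s.toSubmodule.subtype := ⟨X, hX, rfl⟩
    rw [h1] at this
    exact Subtype.ext this

theorem pos_res (h : ∃ X ∈ s, 0 < killingForm ℝ 𝔤 X X) : Pos s := by
  obtain ⟨X, hX, h⟩ := h
  exact ⟨⟨X, hX⟩, by rwa [killing_res]⟩

variable {E : Type} [NormedAddCommGroup E] [NormedSpace ℂ E] [NormedSpace ℝ E]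
  [IsScalarTower ℝ ℂ E]

/-- `killing_skew`, `killing_res`, `center_eq`. -/
theorem neg_res [LieAlgebra.IsKilling ℝ s] (P : PD s E)
    (h : ∀ K : s, P.v K = 0 → IsSkew (LieAlgebra.ad ℝ 𝔤 K)) : P.Neg := by
  intro K hK
  obtain ⟨h1, h2⟩ := killing_skew (h K hK)
  rw [killing_res]
  exact ⟨h1, fun h0 => center_eq fun Y => Subtype.ext (h2 h0 Y)⟩

/-- If every point of `W` is hermitian symmetric then everything holds at every point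
(`HS.H`, `At.H2_iff`, `At.dh2`). -/
theorem LV.full {𝔰 : Type} [LieRing 𝔰] [LieAlgebra ℝ 𝔰] [FiniteDimensional ℝ 𝔰]
    [LieAlgebra.IsKilling ℝ 𝔰] [FiniteDimensional ℂ E] (L : LV 𝔰 E) (hs : Simp 𝔰) (hp : Pos 𝔰)
    (hall : ∀ ω ∈ L.W, ∀ P : PD 𝔰 E, L.At ω P → ∃ Z1, P.HS Z1) {ω : E} (hω : ω ∈ L.W)
    {P : PD 𝔰 E} (hP : L.At ω P) (hn : P.Neg) {Z1 : 𝔰} (hZ : P.HS Z1) : P.Full Z1 := by
  refine ⟨hZ, hn, hP.dh2 hω fun l V ω' hω' => ?_, hs, hp⟩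
  obtain ⟨P', hP'⟩ := L.exists_pd hω'
  obtain ⟨Z', hZ'⟩ := hall ω' hω' P' hP'
  exact hP'.H2_iff.1 hZ'.H.2 l V

end Crest.Agent.R264.P5
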