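import Crest.Agent.R264.P1
import Crest.Agent.R264.P5.Defs

/-! Row 264, P5/P6: linearity of the derivative on tangent vectors. -/

set_option autoImplicit false
open Set Filter Topology Metric Complex
open scoped Matrix

noncomputable section
namespace Crest.Agent.R264
open P5

namespace TM
variable (M : TM) {F : Type} [NormedAddCommGroup F] [NormedSpace ℂ F]

/-- `fderivWithin_eq_of_mem_Tan` with local extensions. -/
theorem D_add_T {f g : CN M.N → F} (hf : Hol M.U f) (hg : Hol M.U g) {y v : CN M.N}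
    (hy : y ∈ M.U) (hv : v ∈ M.T y) : M.D (f + g) y v = M.D f y v + M.D g y v := by
  obtain ⟨O, hO, hyO, Φ, hΦ, h⟩ := hf y hy
  obtain ⟨O', hO', hyO', Ψ, hΨ, h'⟩ := hg y hy
  have d1 := hΦ.differentiableAt (hO.mem_nhds hyO)
  have d2 := hΨ.differentiableAt (hO'.mem_nhds hyO')
  have e1 : f =ᶠ[𝓝[M.U] y] Φ := by
    filter_upwards [self_mem_nhdsWithin, mem_nhdsWithin_of_mem_nhds (hO.mem_nhds hyO)] with z a b
    exact h z a b
  have e2 : g =ᶠ[𝓝[M.U] y] Ψ := by
    filter_upwards [self_mem_nhdsWithin, mem_nhdsWithin_of_mem_nhds (hO'.mem_nhds hyO')] with z a b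
    exact h' z a b
  rw [fderivWithin_eq_of_mem_Tan hy (d1.add d2) (e1.add e2) hv,
    fderivWithin_eq_of_mem_Tan hy d1 e1 hv, fderivWithin_eq_of_mem_Tan hy d2 e2 hv, fderiv_add d1 d2]
  rfl

theorem D_smul_T {f : CN M.N → F} (hf : Hol M.U f) (c : ℂ) {y v : CN M.N}
    (hy : y ∈ M.U) (hv : v ∈ M.T y) : M.D (c • f) y v = c • M.D f y v := by
  obtain ⟨O, hO, hyO, Φ, hΦ, h⟩ := hf y hy
  have d1 := hΦ.differentiableAt (hO.mem_nhds hyO)
  have e1 : f =ᶠ[𝓝[M.U] y] Φ := by
    filter_upwards [self_mem_nhdsWithin, mem_nhdsWithin_of_mem_nhds (hO.mem_nhds hyO)] with z a b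
    exact h z a b
  rw [fderivWithin_eq_of_mem_Tan hy (d1.const_smul c) (e1.const_smul c) hv,
    fderivWithin_eq_of_mem_Tan hy d1 e1 hv, fderiv_const_smul d1]
  rfl

theorem D_fn_add (X Y : M.g) {y v : CN M.N} (hy : y ∈ M.U) (hv : v ∈ M.T y) :
    M.D (M.fn (X + Y)) y v = M.D (M.fn X) y v + M.D (M.fn Y) y v := by
  exact M.D_add_T (M.hol_fn X) (M.hol_fn Y) hy hv

theorem D_fn_neg (X : M.g) {y v : CN M.N} (hy : y ∈ M.U) (hv : v ∈ M.T y) :
    M.D (M.fn (-X)) y v = -M.D (M.fn X) y v := by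
  have h : M.fn (-X) = (-1 : ℂ) • M.fn X := by
    rw [neg_one_smul]; rfl
  rw [h, M.D_smul_T (M.hol_fn X) _ hy hv, neg_one_smul]

theorem fn_sum {ι : Type} (t : Finset ι) (X : ι → M.g) (y : CN M.N) :
    M.fn (∑ i ∈ t, X i) y = ∑ i ∈ t, M.fn (X i) y := by
  classical
  induction t using Finset.induction_on with
  | empty => rfl
  | insert a t ha ih => rw [Finset.sum_insert ha, Finset.sum_insert ha, M.fn_add, Pi.add_apply, ih]

theorem D_fn_sum {ι : Type} (t : Finset ι) (X : ι → M.g) {y v : CN M.N} (hy : y ∈ M.U)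
    (hv : v ∈ M.T y) : M.D (M.fn (∑ i ∈ t, X i)) y v = ∑ i ∈ t, M.D (M.fn (X i)) y v := by
  classical
  induction t using Finset.induction_on with
  | empty =>
    rw [Finset.sum_empty, Finset.sum_empty]
    exact congrArg (fun L : CN M.N →L[ℂ] CN M.N => L v) (tD_const (U := M.U) (x := y) 0)
  | insert a t ha ih => rw [Finset.sum_insert ha, Finset.sum_insert ha, M.D_fn_add _ _ hy hv, ih]

/-- The linear part of a field at a zero preserves the tangent space. -/
theorem md_D_mem_T {Z : CN M.N → CN M.N} (hZ : Z ∈ M.VF) {y v : CN M.N} (hy : y ∈ M.U)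
    (hv : v ∈ M.T y) (h0 : Z y = 0) : M.D Z y v ∈ M.T y := by
  obtain ⟨ch, u, hu, rfl⟩ := M.chart y hy
  have an : DifferentiableAt ℂ (fun w => fderiv ℂ ch.l (ch.c w) (Z (ch.c w))) u :=
    (((ch.analyticAt_l _).fderiv.comp (ch.analyticAt_c hu)).differentiableAt).clm_apply
      (ch.analyticAt_comp hZ.1 hu).differentiableAt
  have e : (fun w => Z (ch.c w)) =ᶠ[𝓝 u]
      fun w => fderiv ℂ ch.c w (fderiv ℂ ch.l (ch.c w) (Z (ch.c w))) := by
    filter_upwards [ch.s_open.mem_nhds hu] with w hw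
    exact (ch.fderiv_c_l hw (hZ.2.1 _ (ch.maps hw))).symm
  have h1 := ch.D_eq_chart hu (hZ.1.differentiableWithinAt hy) hv
  rw [e.fderiv_eq, fderiv_clm_apply (ch.analyticAt_c hu).fderiv.differentiableAt an, h0] at h1
  simp only [map_zero, add_zero, ContinuousLinearMap.comp_apply] at h1
  exact h1 ▸ ch.dc_mem hu _

/-- The linear part of a pushed field at a zero.  `D_comp` for `Ad h X ∘ ap h`, which is
`x ↦ D (ap h) x (X x) = fderiv H x (Φ x)` near `y` in `U` for local extensions `H`, `Φ` of `ap h`, `X`;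
its derivative along `v` is `D²H (v, Φ y) + DH (DΦ v)` and `Φ y = 0`. -/
theorem D_Ad_zero (h : M.Aut) (X : M.VF) {y v : CN M.N} (hy : y ∈ M.U) (hv : v ∈ M.T y)
    (h0 : (X : CN M.N → CN M.N) y = 0) :
    M.D (M.Ad h X : CN M.N → CN M.N) (M.ap h y) (M.D (M.ap h) y v) =
      M.D (M.ap h) y (M.D (X : CN M.N → CN M.N) y v) := by
  obtain ⟨Φ, h1, h2⟩ := (M.hol_ap h).exists_analytic hy
  obtain ⟨Ξ, h3, h4⟩ := X.2.1.exists_analytic hy
  have e : (fun x => (M.Ad h X : CN M.N → CN M.N) (M.ap h x)) =ᶠ[𝓝[M.U] y]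
      fun x => fderiv ℂ Φ x (Ξ x) := by
    filter_upwards [self_mem_nhdsWithin, eventually_eventually_nhdsWithin.2 h2, h4,
      mem_nhdsWithin_of_mem_nhds h1.eventually_analyticAt] with x hx a b c
    rw [M.Ad_apply h X hx, tD_ext hx c.differentiableAt a (X.2.2.1 x hx), b]
  have d := h1.fderiv.differentiableAt.clm_apply h3.differentiableAt
  have c1 := tD_comp ((M.Ad h X).2.1.differentiableWithinAt (M.ap_mem h hy))
    ((M.hol_ap h).differentiableWithinAt hy) (fun x hx => M.ap_mem h hx) hv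
  have hΞ : Ξ y = 0 := (h4.self_of_nhdsWithin hy).symm.trans h0
  have t1 : M.D (X : CN M.N → CN M.N) y v ∈ M.T y := M.md_D_mem_T X.2 hy hv h0
  refine c1.symm.trans ((tD_ext hy d e hv).trans ?_)
  rw [fderiv_clm_apply h1.fderiv.differentiableAt h3.differentiableAt,
    tD_ext hy h1.differentiableAt h2 t1, tD_ext hy h3.differentiableAt h4 hv]
  simp [hΞ]

theorem val_le_T (s : LieIdeal ℝ M.g) {y : CN M.N} (hy : y ∈ M.U) : M.val s y ≤ M.T y := by
  refine Submodule.span_le.2 ?_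
  rintro _ ⟨X, -, rfl⟩
  exact M.fn_mem_T X hy

end TM

end Crest.Agent.R264
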