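import Crest.Agent.R264.P5.Pull

/-! Row 264, P5/P6: the structure of good ideals. -/

set_option autoImplicit false
open Set Filter Topology Metric Complex
open scoped Matrix

noncomputable section
namespace Crest.Agent.R264
open P5

namespace TM
variable {M : TM} {s : LieIdeal ℝ M.g}

theorem Good.isKilling (hs : M.Good s) : LieAlgebra.IsKilling ℝ s :=
  isKilling_of_simp (simp_res s hs.simple) (pos_res s hs.pos)

theorem Good.center (hs : M.Good s) {X : M.g} (hX : X ∈ s) (h : ∀ Y ∈ s, ⁅X, Y⁆ = 0) : X = 0 := by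
  haveI := hs.isKilling
  have : (⟨X, hX⟩ : s) = 0 := center_eq fun Y => Subtype.ext (h Y Y.2)
  exact congrArg Subtype.val this

/-- `LV.full`, `Pull.hs_iff`, `Pull.neg`. -/
theorem Good.full (hs : M.Good s) [LieAlgebra.IsKilling ℝ s] {E : Type} [NormedAddCommGroup E]
    [NormedSpace ℂ E] [NormedSpace ℝ E] [IsScalarTower ℝ ℂ E] [FiniteDimensional ℂ E]
    {e : M.Emb E} {pb : M.VF →ₗ[ℂ] (E → E)} (h : e.Pull pb) {ω : E} (hω : ω ∈ e.W) {P : PD s E}
    (hP : ((e.lv h).res s).At ω P) : ∃ Z1, P.Full Z1 := by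
  have hall : ∀ ω ∈ ((e.lv h).res s).W, ∀ P : PD s E, ((e.lv h).res s).At ω P →
      ∃ Z1, P.HS Z1 := fun ω hω P hP => by
    obtain ⟨Z1, hZ, h1⟩ := hs.hs _ (e.maps hω)
    exact ⟨⟨Z1, hZ⟩, (h.hs_iff hω hP _).2 h1⟩
  obtain ⟨Z1, hZ⟩ := hall ω hω P hP
  exact ⟨Z1, LV.full _ (simp_res s hs.simple) (pos_res s hs.pos) hall hω hP (h.neg hω hP) hZ⟩

theorem Good.mem_val (hs : M.Good s) {y : CN M.N} (hy : y ∈ M.U) (v : CN M.N) :
    v ∈ M.val s y ↔ ∃ X ∈ s, M.fn X y = v := by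
  refine ⟨fun hv => ?_, fun ⟨X, hX, h⟩ => Submodule.subset_span ⟨X, hX, h.symm⟩⟩
  obtain ⟨Z1, -, -, h1, -⟩ := hs.hs y hy
  induction hv using Submodule.span_induction with
  | mem v hv => exact hv.imp fun X hX => ⟨hX.1, hX.2.symm⟩
  | zero => exact ⟨0, zero_mem _, rfl⟩
  | add v w _ _ h h' =>
    obtain ⟨X, hX, rfl⟩ := h
    obtain ⟨Y, hY, rfl⟩ := h'
    exact ⟨X + Y, add_mem hX hY, rfl⟩
  | smul c v _ h =>
    obtain ⟨X, hX, rfl⟩ := h
    refine ⟨c.re • X + c.im • ⁅X, Z1⁆,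
      add_mem (s.smul_mem _ hX) (s.smul_mem _ (lie_mem_left ℝ _ s _ _ hX)), ?_⟩
    change c.re • M.fn X y + c.im • M.fn ⁅X, Z1⁆ y = _
    rw [h1 X hX, ← Complex.coe_smul, ← Complex.coe_smul, smul_smul, ← add_smul, re_add_im]

/-- In a chart: `Full.dZ_mem`, `Full.dZ_val`, `Full.mem_dist`, `Pull.d_eq`, `val_iff`, `dist_iff`. -/
theorem Good.split (hs : M.Good s) {y : CN M.N} (hy : y ∈ M.U) :
    ∃ Z1 ∈ s, M.fn Z1 y = 0 ∧ (∀ v ∈ M.T y, M.D (M.fn Z1) y v ∈ M.val s y) ∧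
      (∀ v ∈ M.val s y, M.D (M.fn Z1) y v = I • v) ∧
      ∀ v ∈ M.T y, (v ∈ M.Dist s y ↔ M.D (M.fn Z1) y v = 0) := by
  haveI := hs.isKilling
  obtain ⟨ch, u, hu, rfl⟩ := M.chart y hy
  obtain ⟨pb, h⟩ := (M.chartEmb ch).exists_pull
  have hω : u ∈ (M.chartEmb ch).W := hu
  obtain ⟨P, hP⟩ := (((M.chartEmb ch).lv h).res s).exists_pd hω
  obtain ⟨Z1, hZ⟩ := hs.full h hω hP
  have h0 := ((h.hs_iff hω hP Z1).1 hZ.hs).1
  have hT : ∀ v ∈ M.T (ch.c u), ∃ w, fderiv ℂ (M.chartEmb ch).ψ u w = v := fun v hv => by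
    have := (M.chartEmb ch).drange u hω
    change _ = M.T (ch.c u) at this
    rw [← this] at hv
    exact hv
  refine ⟨Z1, Z1.2, h0, fun v hv => ?_, fun v hv => ?_, fun v hv => ?_⟩
  · obtain ⟨w, rfl⟩ := hT v hv
    exact h.d_eq hω hP h0 w ▸ (h.val_iff hω hP _).2 (hZ.dZ_mem w)
  · obtain ⟨w, rfl⟩ := hT v (M.val_le_T s hy hv)
    refine (h.d_eq hω hP h0 w).symm.trans ?_
    rw [hZ.dZ_val ((h.val_iff hω hP _).1 hv), map_smul]
  · obtain ⟨w, rfl⟩ := hT v hv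
    refine (h.dist_iff hω hP w).trans ((hZ.mem_dist w).trans ?_)
    refine Iff.trans ?_ (Eq.congr_left (h.d_eq hω hP h0 w))
    exact (map_eq_zero_iff _ ((M.chartEmb ch).dinj u hω)).symm

theorem Good.disjoint (hs : M.Good s) {y v : CN M.N} (hy : y ∈ M.U) (h1 : v ∈ M.val s y)
    (h2 : v ∈ M.Dist s y) : v = 0 := by
  obtain ⟨Z1, -, -, -, a, b⟩ := hs.split hy
  have := (a v h1).symm.trans ((b v h2.1).1 h2)
  exact (smul_eq_zero.1 this).resolve_left I_ne_zero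

theorem Good.exists_dec (hs : M.Good s) {y v : CN M.N} (hy : y ∈ M.U) (hv : v ∈ M.T y) :
    ∃ a ∈ M.val s y, v - a ∈ M.Dist s y := by
  obtain ⟨Z1, -, -, c, a, b⟩ := hs.split hy
  have h1 : -I • M.D (M.fn Z1) y v ∈ M.val s y := Submodule.smul_mem _ _ (c v hv)
  refine ⟨_, h1, (b _ (sub_mem hv (M.val_le_T s hy h1))).2 ?_⟩
  rw [map_sub, a _ h1, smul_smul]
  simp

/-- The projection onto the values along `Dist` is holomorphic.  Choose `Pr` by `exists_dec`; it is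
unique (`disjoint`).  In a chart `ch`, with `Y u = fderiv ch.l (c u) (X (c u))` (holomorphic,
`Dc (Y u) = X (c u)`), `Pr (c u) (X (c u)) = Dc u (L.cas u (Y u))` (`Full.cas_mem`, `cas_val`,
`cas_eq_zero`, `At.cas_eq`), `LV.cas_diff`, `Chart.hol_of`, `Hol.of_local`. -/
theorem Good.exists_proj (hs : M.Good s) : ∃ Pr : CN M.N → CN M.N → CN M.N,
    (∀ y ∈ M.U, ∀ v ∈ M.T y, Pr y v ∈ M.val s y ∧ v - Pr y v ∈ M.Dist s y) ∧
    ∀ R, ROpen M.U R → ∀ X : CN M.N → CN M.N, Hol R X → (∀ y ∈ R, X y ∈ M.T y) →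
      Hol R (fun y => Pr y (X y)) := by
  have := hs.isKilling
  have : FiniteDimensional ℝ s := inferInstanceAs (FiniteDimensional ℝ s.toSubmodule)
  have hex : ∀ y v : CN M.N, ∃ a, y ∈ M.U → v ∈ M.T y → a ∈ M.val s y ∧ v - a ∈ M.Dist s y := by
    intro y v
    by_cases h : y ∈ M.U ∧ v ∈ M.T y
    · obtain ⟨a, ha⟩ := hs.exists_dec h.1 h.2
      exact ⟨a, fun _ _ => ha⟩
    · exact ⟨0, fun h1 h2 => absurd ⟨h1, h2⟩ h⟩
  choose Pr hPr using hex
  refine ⟨Pr, fun y hy v hv => hPr y v hy hv, fun R hR X hX hT => ?_⟩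
  refine Hol.of_local fun x hx => ?_
  obtain ⟨ch, u, hu, rfl, hm, hXc⟩ := M.SCVM_chart hR hX hx
  obtain ⟨pb, h⟩ := (M.chartEmb ch).exists_pull
  refine ⟨ch.c '' ch.s, ?_, ch.hol_of ch.s_open Subset.rfl ?_⟩
  · rw [hR.nhdsWithin_eq hx]
    exact ch.nhds u hu
  · have hY : DifferentiableOn ℂ (fun w => fderiv ℂ ch.l (ch.c w) (X (ch.c w))) ch.s :=
      (M.chartEmb ch).diff_of_push ch.s_open Subset.rfl hXc
        fun w hw => ch.fderiv_c_l hw (hT _ (hm hw))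
    have hD : DifferentiableOn ℂ (fderiv ℂ ch.c) ch.s := fun w hw =>
      (ch.analyticAt_c hw).fderiv.differentiableAt.differentiableWithinAt
    refine (hD.clm_apply
      ((((M.chartEmb ch).lv h).res s).cas_diff.clm_apply hY)).congr fun w hw => ?_
    obtain ⟨P, hP⟩ := (((M.chartEmb ch).lv h).res s).exists_pd (ω := w) hw
    obtain ⟨Z1, hZ⟩ := hs.full h hw hP
    have h1 := hPr _ _ (ch.maps hw) (hT _ (hm hw))
    have h2 : fderiv ℂ ch.c w (P.cas (fderiv ℂ ch.l (ch.c w) (X (ch.c w)))) ∈ M.val s (ch.c w) :=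
      (h.val_iff hw hP _).2 (hZ.cas_mem _)
    have h3 : fderiv ℂ ch.c w (fderiv ℂ ch.l (ch.c w) (X (ch.c w)) -
        P.cas (fderiv ℂ ch.l (ch.c w) (X (ch.c w)))) ∈ M.Dist s (ch.c w) :=
      (h.dist_iff hw hP _).2 ((hZ.cas_eq_zero _).1 (by
        rw [map_sub, hZ.cas_val (hZ.cas_mem _), sub_self]))
    rw [map_sub, ch.fderiv_c_l hw (hT _ (hm hw))] at h3
    rw [← hP.cas_eq]
    refine sub_eq_zero.1 (hs.disjoint (ch.maps hw) (sub_mem h1.1 h2) ?_)
    have h4 := sub_mem h3 h1.2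
    rwa [sub_sub_sub_cancel_left] at h4

theorem Good.h94_rank (hs : M.Good s) {y : CN M.N} (hy : y ∈ M.U) :
    Module.finrank ℂ (M.val s y) + Module.finrank ℂ (M.Dist s y) = M.n := by
  have h1 : M.val s y ⊔ M.Dist s y = M.T y := by
    refine le_antisymm (sup_le (M.val_le_T s hy) fun v hv => hv.1) fun v hv => ?_
    obtain ⟨a, ha, hb⟩ := hs.exists_dec hy hv
    exact Submodule.mem_sup.2 ⟨a, ha, v - a, hb, by abel⟩
  have h2 : M.val s y ⊓ M.Dist s y = ⊥ :=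
    (Submodule.eq_bot_iff _).2 fun v hv => hs.disjoint hy hv.1 hv.2
  rw [← Submodule.finrank_sup_add_finrank_inf_eq, h1, h2, finrank_bot, add_zero, M.finrank_T hy]

/-- An independent family of tangent vectors extends to local fields. -/
theorem h94_fields {ι : Type} [Fintype ι] {y0 : CN M.N} (hy0 : y0 ∈ M.U) (v : ι → CN M.N)
    (hv : ∀ i, v i ∈ M.T y0) : ∃ R, ROpen M.U R ∧ y0 ∈ R ∧ ∃ X : ι → CN M.N → CN M.N,
      ∀ i, Hol R (X i) ∧ X i y0 = v i ∧ ∀ y ∈ R, X i y ∈ M.T y := by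
  choose R hR hy X hX using fun i => M.exists_local_field hy0 (hv i)
  obtain ⟨R', h1, h2, h3⟩ := exists_ropen_subset hy0
    (Filter.iInter_mem.2 fun i => (hR i).2 y0 (hy i))
  exact ⟨R', h1, h2, X, fun i => ⟨(hX i).1.mono (h3.trans (iInter_subset _ i)), (hX i).2.1,
    fun y hy => (hX i).2.2 y (mem_iInter.1 (h3 hy) i)⟩⟩

theorem h94_indep {ι : Type} [Fintype ι] {R : Set (CN M.N)} (hR : ROpen M.U R) {y0 : CN M.N}
    (hy0 : y0 ∈ R) {X : ι → CN M.N → CN M.N} (hX : ∀ i, Hol R (X i))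
    (h : LinearIndependent ℂ fun i => X i y0) :
    ∀ᶠ y in 𝓝[M.U] y0, LinearIndependent ℂ fun i => X i y := by
  rw [← hR.nhdsWithin_eq hy0]
  have hc : ContinuousWithinAt (fun y i => X i y) R y0 :=
    continuousWithinAt_pi.2 fun i => (hX i).continuousOn y0 hy0
  exact hc.tendsto.eventually h.eventually

/-- Take bases `v_l` of `Dist s y0` and `w_m` of `val s y0`, extend them to local tangent fields
(`exists_local_field`), put `Ξ_l = X_l - Pr X_l ∈ Dist`, `Υ_m = Pr Y_m ∈ val`; at `y0` they are `v_l`, `w_m`;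
both families stay independent near `y0` (`LinearIndependent.eventually` / `isOpen_setOf_linearIndependent`)
and `finrank Dist + finrank val = n` (`finrank_T`, `disjoint`, `exists_dec`). -/
theorem Good.local_frame (hs : M.Good s) {y0 : CN M.N} (hy0 : y0 ∈ M.U) :
    ∃ R, ROpen M.U R ∧ y0 ∈ R ∧ ∃ Ξ : Fin (Module.finrank ℂ (M.Dist s y0)) → CN M.N → CN M.N,
      (∀ l, Hol R (Ξ l)) ∧ ∀ y ∈ R, LinearIndependent ℂ (fun l => Ξ l y) ∧
        Submodule.span ℂ (range fun l => Ξ l y) = M.Dist s y := by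
  obtain ⟨Pr, hPr, hol⟩ := hs.exists_proj
  have huniq : ∀ v ∈ M.T y0, ∀ a ∈ M.val s y0, v - a ∈ M.Dist s y0 → Pr y0 v = a := by
    intro v hv a ha hb
    refine sub_eq_zero.1 (hs.disjoint hy0 (sub_mem (hPr y0 hy0 v hv).1 ha) ?_)
    have h4 := sub_mem hb (hPr y0 hy0 v hv).2
    rwa [sub_sub_sub_cancel_left] at h4
  set b := Module.finBasis ℂ (M.Dist s y0)
  set b' := Module.finBasis ℂ (M.val s y0)
  obtain ⟨R1, hR1, hy1, X, hX⟩ := h94_fields hy0 (fun i => (b i : CN M.N)) fun i => (b i).2.1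
  obtain ⟨R2, hR2, hy2, Y, hY⟩ := h94_fields hy0 (fun i => (b' i : CN M.N))
    fun i => M.val_le_T s hy0 (b' i).2
  have hΞ : ∀ i, Hol R1 (fun y => X i y - Pr y (X i y)) := fun i =>
    (hX i).1.sub (hol R1 hR1 _ (hX i).1 (hX i).2.2)
  have hΥ : ∀ i, Hol R2 (fun y => Pr y (Y i y)) := fun i => hol R2 hR2 _ (hY i).1 (hY i).2.2
  have e1 := h94_indep hR1 hy1 hΞ (by
    have : (fun i => X i y0 - Pr y0 (X i y0)) = fun i => (b i : CN M.N) := funext fun i => by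
      rw [(hX i).2.1, huniq _ (b i).2.1 0 (zero_mem _) (by rw [sub_zero]; exact (b i).2), sub_zero]
    rw [this]
    exact b.linearIndependent.map' (M.Dist s y0).subtype (Submodule.ker_subtype _))
  have e2 := h94_indep hR2 hy2 hΥ (by
    have : (fun i => Pr y0 (Y i y0)) = fun i => (b' i : CN M.N) := funext fun i => by
      rw [(hY i).2.1, huniq _ (M.val_le_T s hy0 (b' i).2) _ (b' i).2
        (by rw [sub_self]; exact zero_mem _)]
    rw [this]
    exact b'.linearIndependent.map' (M.val s y0).subtype (Submodule.ker_subtype _))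
  obtain ⟨R, hR, hy, hsub⟩ := exists_ropen_subset hy0
    (inter_mem (inter_mem (hR1.2 y0 hy1) (hR2.2 y0 hy2)) (e1.and e2))
  refine ⟨R, hR, hy, fun i y => X i y - Pr y (X i y),
    fun i => (hΞ i).mono fun y hy => (hsub hy).1.1, fun y hy => ?_⟩
  obtain ⟨⟨a1, a2⟩, a3, a4⟩ := hsub hy
  refine ⟨a3, Submodule.eq_of_le_of_finrank_le ?_ ?_⟩
  · rw [Submodule.span_le]
    rintro _ ⟨i, rfl⟩
    exact (hPr y (hR.1 hy) _ ((hX i).2.2 y a1)).2
  · rw [finrank_span_eq_card a3, Fintype.card_fin]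
    have h1 : Submodule.span ℂ (range fun i => Pr y (Y i y)) ≤ M.val s y := by
      rw [Submodule.span_le]
      rintro _ ⟨i, rfl⟩
      exact (hPr y (hR.1 hy) _ ((hY i).2.2 y a2)).1
    have h2 := Submodule.finrank_mono h1
    rw [finrank_span_eq_card a4, Fintype.card_fin] at h2
    have h3 := hs.h94_rank hy0
    have h4 := hs.h94_rank (hR.1 hy)
    omega

/-- `s ⊓ s'` is an ideal of both; `pos` excludes `⊥`. -/
theorem Good.lie_eq_zero (hs : M.Good s) {s' : LieIdeal ℝ M.g} (hs' : M.Good s') (hne : s ≠ s')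
    {X Y : M.g} (hX : X ∈ s) (hY : Y ∈ s') : ⁅X, Y⁆ = 0 := by
  rcases hs.simple (s.toSubmodule ⊓ s'.toSubmodule) (fun _ h => h.1)
    (fun U _ _ h => ⟨s.lie_mem h.1, s'.lie_mem h.2⟩) with h | h
  · exfalso
    rcases hs'.simple s.toSubmodule (fun Z hZ => (h Z hZ).2) (fun U _ _ h => s.lie_mem h) with
      h' | h'
    · exact hne (le_antisymm (fun Z hZ => (h Z hZ).2) h')
    · obtain ⟨Z, hZ, h1⟩ := hs.pos
      have : Z ∈ s.toSubmodule := hZ
      rw [h', Submodule.mem_bot] at this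
      simp [this] at h1
  · have : ⁅X, Y⁆ ∈ s.toSubmodule ⊓ s'.toSubmodule := ⟨lie_mem_left ℝ _ s _ _ hX, s'.lie_mem hY⟩
    rwa [h, Submodule.mem_bot] at this

end TM

end Crest.Agent.R264
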