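import Crest.Agent.R264.P5.Defs

/-! Row 264, P5/P6: analysis on the model domain (auxiliary file of `Model.lean`). -/

set_option autoImplicit false
open Set Filter Topology Metric Complex
open scoped Matrix ComplexOrder

noncomputable section
namespace Crest.Agent.R264.P5

variable {r k : ℕ}

theorem h11_det {κ : Matrix (Fin r) (Fin r) ℂ} (h : Small κ) : (1 - κ * κ.map star).det ≠ 0 := by
  have e : κ.map star = κᴴ := by rw [Matrix.conjTranspose, h.1.eq]
  rw [e, Matrix.det_one_sub_mul_comm]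
  exact h.2.det_pos.ne'

theorem h11_W_open (b : MBase r k) : IsOpen b.W := by
  refine isOpen_iff_mem_nhds.2 fun ω hω => ?_
  have hb : ball b.t0 b.R ∈ 𝓝 ω.2.2 := isOpen_ball.mem_nhds hω.1
  have h0 : ContinuousAt (fun ω : PM r k => ω.2.2) ω := by fun_prop
  have h1 : ContinuousAt (fun ω : PM r k => b.κ ω.2.2) ω :=
    ContinuousAt.comp (f := fun ω : PM r k => ω.2.2) (continuousAt_pi.2 fun i =>
      continuousAt_pi.2 fun j => ((b.κ_diff i j).differentiableAt hb).continuousAt) h0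
  have h2 : Continuous fun κ : Matrix (Fin r) (Fin r) ℂ => 1 - κ * κ.map star :=
    continuous_const.sub (continuous_id.matrix_mul (continuous_id.matrix_map continuous_star))
  have h3 : ContinuousAt (fun ω : PM r k => (1 - b.κ ω.2.2 * (b.κ ω.2.2).map star)⁻¹) ω := by
    refine ContinuousAt.comp (f := fun ω : PM r k => 1 - b.κ ω.2.2 * (b.κ ω.2.2).map star)
      (continuousAt_matrix_inv _ ?_) 
      (ContinuousAt.comp (f := fun ω : PM r k => b.κ ω.2.2) h2.continuousAt h1)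
    rw [Ring.inverse_eq_inv']
    exact continuousAt_inv₀ (h11_det (b.small _ hω.1))
  have h4 : Continuous fun p : Matrix (Fin r) (Fin r) ℂ × Matrix (Fin r) (Fin r) ℂ × CN r =>
      (star (p.1 *ᵥ (p.2.2 - p.2.1 *ᵥ star p.2.2)) ⬝ᵥ p.2.2).re := by
    refine continuous_re.comp (Continuous.dotProduct (Continuous.star ?_) (by fun_prop))
    exact continuous_fst.matrix_mulVec (continuous_snd.snd.sub
      (continuous_snd.fst.matrix_mulVec continuous_snd.snd.star))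
  have h5 : ContinuousAt (fun ω : PM r k => Qk (b.κ ω.2.2) ω.2.1) ω :=
    ContinuousAt.comp (f := fun ω : PM r k =>
      ((1 - b.κ ω.2.2 * (b.κ ω.2.2).map star)⁻¹, b.κ ω.2.2, ω.2.1)) h4.continuousAt
      (h3.prodMk (h1.prodMk continuousAt_snd.fst))
  have h6 : ContinuousAt (fun ω : PM r k => ω.1.im) ω := by fun_prop
  filter_upwards [h0.eventually hb, h5.eventually_lt h6 hω.2] with ω' a1 a2
  exact ⟨a1, a2⟩

theorem h11_Qk_smul (κ : Matrix (Fin r) (Fin r) ℂ) (s : ℝ) (z : CN r) :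
    Qk κ ((s : ℂ) • z) = s ^ 2 * Qk κ z := by
  have e : star (s : ℂ) = s := conj_ofReal s
  have h1 : bzInv κ ((s : ℂ) • z) = (s : ℂ) • bzInv κ z := by
    rw [bzInv, bzInv, star_smul, e, Matrix.mulVec_smul, ← smul_sub, Matrix.mulVec_smul]
  rw [Qk, Qk, h1, star_smul, e, smul_dotProduct, dotProduct_smul, smul_eq_mul, smul_eq_mul,
    re_ofReal_mul, re_ofReal_mul]
  ring

theorem h11_sl_mem (b : MBase r k) {w : ℂ} (hw : 0 < w.im) {t : CN k} (ht : t ∈ ball b.t0 b.R) :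
    (sl w t : PM r k) ∈ b.W := ⟨ht, by simpa [Qk] using hw⟩

theorem h11_fderiv_fA (ω u : PM r k) : fderiv ℂ (fA : PM r k → PM r k) ω u = fA u := by
  have h : HasFDerivAt (fA : PM r k → PM r k) _ ω := (hasFDerivAt_fst (𝕜 := ℂ)).prodMk
    ((hasFDerivAt_snd.fst.const_smul (1 / 2 : ℂ)).prodMk (hasFDerivAt_const (0 : CN k) ω))
  rw [h.fderiv]
  rfl

theorem h11_fderiv_fZ (ω : PM r k) : fderiv ℂ (fZ : PM r k → PM r k) ω = 0 :=
  (hasFDerivAt_const ((1, 0, 0) : PM r k) ω).fderiv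

theorem h11_fderiv_fX (b : MBase r k) (ζ : CN r) {ω : PM r k} (hω : ω.2.2 ∈ ball b.t0 b.R)
    (u : PM r k) : fderiv ℂ (fX b.κ ζ) ω u =
      (2 * I * (star ζ ⬝ᵥ u.2.1), dκ b.κ ω.2.2 u.2.2 *ᵥ star ζ, 0) := by
  have h0 : HasFDerivAt (fun ω : PM r k => ω.2.1) _ ω := (hasFDerivAt_snd (𝕜 := ℂ)).fst
  have h0' : HasFDerivAt (fun ω : PM r k => ω.2.2) _ ω := (hasFDerivAt_snd (𝕜 := ℂ)).snd
  have h1 : HasFDerivAt (fun ω : PM r k => 2 * I * (star ζ ⬝ᵥ ω.2.1)) _ ω :=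
    (HasFDerivAt.fun_sum fun i (_ : i ∈ Finset.univ) =>
      (hasFDerivAt_pi'.1 h0 i).const_mul (star ζ i)).const_mul (2 * I)
  have h2 : HasFDerivAt (fun ω : PM r k => bz (b.κ ω.2.2) ζ) _ ω :=
    hasFDerivAt_pi.2 fun i => (HasFDerivAt.fun_sum fun j (_ : j ∈ Finset.univ) =>
      ((((b.κ_diff i j).differentiableAt (isOpen_ball.mem_nhds hω)).hasFDerivAt.comp ω
        h0').mul_const (star ζ j))).const_add (ζ i)
  have h : HasFDerivAt (fX b.κ ζ) _ ω := h1.prodMk (h2.prodMk (hasFDerivAt_const (0 : CN k) ω))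
  rw [h.fderiv]
  refine Prod.ext ?_ (Prod.ext ?_ rfl)
  · simp [dotProduct]
  · funext i
    simp [Matrix.mulVec, dotProduct, dκ, mul_comm]

variable {F : Type} [NormedAddCommGroup F] [NormedSpace ℂ F]

theorem h11_fibre_const (b : MBase r k) {f : PM r k → F} (hf : DifferentiableOn ℂ f b.W)
    (h : ∀ ω ∈ b.W, ∀ (a : ℂ) (u : CN r), fderiv ℂ f ω (a, u, 0) = 0) :
    ∀ ω ∈ b.W, f ω = f (sl I ω.2.2) := by
  rintro ⟨w, z, t⟩ hω
  set γ : ℂ → PM r k := fun s => (I + s ^ 2 * (w - I), s • z, t) with hγ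
  have hm : ∀ s ∈ Icc (0 : ℝ) 1, γ s ∈ b.W := fun s hs => by
    refine ⟨hω.1, ?_⟩
    have h1 : Qk (b.κ t) z < w.im := hω.2
    change Qk (b.κ t) ((s : ℂ) • z) < (I + (s : ℂ) ^ 2 * (w - I)).im
    rw [h11_Qk_smul, ← ofReal_pow, add_im, im_ofReal_mul, sub_im, I_im]
    have h2 : s ^ 2 ≤ 1 := pow_le_one₀ hs.1 hs.2
    rcases h2.eq_or_lt with h3 | h3
    · rw [h3]
      linarith only [h1]
    · nlinarith only [h1, h3, sq_nonneg s]
  have hd : ∀ s ∈ Icc (0 : ℝ) 1, HasDerivAt (fun s : ℝ => f (γ s)) 0 s := fun s hs => by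
    have a1 : HasDerivAt γ (_, _, _) (s : ℂ) :=
      (((hasDerivAt_pow 2 (s : ℂ)).mul_const (w - I)).const_add I).prodMk
        (((hasDerivAt_id (s : ℂ)).smul_const z).prodMk (hasDerivAt_const (s : ℂ) t))
    have a2 := (hf.differentiableAt ((h11_W_open b).mem_nhds (hm s hs))).hasFDerivAt.comp_hasDerivAt
      (s : ℂ) a1
    rw [h _ (hm s hs)] at a2
    exact (a2.scomp s (ofRealCLM.hasDerivAt (x := s))).congr_deriv (smul_zero _)
  have := constant_of_has_deriv_right_zero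
    (fun s hs => (hd s hs).continuousAt.continuousWithinAt)
    (fun s hs => (hd s (Ico_subset_Icc_self hs)).hasDerivWithinAt) 1 (right_mem_Icc.2 zero_le_one)
  simpa [hγ] using this

theorem h11_sl (b : MBase r k) {f : PM r k → F} (hf : DifferentiableOn ℂ f b.W) {w : ℂ}
    (hw : 0 < w.im) {t : CN k} (ht : t ∈ ball b.t0 b.R) :
    HasFDerivAt (fun t => f (sl w t)) ((fderiv ℂ f (sl w t)).comp
      ((ContinuousLinearMap.inr ℂ ℂ (CN r × CN k)).comp (.inr ℂ (CN r) (CN k)))) t :=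
  (hf.differentiableAt ((h11_W_open b).mem_nhds (h11_sl_mem b hw ht))).hasFDerivAt.comp t
    ((hasFDerivAt_prodMk_right w ((0 : CN r), t)).comp t (hasFDerivAt_prodMk_right (0 : CN r) t))

theorem h11_fderiv_slice (b : MBase r k) {f g : PM r k → F} (hf : DifferentiableOn ℂ f b.W)
    (hg : DifferentiableOn ℂ g b.W) {w : ℂ} (hw : 0 < w.im) (c : ℂ)
    (h : ∀ t ∈ ball b.t0 b.R, f (sl w t) = c • g (sl w t)) {t : CN k} (ht : t ∈ ball b.t0 b.R)
    (e : CN k) : fderiv ℂ f (sl w t) (0, 0, e) = c • fderiv ℂ g (sl w t) (0, 0, e) :=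
  congrArg (fun L : CN k →L[ℂ] F => L e) ((h11_sl b hf hw ht).unique
    (((h11_sl b hg hw ht).const_smul c).congr_of_eventuallyEq
      (mem_of_superset (isOpen_ball.mem_nhds ht) h)))

theorem h11_fderiv_slice_clm (b : MBase r k) {f : PM r k → F} (hf : DifferentiableOn ℂ f b.W)
    {F' : Type} [NormedAddCommGroup F'] [NormedSpace ℂ F'] (l : F →L[ℂ] F') {w : ℂ}
    (hw : 0 < w.im) {c : F'} (h : ∀ t ∈ ball b.t0 b.R, l (f (sl w t)) = c) {t : CN k}
    (ht : t ∈ ball b.t0 b.R) (e : CN k) : l (fderiv ℂ f (sl w t) (0, 0, e)) = 0 :=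
  congrArg (fun L : CN k →L[ℂ] F' => L e) ((l.hasFDerivAt.comp t (h11_sl b hf hw ht)).unique
    ((hasFDerivAt_const c t).congr_of_eventuallyEq (mem_of_superset (isOpen_ball.mem_nhds ht) h)))

end Crest.Agent.R264.P5
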