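import Crest.Agent.R264.P5.Defs
import Crest.Agent.R264.P5.Model_h11

/-! Row 264, P5/P6: the model domain. -/

set_option autoImplicit false
open Set Filter Topology Metric Complex
open scoped Matrix

noncomputable section
namespace Crest.Agent.R264.P5

variable {r k : ℕ}

theorem bz_add (κ : Matrix (Fin r) (Fin r) ℂ) (ζ η : CN r) : bz κ (ζ + η) = bz κ ζ + bz κ η := by
  simp only [bz, star_add, Matrix.mulVec_add]; abel

theorem bz_smul (κ : Matrix (Fin r) (Fin r) ℂ) (a : ℝ) (ζ : CN r) :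
    bz κ (a • ζ) = a • bz κ ζ := by
  simp only [bz, star_smul, star_trivial, Matrix.mulVec_smul, smul_add]

theorem bz_neg (κ : Matrix (Fin r) (Fin r) ℂ) (ζ : CN r) : bz κ (-ζ) = -bz κ ζ := by
  simp only [bz, star_neg, Matrix.mulVec_neg]; abel

theorem bz_sub (κ : Matrix (Fin r) (Fin r) ℂ) (ζ η : CN r) : bz κ (ζ - η) = bz κ ζ - bz κ η := by
  simp only [bz, star_sub, Matrix.mulVec_sub]; abel

open scoped ComplexOrder in
/-- `ζ = -κ ζbar` contradicts the positivity of `1 - κᴴ κ` on `ζbar` unless `ζ = 0`. -/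
theorem bz_inj {κ : Matrix (Fin r) (Fin r) ℂ} (h : Small κ) {ζ η : CN r}
    (e : bz κ ζ = bz κ η) : ζ = η := by
  have h0 : bz κ (ζ - η) = 0 := by rw [bz_sub, e, sub_self]
  rw [← sub_eq_zero]
  set δ := ζ - η
  by_contra hδ
  have h1 : κ *ᵥ star δ = -δ := eq_neg_of_add_eq_zero_right h0
  have h2 := h.2.dotProduct_mulVec_pos (x := star δ) (by simpa using hδ)
  rw [Matrix.sub_mulVec, Matrix.one_mulVec, ← Matrix.mulVec_mulVec, dotProduct_sub,
    Matrix.dotProduct_mulVec, ← Matrix.star_mulVec, h1, star_star, star_neg, neg_dotProduct_neg,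
    dotProduct_comm, sub_self] at h2
  exact lt_irrefl _ h2

/-- `bz` as a real linear map. -/
private def bzL9 (κ : Matrix (Fin r) (Fin r) ℂ) : CN r →ₗ[ℝ] CN r where
  toFun := bz κ
  map_add' := bz_add κ
  map_smul' := bz_smul κ

/-- An injective real linear endomorphism is surjective. -/
theorem bz_surj {κ : Matrix (Fin r) (Fin r) ℂ} (h : Small κ) (u : CN r) : ∃ ζ, bz κ ζ = u := by
  exact (LinearMap.injective_iff_surjective (f := bzL9 κ)).1 (fun _ _ e => bz_inj h e) u

theorem exists_J {κ : Matrix (Fin r) (Fin r) ℂ} (h : Small κ) :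
    ∃ J : CN r →ₗ[ℝ] CN r, ∀ ζ, bz κ (J ζ) = I • bz κ ζ := by
  let e : CN r ≃ₗ[ℝ] CN r :=
    LinearEquiv.ofBijective (bzL9 κ) ⟨fun _ _ e => bz_inj h e, bz_surj h⟩
  let mI : CN r →ₗ[ℝ] CN r := (LinearMap.lsmul ℂ (CN r) I).restrictScalars ℝ
  exact ⟨e.symm.toLinearMap ∘ₗ mI ∘ₗ e.toLinearMap, fun ζ => e.apply_symm_apply _⟩

/-- Injective: `J ζ = -i ζ` gives `-iζ + iκ ζbar = iζ + iκ ζbar`; real linear, so surjective. -/
theorem starJ_surj {κ : Matrix (Fin r) (Fin r) ℂ} {J : CN r →ₗ[ℝ] CN r}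
    (hJ : ∀ ζ, bz κ (J ζ) = I • bz κ ζ) (v : CN r) : ∃ ζ, star ζ + I • star (J ζ) = v := by
  let L : CN r →ₗ[ℝ] CN r :=
    { toFun := fun ζ => star ζ + I • star (J ζ)
      map_add' := fun a b => by simp only [star_add, map_add, smul_add]; abel
      map_smul' := fun a b => by
        simp only [star_smul, star_trivial, map_smul, smul_add, RingHom.id_apply, smul_comm a I] }
  refine (LinearMap.injective_iff_surjective (f := L)).1 ?_ v
  rw [injective_iff_map_eq_zero]
  intro ζ h0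
  have h1 : star (J ζ) = I • star ζ := by
    have h2 : I • star (J ζ) = -star ζ := eq_neg_of_add_eq_zero_right h0
    have h3 := congrArg (fun z => (-I) • z) h2
    simp only [smul_smul, neg_mul, I_mul_I, neg_neg, one_smul, neg_smul_neg] at h3
    exact h3
  have h4 : J ζ = -I • ζ := by
    rw [← star_star (J ζ), h1, star_smul, star_star]
    simp
  have h5 := hJ ζ
  rw [bz, bz, h1, h4, Matrix.mulVec_smul, smul_add, add_left_inj] at h5
  funext i
  have h6 := congrFun h5 i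
  simp only [Pi.smul_apply, smul_eq_mul] at h6
  have h7 : (2 * I) * ζ i = 0 := by linear_combination -h6
  simpa using h7

/-- `om` as a bilinear map. -/
theorem exists_omL (r : ℕ) : ∃ o : CN r →ₗ[ℝ] CN r →ₗ[ℝ] ℝ, ∀ ζ η, o ζ η = om ζ η := by
  refine ⟨LinearMap.mk₂ ℝ om (fun a b c => ?_) (fun a b c => ?_) (fun a b c => ?_)
    (fun a b c => ?_), fun _ _ => rfl⟩
  · simp only [om, dotProduct_add, add_im]; ring
  · simp only [om, dotProduct_smul, smul_im, smul_eq_mul]; ring
  · simp only [om, star_add, add_dotProduct, add_im]; ring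
  · simp only [om, star_smul, star_trivial, smul_dotProduct, smul_im, smul_eq_mul]; ring

private theorem star_dot9 (ζ η : CN r) : star ζ ⬝ᵥ η = (starRingEnd ℂ) (star η ⬝ᵥ ζ) := by
  rw [Matrix.star_dotProduct]; rfl

theorem om_swap (ζ η : CN r) : om ζ η = -om η ζ := by
  rw [om, om, star_dot9 η ζ, conj_im]; ring

theorem om_add_left (ζ ζ' η : CN r) : om (ζ + ζ') η = om ζ η + om ζ' η := by
  simp only [om, dotProduct_add, add_im]; ring

theorem om_add_right (ζ η η' : CN r) : om ζ (η + η') = om ζ η + om ζ η' := by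
  simp only [om, star_add, add_dotProduct, add_im]; ring

theorem om_smul_left (a : ℝ) (ζ η : CN r) : om (a • ζ) η = a * om ζ η := by
  simp only [om, dotProduct_smul, smul_im, smul_eq_mul]; ring

theorem om_smul_right (a : ℝ) (ζ η : CN r) : om ζ (a • η) = a * om ζ η := by
  simp only [om, star_smul, star_trivial, smul_dotProduct, smul_im, smul_eq_mul]; ring

theorem om_neg_left (ζ η : CN r) : om (-ζ) η = -om ζ η := by
  simp only [om, dotProduct_neg, neg_im]; ring

theorem om_neg_right (ζ η : CN r) : om ζ (-η) = -om ζ η := by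
  simp only [om, star_neg, neg_dotProduct, neg_im]; ring

theorem om_nondeg {ζ : CN r} (h : ∀ η, om η ζ = 0) : ζ = 0 := by
  funext i
  have h1 := h (Pi.single i 1)
  have h2 := h (Pi.single i I)
  simp only [om, dotProduct_single, Pi.star_apply] at h1 h2
  apply Complex.ext
  · simpa using h2
  · simpa using h1

theorem om_coe (ζ η : CN r) : (om ζ η : ℂ) = 2 * I * (star η ⬝ᵥ ζ - star ζ ⬝ᵥ η) := by
  rw [om, star_dot9 ζ η, sub_conj]
  push_cast
  linear_combination (-4 * ((star η ⬝ᵥ ζ).im : ℂ)) * I_mul_I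

theorem dκ_add (κ : CN k → Matrix (Fin r) (Fin r) ℂ) (t c c' : CN k) :
    dκ κ t (c + c') = dκ κ t c + dκ κ t c' := by
  ext i j; simp [dκ]

theorem dκ_smul (κ : CN k → Matrix (Fin r) (Fin r) ℂ) (t : CN k) (a : ℂ) (c : CN k) :
    dκ κ t (a • c) = a • dκ κ t c := by
  ext i j; simp [dκ]

theorem dκ_zero (κ : CN k → Matrix (Fin r) (Fin r) ℂ) (t : CN k) : dκ κ t 0 = 0 := by
  ext i j; simp [dκ]

/-- `1 - κ * κ.map star` is invertible for small `κ` (for symmetric `κ`, `κ.map star = κᴴ`, and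
`det (1 - κ κᴴ) = det (1 - κᴴ κ) ≠ 0`, `Matrix.det_one_sub_mul_comm`), so `Qk` is continuous
(`Matrix.inv_def`, `Ring.inverse_eq_inv`, continuity of `det` and `adjugate`). -/
theorem W_open (b : MBase r k) : IsOpen b.W :=
  h11_W_open b

theorem sl_mem (b : MBase r k) {w : ℂ} (hw : 0 < w.im) {t : CN k} (ht : t ∈ ball b.t0 b.R) :
    (sl w t : PM r k) ∈ b.W :=
  h11_sl_mem b hw ht

theorem fderiv_fA (ω u : PM r k) : fderiv ℂ (fA : PM r k → PM r k) ω u = fA u :=
  h11_fderiv_fA ω u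

theorem fderiv_fZ (ω : PM r k) : fderiv ℂ (fZ : PM r k → PM r k) ω = 0 :=
  h11_fderiv_fZ ω

theorem fderiv_fX (b : MBase r k) (ζ : CN r) {ω : PM r k} (hω : ω.2.2 ∈ ball b.t0 b.R)
    (u : PM r k) : fderiv ℂ (fX b.κ ζ) ω u =
      (2 * I * (star ζ ⬝ᵥ u.2.1), dκ b.κ ω.2.2 u.2.2 *ᵥ star ζ, 0) :=
  h11_fderiv_fX b ζ hω u

variable {F : Type} [NormedAddCommGroup F] [NormedSpace ℂ F]

/-- Functions with zero derivative along the fibres.  Join `(w,z,t)` to `(w + i R, z, t)`
(`R ≥ 0` with `Im w + R > max (Q z) 0`), then to `(w + i R, 0, t)` (`Qk κ (s • z) = s² Qk κ z` for real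
`s`), then to `(i, 0, t)`; on a segment inside `W` whose direction has the form `(a,u,0)` the function
is constant (`constant_of_has_deriv_right_zero` / `is_const_of_deriv_eq_zero`-type lemmas). -/
theorem fibre_const (b : MBase r k) {f : PM r k → F} (hf : DifferentiableOn ℂ f b.W)
    (h : ∀ ω ∈ b.W, ∀ (a : ℂ) (u : CN r), fderiv ℂ f ω (a, u, 0) = 0) :
    ∀ ω ∈ b.W, f ω = f (sl I ω.2.2) :=
  h11_fibre_const b hf h

/-- Derivatives along the base at slice points. -/
theorem fderiv_slice (b : MBase r k) {f g : PM r k → F} (hf : DifferentiableOn ℂ f b.W)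
    (hg : DifferentiableOn ℂ g b.W) {w : ℂ} (hw : 0 < w.im) (c : ℂ)
    (h : ∀ t ∈ ball b.t0 b.R, f (sl w t) = c • g (sl w t)) {t : CN k} (ht : t ∈ ball b.t0 b.R)
    (e : CN k) : fderiv ℂ f (sl w t) (0, 0, e) = c • fderiv ℂ g (sl w t) (0, 0, e) :=
  h11_fderiv_slice b hf hg hw c h ht e

/-- The same for a linear image which is constant on the slice. -/
theorem fderiv_slice_clm (b : MBase r k) {f : PM r k → F} (hf : DifferentiableOn ℂ f b.W)
    {F' : Type} [NormedAddCommGroup F'] [NormedSpace ℂ F'] (l : F →L[ℂ] F') {w : ℂ}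
    (hw : 0 < w.im) {c : F'} (h : ∀ t ∈ ball b.t0 b.R, l (f (sl w t)) = c) {t : CN k}
    (ht : t ∈ ball b.t0 b.R) (e : CN k) : l (fderiv ℂ f (sl w t) (0, 0, e)) = 0 :=
  h11_fderiv_slice_clm b hf l hw h ht e

end Crest.Agent.R264.P5
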