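import Crest.Agent.R264.P5.Cas

/-! Row 264, P5/P6: hermitian symmetric points, the Cartan decomposition.
Notation: `j X = ⁅X, Z1⁆`, `k = ker v`, `p = range j`. -/

set_option autoImplicit false
open Set Filter Topology Metric Complex
open scoped Matrix

noncomputable section
namespace Crest.Agent.R264.P5

namespace PD
variable {𝔰 : Type} [LieRing 𝔰] [LieAlgebra ℝ 𝔰] {E : Type} [NormedAddCommGroup E]
  [NormedSpace ℂ E] [NormedSpace ℝ E] [IsScalarTower ℝ ℂ E] {P : PD 𝔰 E} {Z1 : 𝔰}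

private theorem pt1_rs (r : ℝ) (e : E) : r • e = (r : ℂ) • e := (algebraMap_smul ℂ r e).symm

omit [NormedSpace ℝ E] [IsScalarTower ℝ ℂ E] in
private theorem pt1_II (e : E) : I • I • e = -e := by
  rw [smul_smul, I_mul_I, neg_one_smul]

omit [NormedSpace ℝ E] [IsScalarTower ℝ ℂ E] in
private theorem pt1_q {x y : E} (h : x + I • y = 0) : y = I • x := by
  rw [eq_neg_of_add_eq_zero_left h, smul_neg, pt1_II, neg_neg]

omit [LieAlgebra ℝ 𝔰] in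
private theorem pt1_der (A B Z : 𝔰) : ⁅⁅A, B⁆, Z⁆ = ⁅⁅A, Z⁆, B⁆ + ⁅A, ⁅B, Z⁆⁆ := by
  rw [lie_lie A B Z, ← lie_skew ⁅A, Z⁆ B]
  abel

/-- `q = {a + i b vanishing at the point}` is a complex subalgebra (`lie0` four times). -/
theorem lie_q (P : PD 𝔰 E) {a b a' b' : 𝔰} (h : P.v a + I • P.v b = 0)
    (h' : P.v a' + I • P.v b' = 0) :
    P.v ⁅a, a'⁆ - P.v ⁅b, b'⁆ + I • (P.v ⁅a, b'⁆ + P.v ⁅b, a'⁆) = 0 := by
  rw [P.lie0, P.lie0, P.lie0, P.lie0, pt1_q h, pt1_q h']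
  simp only [map_smul, smul_add, smul_sub, pt1_II]
  abel

theorem HS.d_v (h : P.HS Z1) (X : 𝔰) : P.d Z1 (P.v X) = I • P.v X := by
  rw [← h.cx, P.lie0, h.zero, map_zero, sub_zero]

theorem HS.j_eq_zero_iff (h : P.HS Z1) (X : 𝔰) : ⁅X, Z1⁆ = 0 ↔ P.v X = 0 := by
  refine ⟨fun h1 => ?_, h.comm X⟩
  have := h.cx X
  rw [h1, map_zero] at this
  exact (smul_eq_zero.1 this.symm).resolve_left I_ne_zero

theorem HS.jjj (h : P.HS Z1) (X : 𝔰) : ⁅⁅⁅X, Z1⁆, Z1⁆, Z1⁆ = -⁅X, Z1⁆ := by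
  have := h.comm (X + ⁅⁅X, Z1⁆, Z1⁆) (by rw [map_add, h.cx, h.cx, pt1_II, add_neg_cancel])
  rw [add_lie] at this
  exact eq_neg_of_add_eq_zero_right this

/-- `X = K + Q` with `Q = - j j X`. -/
theorem HS.dec (h : P.HS Z1) (X : 𝔰) : P.v (X + ⁅⁅X, Z1⁆, Z1⁆) = 0 := by
  rw [map_add, h.cx, h.cx, pt1_II, add_neg_cancel]

theorem HS.p_k (h : P.HS Z1) {X : 𝔰} (hX : P.v ⁅X, Z1⁆ = 0) : ⁅X, Z1⁆ = 0 := by
  rw [h.cx] at hX
  exact h.comm X ((smul_eq_zero.1 hX).resolve_left I_ne_zero)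

theorem HS.mem_val (h : P.HS Z1) (u : E) : u ∈ P.val ↔ ∃ X, P.v X = u := by
  refine ⟨fun hu => ?_, fun ⟨X, hX⟩ => Submodule.subset_span ⟨X, hX⟩⟩
  induction hu using Submodule.span_induction with
  | mem x hx => exact hx
  | zero => exact ⟨0, map_zero _⟩
  | add x y _ _ hx hy =>
    obtain ⟨X, rfl⟩ := hx
    obtain ⟨Y, rfl⟩ := hy
    exact ⟨X + Y, map_add _ _ _⟩
  | smul c x _ hx =>
    obtain ⟨X, rfl⟩ := hx
    refine ⟨c.re • X + c.im • ⁅X, Z1⁆, ?_⟩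
    rw [map_add, map_smul, map_smul, h.cx, pt1_rs, pt1_rs, smul_smul, ← add_smul, re_add_im]

/-- `j` commutes with `ad k`. -/
theorem HS.k_j (h : P.HS Z1) {K : 𝔰} (hK : P.v K = 0) (X : 𝔰) : ⁅⁅K, X⁆, Z1⁆ = ⁅K, ⁅X, Z1⁆⁆ := by
  rw [pt1_der, h.comm K hK, zero_lie, zero_add]

/-- `[p,p] ⊆ k`: `j` is a derivation; for `A, B ∈ p`: `j[A,B] = [jA,B] + [A,jB]`,
`j³[A,B] = -4 j[A,B]` and `j³ = -j`. -/
theorem HS.p_p (h : P.HS Z1) (X Y : 𝔰) : P.v ⁅⁅X, Z1⁆, ⁅Y, Z1⁆⁆ = 0 := by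
  have hA := h.jjj X
  have hB := h.jjj Y
  generalize ⁅X, Z1⁆ = A at hA ⊢
  generalize ⁅Y, Z1⁆ = B at hB ⊢
  have h1 := h.jjj ⁅A, B⁆
  rw [← h.j_eq_zero_iff]
  simp only [pt1_der A B Z1, pt1_der ⁅A, Z1⁆ B Z1, pt1_der A ⁅B, Z1⁆ Z1,
    pt1_der ⁅A, Z1⁆ ⁅B, Z1⁆ Z1, add_lie, hA, hB, neg_lie, lie_neg] at h1 ⊢
  have h2 : (3 : ℝ) • (⁅⁅A, Z1⁆, B⁆ + ⁅A, ⁅B, Z1⁆⁆) = 0 := by
    linear_combination (norm := module) (-1 : ℝ) • h1
  exact (smul_eq_zero.1 h2).resolve_left three_ne_zero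

/-- Elements of `q`: if `a + i b` vanishes then `j j a = j b`, (`v (j j a - j b) = 0`). -/
theorem HS.q_eq (h : P.HS Z1) {a b : 𝔰} (hab : P.v a + I • P.v b = 0) :
    ⁅⁅a, Z1⁆, Z1⁆ = ⁅b, Z1⁆ := by
  have := h.comm (⁅a, Z1⁆ - b) (by rw [map_sub, h.cx, pt1_q hab, sub_self])
  rwa [sub_lie, sub_eq_zero] at this

variable [FiniteDimensional ℝ 𝔰]

omit [NormedAddCommGroup E] [NormedSpace ℂ E] [NormedSpace ℝ E] [IsScalarTower ℝ ℂ E] in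
theorem killing_j (Z1 X Y : 𝔰) :
    killingForm ℝ 𝔰 ⁅X, Z1⁆ Y = -killingForm ℝ 𝔰 X ⁅Y, Z1⁆ := by
  rw [killing_lie', ← lie_skew Z1 Y, map_neg]

theorem HS.k_perp (h : P.HS Z1) {K : 𝔰} (hK : P.v K = 0) (X : 𝔰) :
    killingForm ℝ 𝔰 K ⁅X, Z1⁆ = 0 := by
  have := killing_j Z1 K X
  rw [h.comm K hK, map_zero, LinearMap.zero_apply] at this
  exact neg_eq_zero.1 this.symm

variable [LieAlgebra.IsKilling ℝ 𝔰]

private theorem pt1_cas (P : PD 𝔰 E) (l : E →L[ℂ] ℂ) (w : 𝔰 →ₗ[ℝ] E) (Y : 𝔰) :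
    ∑ a, l (P.v ⁅Y, ce 𝔰 a⁆) • w (cd 𝔰 a) + ∑ a, l (P.v (ce 𝔰 a)) • w ⁅Y, cd 𝔰 a⁆ = 0 :=
  cas_inv (LinearMap.mk₂ ℝ (fun x y => l (P.v x) • w y)
    (fun x x' y => by rw [map_add, map_add, add_smul])
    (fun c x y => by rw [map_smul, pt1_rs, pt1_rs, map_smul, smul_eq_mul, mul_smul])
    (fun x y y' => by rw [map_add, smul_add])
    (fun c x y => by rw [map_smul, pt1_rs, pt1_rs, smul_comm])) Y

/-- `cas_inv` with `Y = Z1`.  `H1`: `2 i S = 0`.  `H2`: for `S V = ∑ l (v e_a) • v [V, e^a]` one gets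
`S (j V) = 2 i S V` (`[V,[y,Z1]] = j [V,y] - [jV, y]`), and `j³ = -j` gives `-8 i S = -2 i S`. -/
theorem HS.H (h : P.HS Z1) : P.H1 ∧ P.H2 := by
  have hv : ∀ X, P.v ⁅Z1, X⁆ = (-I) • P.v X := fun X => by
    rw [← lie_skew, map_neg, h.cx, neg_smul]
  constructor
  · intro l
    have h1 := pt1_cas P l P.v Z1
    simp only [hv, map_smul, smul_eq_mul, mul_smul, smul_comm (l _) (-I), ← Finset.smul_sum] at h1
    rw [← add_smul] at h1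
    refine (smul_eq_zero.1 h1).resolve_left fun h2 => I_ne_zero ?_
    linear_combination (-1 / 2 : ℂ) * h2
  · intro l V
    have key : ∀ V : 𝔰, ∑ a, l (P.v (ce 𝔰 a)) • P.v ⁅⁅V, Z1⁆, cd 𝔰 a⁆ =
        (2 * I) • ∑ a, l (P.v (ce 𝔰 a)) • P.v ⁅V, cd 𝔰 a⁆ := fun V => by
      have h1 := pt1_cas P l (P.v.comp (LieAlgebra.ad ℝ 𝔰 V)) Z1
      have h2 : ∀ y, P.v ⁅V, ⁅Z1, y⁆⁆ = P.v ⁅⁅V, Z1⁆, y⁆ + (-I) • P.v ⁅V, y⁆ := fun y => by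
        rw [leibniz_lie V Z1 y, map_add, hv]
      simp only [LinearMap.comp_apply, LieAlgebra.ad_apply, hv, h2, map_smul, smul_eq_mul,
        mul_smul, smul_add, Finset.sum_add_distrib, smul_comm (l _) (-I), ← Finset.smul_sum] at h1
      linear_combination (norm := module) h1
    have h1 := key ⁅⁅V, Z1⁆, Z1⁆
    rw [h.jjj, key ⁅V, Z1⁆] at h1
    simp only [neg_lie, map_neg, smul_neg, Finset.sum_neg_distrib] at h1
    rw [key V, smul_smul, smul_smul, ← neg_smul, ← sub_eq_zero, ← sub_smul] at h1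
    refine (smul_eq_zero.1 h1).resolve_left fun h2 => I_ne_zero ?_
    linear_combination (1 / 6 : ℂ) * h2 + (4 / 3 * I) * I_mul_I

end PD

end Crest.Agent.R264.P5
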