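import Crest.Agent.R264.P5.Pt1

/-! Row 264, P5/P6: the two holomorphic identities imply hermitian symmetry. -/

set_option autoImplicit false
open Set Filter Topology Metric Complex
open scoped Matrix

noncomputable section
namespace Crest.Agent.R264.P5

namespace PD
variable {𝔰 : Type} [LieRing 𝔰] [LieAlgebra ℝ 𝔰] {E : Type} [NormedAddCommGroup E]
  [NormedSpace ℂ E] [NormedSpace ℝ E] [IsScalarTower ℝ ℂ E] {P : PD 𝔰 E} {Z1 : 𝔰}
  [FiniteDimensional ℝ 𝔰] [LieAlgebra.IsKilling ℝ 𝔰] [FiniteDimensional ℂ E]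

/-- The Killing orthogonal complement of the isotropy algebra. -/
def pt2_p (P : PD 𝔰 E) (Q : 𝔰) : Prop := ∀ K, P.v K = 0 → killingForm ℝ 𝔰 Q K = 0

omit [LieAlgebra.IsKilling ℝ 𝔰] [FiniteDimensional ℂ E] in
theorem pt2_dec (hn : P.Neg) (X : 𝔰) : ∃ K Q, P.v K = 0 ∧ P.pt2_p Q ∧ X = K + Q := by
  have hr : (killingForm ℝ 𝔰).IsRefl := fun x y h => by rwa [killing_comm]
  have hc := (LinearMap.BilinForm.isCompl_orthogonal_iff_disjoint (W := LinearMap.ker P.v) hr).2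
    (Submodule.disjoint_def.2 fun x hx hx' => (hn x hx).2 (hx' x hx))
  obtain ⟨K, hK, Q, hQ, e⟩ := Submodule.mem_sup.1 (hc.sup_eq_top.ge (Submodule.mem_top (x := X)))
  exact ⟨K, Q, hK, fun K' hK' => hr _ _ (hQ K' hK'), e.symm⟩

/-- Every element of `p` has a partner, for all sums at once. -/
theorem pt2_partner {Q : 𝔰} (hQ : P.pt2_p Q) : ∃ (l : E →L[ℂ] ℂ) (Q' : 𝔰),
    (∀ X, killingForm ℝ 𝔰 Q X = (l (P.v X)).re) ∧ (∀ X, killingForm ℝ 𝔰 Q' X = (l (P.v X)).im) ∧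
    ∀ T : 𝔰 →ₗ[ℝ] E, ∑ a, l (P.v (ce 𝔰 a)) • T (cd 𝔰 a) = T Q + I • T Q' := by
  obtain ⟨l, hl⟩ := exists_re P.v (killingForm ℝ 𝔰 Q) hQ
  let ψ : 𝔰 →ₗ[ℝ] ℝ :=
    { toFun := fun X => (l (P.v X)).im
      map_add' := fun X Y => by simp
      map_smul' := fun c X => by simp }
  refine ⟨l, ∑ a, ψ (ce 𝔰 a) • cd 𝔰 a, fun X => (hl X).symm, killing_sum ψ, fun T => ?_⟩
  have e : Q = ∑ a, (l (P.v (ce 𝔰 a))).re • cd 𝔰 a := by
    conv_lhs => rw [← sum_cd Q]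
    exact Finset.sum_congr rfl fun a _ => by rw [hl, killing_comm]
  rw [e, map_sum, map_sum, Finset.smul_sum, ← Finset.sum_add_distrib]
  refine Finset.sum_congr rfl fun a _ => ?_
  rw [map_smul, map_smul, ← algebraMap_smul ℂ (l (P.v (ce 𝔰 a))).re,
    ← algebraMap_smul ℂ (ψ (ce 𝔰 a)), smul_smul, ← add_smul]
  congr 1
  exact (re_add_im _).symm.trans (by rw [mul_comm]; rfl)

/-- Put `u l = ∑ Re l (v e_a) • e^a`, so `B (u l) X = Re l (v X)` (`killing_sum`).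
`k = ker v`, `p = k^⊥`; `p ∩ k = 0` (`Neg`), `𝔰 = k ⊕ p`
(`LinearMap.BilinForm.isCompl_orthogonal_of_restrict_nondegenerate` or a dimension count), every
element of `p` is some `u l` (`exists_re`).  `H1` says `v (u (-I • l)) = I • v (u l)`.  So there is a
linear `j : 𝔰 → 𝔰` with `j X ∈ p`, `v (j X) = I • v X` (`exists_linear_of_rel`), `j (u l) = u (-I • l)`,
`j = 0` on `k`, `j j Q = -Q` on `p`, `B (j X) Y = - B X (j Y)`.
`H2` says `v [V, Q] + I • v [V, j Q] = 0` for `Q ∈ p`; pairing with `l'`: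
`B Q' [V,Q] = B (j Q') [V, j Q]`, i.e. `[Q,Q'] = [jQ, jQ']`.  The alternating form
`τ(A,B,C) = B [A,B] C` on `p` has `τ(jA,B,C) = -τ(A,jB,C)`, cyclically this forces `τ = 0`, so
`[p,p] ⊆ p^⊥ = k`.  For `K ∈ k`: `[K,p] ⊆ p`, `v [K, X] = - d K (v X)` is complex linear, so `j` commutes
with `ad K`.  Hence `δ = -j` is a derivation; `exists_inner` gives `Z1` with `[Z1, X] = - j X`;
`j Z1 = 0` gives `v Z1 = 0`. -/
theorem exists_hs (hn : P.Neg) (h1 : P.H1) (h2 : P.H2) : ∃ Z1, P.HS Z1 := by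
  have hI : ∀ {a b : E}, a + I • b = 0 → b = I • a := fun {a b} h => by
    rw [eq_neg_of_add_eq_zero_left h, smul_neg, smul_smul, I_mul_I, neg_smul, one_smul, neg_neg]
  obtain ⟨j, hj⟩ := exists_linear_of_rel (fun X Y : 𝔰 => P.pt2_p Y ∧ P.v Y = I • P.v X)
    (fun x y x' y' a b => ⟨fun K hK => by simp [a.1 K hK, b.1 K hK], by simp [a.2, b.2]⟩)
    (fun c x x' a => ⟨fun K hK => by simp [a.1 K hK], by
      rw [map_smul, map_smul, a.2, ← algebraMap_smul ℂ c, ← algebraMap_smul ℂ c (P.v x),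
        smul_comm]⟩)
    (fun x => by
      obtain ⟨K, Q, hK, hQ, rfl⟩ := pt2_dec hn x
      obtain ⟨l, Q', -, a2, a3⟩ := pt2_partner hQ
      exact ⟨Q', fun K hK => by simp [a2, hK], by
        rw [map_add, hK, zero_add]
        exact hI ((a3 P.v).symm.trans (h1 l))⟩)
    (fun x a => by
      have : P.v x = 0 := by simpa using a.2
      exact (hn x this).2 (a.1 x this))
  have jp : ∀ X, P.pt2_p (j X) := fun X => ((hj X _).2 rfl).1
  have jv : ∀ X, P.v (j X) = I • P.v X := fun X => ((hj X _).2 rfl).2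
  have jk : ∀ K, P.v K = 0 → j K = 0 := fun K hK =>
    (hj K 0).1 ⟨fun _ _ => by simp, by simp [hK]⟩
  have jj : ∀ Q, P.pt2_p Q → j (j Q) = -Q := fun Q hQ =>
    (hj _ _).1 ⟨fun K hK => by simp [hQ K hK], by
      rw [jv, smul_smul, I_mul_I, map_neg, neg_smul, one_smul]⟩
  have key : ∀ Q, P.pt2_p Q → (∀ Y, killingForm ℝ 𝔰 (j Q) Y = -killingForm ℝ 𝔰 Q (j Y)) ∧
      ∀ V : 𝔰, P.v (⁅V, Q⁆ + j ⁅V, j Q⁆) = 0 := fun Q hQ => by
    obtain ⟨l, Q', a1, a2, a3⟩ := pt2_partner hQ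
    have e : j Q = Q' := (hj _ _).1 ⟨fun K hK => by simp [a2, hK], hI ((a3 P.v).symm.trans (h1 l))⟩
    refine ⟨fun Y => by simp [e, a1, a2, jv], fun V => ?_⟩
    rw [map_add, jv, e]
    exact (a3 (P.v ∘ₗ LieAlgebra.ad ℝ 𝔰 V)).symm.trans (h2 l V)
  have t1 : ∀ V Q Q' : 𝔰, P.pt2_p Q → P.pt2_p Q' →
      killingForm ℝ 𝔰 V ⁅Q, Q'⁆ = killingForm ℝ 𝔰 V ⁅j Q, j Q'⁆ := fun V Q Q' hQ hQ' => by
    have a := hQ' _ ((key Q hQ).2 V)
    rw [← killing_lie', ← killing_lie', killing_comm _ Q', killing_comm _ (j Q'), (key Q' hQ').1]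
    rw [map_add] at a
    linarith
  have t2 : ∀ Q Q' : 𝔰, P.pt2_p Q → P.pt2_p Q' → ⁅Q, Q'⁆ = ⁅j Q, j Q'⁆ := fun Q Q' hQ hQ' =>
    killing_ext fun U => by rw [killing_comm, t1 U Q Q' hQ hQ', killing_comm]
  have cyc : ∀ A B C : 𝔰, killingForm ℝ 𝔰 A ⁅B, C⁆ = killingForm ℝ 𝔰 B ⁅C, A⁆ := fun A B C => by
    rw [killing_comm, killing_lie']
  have t3 : ∀ A B : 𝔰, P.pt2_p A → P.pt2_p B → P.v ⁅A, B⁆ = 0 := fun A B hA hB => by
    obtain ⟨K, Q, hK, hQ, e⟩ := pt2_dec hn ⁅A, B⁆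
    have hQ0 : Q = 0 := killing_ext fun U => by
      obtain ⟨K', C, hK', hC, rfl⟩ := pt2_dec hn U
      have a1 := t1 C A B hA hB
      have a2 := t1 (j A) (j B) C (jp B) hC
      rw [jj B hB, neg_lie, map_neg] at a2
      have a4 : killingForm ℝ 𝔰 C ⁅A, B⁆ = 0 := by
        linarith [t1 B C A hC hA, cyc C (j A) (j B), cyc (j A) B (j C), cyc B C A]
      rw [e, map_add, hC K hK, zero_add, killing_comm] at a4
      simp [hQ K' hK', a4]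
    rw [e, hQ0, add_zero, hK]
  have t4 : ∀ K X : 𝔰, P.v K = 0 → j ⁅K, X⁆ = ⁅K, j X⁆ := fun K X hK =>
    (hj _ _).1 ⟨fun K' hK' => by
      rw [killing_lie, jp X _ (by simp [P.lie0, hK, hK']), neg_zero], by
      simp [P.lie0, hK, jv]⟩
  have t5 : ∀ U Y : 𝔰, j ⁅U, Y⁆ = ⁅j U, Y⁆ + ⁅U, j Y⁆ := fun U Y => by
    obtain ⟨K, Q, hK, hQ, rfl⟩ := pt2_dec hn U
    obtain ⟨K', Q', hK', hQ', rfl⟩ := pt2_dec hn Y
    have a1 : j ⁅Q, K'⁆ = ⁅j Q, K'⁆ := by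
      rw [← lie_skew, map_neg, t4 K' Q hK', lie_skew]
    have a2 : ⁅j Q, Q'⁆ = -⁅Q, j Q'⁆ := by
      rw [t2 _ _ (jp Q) hQ', jj Q hQ, neg_lie]
    simp only [add_lie, lie_add, map_add, t4 K _ hK, jk K hK, jk K' hK', a1, a2,
      jk _ (t3 Q Q' hQ hQ'), zero_lie, lie_zero]
    abel
  obtain ⟨Z1, hZ⟩ := exists_inner (-j)
  have hZ' : ∀ U, ⁅U, Z1⁆ = j U := fun U => by
    rw [← lie_skew, hZ U fun Y => by simp [t5 U Y, add_comm], LinearMap.neg_apply, neg_neg]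
  refine ⟨Z1, ?_, fun X => by rw [hZ', jv], fun K hK => by rw [hZ', jk K hK]⟩
  have := jv Z1
  rw [← hZ', lie_self, map_zero] at this
  exact (smul_eq_zero.1 this.symm).resolve_left I_ne_zero

end PD

end Crest.Agent.R264.P5
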