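import Crest.Agent.R264.P5.Pt1

/-! Row 264, P5/P6: the splitting of the tangent space. -/

set_option autoImplicit false
open Set Filter Topology Metric Complex
open scoped Matrix

noncomputable section
namespace Crest.Agent.R264.P5

namespace PD
variable {𝔰 : Type} [LieRing 𝔰] [LieAlgebra ℝ 𝔰] {E : Type} [NormedAddCommGroup E]
  [NormedSpace ℂ E] [NormedSpace ℝ E] [IsScalarTower ℝ ℂ E] {P : PD 𝔰 E} {Z1 : 𝔰}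
  [FiniteDimensional ℝ 𝔰] [LieAlgebra.IsKilling ℝ 𝔰] [FiniteDimensional ℂ E]

omit [FiniteDimensional ℂ E] in
/-- The centraliser of `p` in `k` is an ideal, not everything (`Pos`, `Neg`). -/
theorem Full.cent (h : P.Full Z1) {K : 𝔰} (hK : P.v K = 0) (hc : ∀ X : 𝔰, ⁅⁅X, Z1⁆, K⁆ = 0) :
    K = 0 := by
  let i : Submodule ℝ 𝔰 :=
    { carrier := {K | P.v K = 0 ∧ ∀ X : 𝔰, ⁅⁅X, Z1⁆, K⁆ = 0}
      add_mem' := by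
        rintro a b ⟨ha, ha'⟩ ⟨hb, hb'⟩
        exact ⟨by simp [ha, hb], fun X => by simp [ha' X, hb' X]⟩
      zero_mem' := ⟨by simp, fun X => by simp⟩
      smul_mem' := by
        rintro c a ⟨ha, ha'⟩
        exact ⟨by simp [ha], fun X => by simp [ha' X]⟩ }
  have hi : ∀ U : 𝔰, ∀ X ∈ i, ⁅U, X⁆ ∈ i := by
    rintro U L ⟨hL, hL'⟩
    obtain ⟨KU, hKU⟩ : ∃ x, x = U + ⁅⁅U, Z1⁆, Z1⁆ := ⟨_, rfl⟩
    have hv : P.v KU = 0 := hKU ▸ h.hs.dec U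
    have e : ⁅U, L⁆ = ⁅KU, L⁆ := by rw [hKU, add_lie, hL', add_zero]
    rw [e]
    refine ⟨by rw [P.lie0, hv, hL]; simp, fun X => ?_⟩
    have e2 : ⁅⁅X, Z1⁆, KU⁆ = ⁅-⁅KU, X⁆, Z1⁆ := by
      rw [neg_lie, h.hs.k_j hv, lie_skew]
    rw [leibniz_lie, hL', e2, hL']
    simp
  rcases h.simp i hi with ht | hb
  · obtain ⟨X, hX⟩ := h.pos
    have hXi : X ∈ i := ht ▸ Submodule.mem_top
    exact absurd (h.neg X hXi.1).1 (not_le.2 hX)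
  · have hKi : K ∈ i := ⟨hK, hc⟩
    rw [hb] at hKi
    exact (Submodule.mem_bot ℝ).1 hKi

omit [FiniteDimensional ℂ E] in
/-- The algebraic core of `normal`. -/
theorem Full.normal_core (h : P.Full Z1) {w₁ w₂ : 𝔰}
    (hw : ∀ V : 𝔰, P.v ⁅V, w₁⁆ + I • P.v ⁅V, w₂⁆ = 0) :
    w₁ + ⁅⁅w₁, Z1⁆, Z1⁆ = 0 ∧ w₂ = ⁅w₁, Z1⁆ := by
  have hs := h.hs
  have h0 : P.v w₁ + I • P.v w₂ = 0 := by
    have h1 := hw Z1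
    rw [← lie_skew Z1 w₁, ← lie_skew Z1 w₂, map_neg, map_neg, hs.cx, hs.cx] at h1
    have h2 : (-I) • (P.v w₁ + I • P.v w₂) = 0 := by
      rw [← h1]; simp [smul_add]
    exact (smul_eq_zero.1 h2).resolve_left (by simp)
  have hq := hs.q_eq h0
  obtain ⟨K₁, hK₁⟩ : ∃ x, x = w₁ + ⁅⁅w₁, Z1⁆, Z1⁆ := ⟨_, rfl⟩
  obtain ⟨K₂, hK₂⟩ : ∃ x, x = w₂ + ⁅⁅w₂, Z1⁆, Z1⁆ := ⟨_, rfl⟩
  have v₁ : P.v K₁ = 0 := hK₁ ▸ hs.dec w₁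
  have v₂ : P.v K₂ = 0 := hK₂ ▸ hs.dec w₂
  have kj : ∀ {K : 𝔰}, P.v K = 0 → ∀ X : 𝔰, ⁅⁅X, Z1⁆, K⁆ = ⁅⁅X, K⁆, Z1⁆ := by
    intro K hK X
    rw [← lie_skew X K, neg_lie, hs.k_j hK, lie_skew]
  have key : ∀ X : 𝔰, ⁅⁅X, Z1⁆, K₁⁆ = -⁅⁅⁅X, Z1⁆, K₂⁆, Z1⁆ := by
    intro X
    have e₁ : P.v ⁅⁅X, Z1⁆, K₁⁆ = P.v ⁅⁅X, Z1⁆, w₁⁆ := by
      rw [hK₁, lie_add, map_add, hs.p_p, add_zero]
    have e₂ : P.v ⁅⁅X, Z1⁆, K₂⁆ = P.v ⁅⁅X, Z1⁆, w₂⁆ := by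
      rw [hK₂, lie_add, map_add, hs.p_p, add_zero]
    have e₃ : P.v ⁅⁅X, K₁⁆ + ⁅⁅X, Z1⁆, K₂⁆, Z1⁆ = 0 := by
      rw [add_lie, map_add, ← kj v₁, hs.cx ⁅⁅X, Z1⁆, K₂⁆, e₁, e₂, hw]
    have e₄ := hs.p_k e₃
    rw [add_lie, ← kj v₁] at e₄
    exact eq_neg_of_add_eq_zero_left e₄
  have anti : ∀ K V V' : 𝔰,
      killingForm ℝ 𝔰 ⁅V, K⁆ V' = -killingForm ℝ 𝔰 ⁅V', K⁆ V := by
    intro K V V'
    rw [killing_lie', killing_comm, ← lie_skew K V', map_neg, LinearMap.neg_apply]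
  have a1 : ∀ X Y : 𝔰, killingForm ℝ 𝔰 ⁅⁅X, Z1⁆, K₁⁆ ⁅Y, Z1⁆ = 0 := by
    intro X Y
    have s1 : killingForm ℝ 𝔰 ⁅⁅X, Z1⁆, K₁⁆ ⁅Y, Z1⁆ =
        killingForm ℝ 𝔰 ⁅⁅X, Z1⁆, K₂⁆ ⁅⁅Y, Z1⁆, Z1⁆ := by
      rw [key, map_neg, LinearMap.neg_apply, killing_j, neg_neg]
    have s2 : killingForm ℝ 𝔰 ⁅⁅Y, Z1⁆, K₁⁆ ⁅X, Z1⁆ =
        killingForm ℝ 𝔰 ⁅⁅Y, Z1⁆, K₂⁆ ⁅⁅X, Z1⁆, Z1⁆ := by
      rw [key, map_neg, LinearMap.neg_apply, killing_j, neg_neg]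
    have s3 := anti K₂ ⁅Y, Z1⁆ ⁅⁅X, Z1⁆, Z1⁆
    have s4 : killingForm ℝ 𝔰 ⁅⁅⁅X, Z1⁆, Z1⁆, K₂⁆ ⁅Y, Z1⁆ =
        -killingForm ℝ 𝔰 ⁅⁅X, Z1⁆, K₂⁆ ⁅⁅Y, Z1⁆, Z1⁆ := by
      rw [kj v₂, killing_j]
    have s5 := anti K₁ ⁅X, Z1⁆ ⁅Y, Z1⁆
    linarith
  have z₁ : ∀ X : 𝔰, ⁅⁅X, Z1⁆, K₁⁆ = 0 := by
    intro X
    refine killing_ext fun U => ?_
    have e : U = (U + ⁅⁅U, Z1⁆, Z1⁆) - ⁅⁅U, Z1⁆, Z1⁆ := by abel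
    rw [map_zero, LinearMap.zero_apply, e, map_sub, a1, sub_zero, killing_comm, kj v₁,
      hs.k_perp (hs.dec U)]
  have hK₁0 : K₁ = 0 := h.cent v₁ z₁
  have z₂ : ∀ X : 𝔰, ⁅⁅X, Z1⁆, K₂⁆ = 0 := by
    intro X
    have e := key ⁅X, Z1⁆
    rw [z₁, ← kj v₂, hs.jjj, neg_lie, neg_neg] at e
    exact e.symm
  have hK₂0 : K₂ = 0 := h.cent v₂ z₂
  refine ⟨hK₁ ▸ hK₁0, ?_⟩
  rw [hK₂, ← hq, hs.jjj, ← sub_eq_add_neg, sub_eq_zero] at hK₂0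
  exact hK₂0

/-- Fields of `q` have their derivative in `val`.  Use `mem_of_forall_dual`: let `l` kill `val`,
`w₁ = ∑ Re l (d e_a u) • e^a`, `w₂ = ∑ Im l (d e_a u) • e^a`, so `l (d X u) = B w₁ X + i B w₂ X`.
`DH2`: `v [V,w₁] + i v [V,w₂] = 0` for all `V`.  `V = Z1` gives `v w₁ + i v w₂ = 0`.  Write
`w_i = K_i + Q_i` (`HS.dec`).  For `V ∈ p`: `[V,K₁] = - j [V,K₂]` (both in `p`, `HS.p_p`, `HS.p_k`).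
The forms `a_i(V,V') = B [V,K_i] V'` are antisymmetric on `p`, `a₁(V,V') = a₂(V,jV')` and
`a₂(jV,jV') = a₂(V,V')`, so `a₁` is also symmetric, `a₁ = a₂ = 0`, `[V,K_i] = 0`, `K_i = 0` (`cent`).
Then `Q₁ = - j Q₂`, the same for the `p`-parts of `a, b` (`HS.q_eq`), and
`B w₁ a - B w₂ b = 0 = B w₂ a + B w₁ b`. -/
theorem Full.normal (h : P.Full Z1) {a b : 𝔰} (hab : P.v a + I • P.v b = 0) (u : E) :
    P.d a u + I • P.d b u ∈ P.val := by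
  refine mem_of_forall_dual _ _ fun l hl => ?_
  have hl' : ∀ X, l (P.v X) = 0 := fun X => hl _ (Submodule.subset_span ⟨X, rfl⟩)
  have hsm : ∀ (c : ℝ) (X : 𝔰), l (P.d (c • X) u) = (c : ℂ) * l (P.d X u) := by
    intro c X
    rw [map_smul, ← smul_eq_mul, ← map_smul l]
    congr 1
    exact (algebraMap_smul ℂ c (P.d X u)).symm
  let φ₁ : 𝔰 →ₗ[ℝ] ℝ :=
    { toFun := fun X => (l (P.d X u)).re
      map_add' := fun X Y => by simp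
      map_smul' := fun c X => by simp only [hsm]; simp }
  let φ₂ : 𝔰 →ₗ[ℝ] ℝ :=
    { toFun := fun X => (l (P.d X u)).im
      map_add' := fun X Y => by simp
      map_smul' := fun c X => by simp only [hsm]; simp }
  obtain ⟨w₁, hw₁⟩ : ∃ w, w = ∑ a, φ₁ (ce 𝔰 a) • cd 𝔰 a := ⟨_, rfl⟩
  obtain ⟨w₂, hw₂⟩ : ∃ w, w = ∑ a, φ₂ (ce 𝔰 a) • cd 𝔰 a := ⟨_, rfl⟩
  have b₁ : ∀ X, killingForm ℝ 𝔰 w₁ X = (l (P.d X u)).re := fun X => hw₁ ▸ killing_sum φ₁ X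
  have b₂ : ∀ X, killingForm ℝ 𝔰 w₂ X = (l (P.d X u)).im := fun X => hw₂ ▸ killing_sum φ₂ X
  have hw : ∀ V : 𝔰, P.v ⁅V, w₁⁆ + I • P.v ⁅V, w₂⁆ = 0 := by
    intro V
    rw [← h.dh l hl' u V, hw₁, hw₂, lie_sum, lie_sum, map_sum, map_sum, Finset.smul_sum,
      ← Finset.sum_add_distrib]
    refine Finset.sum_congr rfl fun a _ => ?_
    rw [lie_smul, lie_smul, map_smul, map_smul, ← algebraMap_smul ℂ (φ₁ _),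
      ← algebraMap_smul ℂ (φ₂ _), smul_smul, ← add_smul]
    congr 1
    change ((l (P.d (ce 𝔰 a) u)).re : ℂ) + I * ((l (P.d (ce 𝔰 a) u)).im : ℂ) = _
    rw [mul_comm, re_add_im]
  obtain ⟨c₁, c₂⟩ := h.normal_core hw
  have hq := h.hs.q_eq hab
  have c₃ : w₁ = -⁅⁅w₁, Z1⁆, Z1⁆ := eq_neg_of_add_eq_zero_left c₁
  have r₁ : killingForm ℝ 𝔰 w₁ a = killingForm ℝ 𝔰 w₂ b := by
    have t : killingForm ℝ 𝔰 w₁ a = -killingForm ℝ 𝔰 ⁅⁅w₁, Z1⁆, Z1⁆ a := by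
      conv_lhs => rw [c₃]
      rw [map_neg, LinearMap.neg_apply]
    rw [t, killing_j, killing_j, hq, c₂, killing_j, neg_neg]
  have r₂ : killingForm ℝ 𝔰 w₂ a = -killingForm ℝ 𝔰 w₁ b := by
    have t : killingForm ℝ 𝔰 w₁ b = -killingForm ℝ 𝔰 ⁅⁅w₁, Z1⁆, Z1⁆ b := by
      conv_lhs => rw [c₃]
      rw [map_neg, LinearMap.neg_apply]
    rw [t, killing_j Z1 ⁅w₁, Z1⁆ b, ← hq, c₂, killing_j, killing_j, h.hs.jjj, map_neg]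
    ring
  rw [b₁, b₂] at r₁ r₂
  rw [map_add, map_smul, smul_eq_mul]
  apply Complex.ext <;> simp [r₁, r₂]

end PD

end Crest.Agent.R264.P5
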