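import Crest.Agent.R264.P5.MD
import Crest.Agent.R264.P5.Ideal

/-! Row 264, P5/P6: pulling vector fields back along open embeddings. -/

set_option autoImplicit false
open Set Filter Topology Metric Complex
open scoped Matrix

noncomputable section
namespace Crest.Agent.R264
open P5

namespace TM
variable (M : TM)

/-- A holomorphic local parametrisation of `U`. -/
structure Emb (E : Type) [NormedAddCommGroup E] [NormedSpace ℂ E] where
  W : Set E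
  W_open : IsOpen W
  ψ : E → CN M.N
  diff : DifferentiableOn ℂ ψ W
  maps : MapsTo ψ W M.U
  nhds : ∀ ω ∈ W, ψ '' W ∈ 𝓝[M.U] (ψ ω)
  dinj : ∀ ω ∈ W, Function.Injective (fderiv ℂ ψ ω)
  drange : ∀ ω ∈ W, LinearMap.range (fderiv ℂ ψ ω : E →ₗ[ℂ] CN M.N) = M.T (ψ ω)

/-- Charts. -/
def chartEmb (ch : Chart M.n M.U) : M.Emb (CN M.n) where
  W := ch.s
  W_open := ch.s_open
  ψ := ch.c
  diff := ch.c_diff
  maps := ch.maps
  nhds := ch.nhds
  dinj _ hu := ch.fderiv_injective hu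
  drange _ hu := (ch.tan_eq hu).symm

variable {M} {E : Type} [NormedAddCommGroup E] [NormedSpace ℂ E]

/-- `pb` is the pull-back of vector fields. -/
structure Emb.Pull (e : M.Emb E) (pb : M.VF →ₗ[ℂ] (E → E)) : Prop where
  diff : ∀ X, DifferentiableOn ℂ (pb X) e.W
  push : ∀ X, ∀ ω ∈ e.W, fderiv ℂ e.ψ ω (pb X ω) = (X : CN M.N → CN M.N) (e.ψ ω)
  lie : ∀ X Y, ∀ ω ∈ e.W, pb ⁅X, Y⁆ ω = VectorField.lieBracket ℂ (pb X) (pb Y) ω
  dzero : ∀ X : M.VF, ∀ ω ∈ e.W, (X : CN M.N → CN M.N) (e.ψ ω) = 0 → ∀ u,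
    M.D (X : CN M.N → CN M.N) (e.ψ ω) (fderiv ℂ e.ψ ω u) =
      fderiv ℂ e.ψ ω (fderiv ℂ (pb X) ω u)

/-- A tangent field along `ψ` has a holomorphic pull-back.  Near `ω₀` take a left inverse
`A : CN N →L E` of `Dψ ω₀`; `A ∘ Dψ ω` is invertible near `ω₀` and
`Y ω = (A ∘ Dψ ω)⁻¹ (A (X ω))` (`ContinuousLinearMap.inverse`, `contDiffAt_map_inverse`, or
`Ring.inverse` with `differentiableAt_inverse`; `SCV.differentiableOn_fderiv`). -/
theorem Emb.diff_of_push [FiniteDimensional ℂ E] (e : M.Emb E) {O : Set E} (hO : IsOpen O)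
    (hOW : O ⊆ e.W) {X : E → CN M.N} (hX : DifferentiableOn ℂ X O) {Y : E → E}
    (h : ∀ ω ∈ O, fderiv ℂ e.ψ ω (Y ω) = X ω) : DifferentiableOn ℂ Y O := by
  haveI : CompleteSpace E := FiniteDimensional.complete ℂ E
  intro ω₀ h0
  obtain ⟨A₀, hA₀⟩ := (fderiv ℂ e.ψ ω₀).toLinearMap.exists_leftInverse_of_injective
    (LinearMap.ker_eq_bot.2 (e.dinj ω₀ (hOW h0)))
  let A : CN M.N →L[ℂ] E := LinearMap.toContinuousLinearMap A₀
  let B : E → E →L[ℂ] E := fun ω => A.comp (fderiv ℂ e.ψ ω)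
  have hB : DifferentiableAt ℂ B ω₀ := (differentiableAt_const A).clm_comp
    ((SCV.differentiableOn_fderiv e.W_open e.diff).differentiableAt (e.W_open.mem_nhds (hOW h0)))
  have hB1 : IsUnit (B ω₀) := by
    have : B ω₀ = 1 := ContinuousLinearMap.ext fun u => LinearMap.congr_fun hA₀ u
    rw [this]; exact isUnit_one
  have h1 : DifferentiableAt ℂ (fun ω => Ring.inverse (B ω) (A (X ω))) ω₀ :=
    ((differentiableAt_inverse hB1).comp ω₀ hB).clm_apply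
      (A.differentiableAt.comp ω₀ (hX.differentiableAt (hO.mem_nhds h0)))
  refine (h1.congr_of_eventuallyEq ?_).differentiableWithinAt
  filter_upwards [hO.mem_nhds h0, hB.continuousAt.eventually (Units.isOpen.mem_nhds hB1)]
    with ω hω hu
  rw [← h ω hω]
  exact (congrArg (fun L : E →L[ℂ] E => L (Y ω)) (Ring.inverse_mul_cancel _ hu)).symm

/-- Define `pb X ω` as the unique preimage of `X (ψ ω)` for `ω ∈ W` and `0` otherwise.
Differentiating `Dψ ω (pb X ω) = X (ψ ω)` along `u` (`Hol.fderiv_comp`):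
`D²ψ(u, pb X) + Dψ (D (pb X) u) = DX (Dψ u)`; this gives `dzero`, and `lie` by the symmetry of
`D²ψ` and `dinj`. -/
theorem Emb.exists_pull [FiniteDimensional ℂ E] (e : M.Emb E) : ∃ pb, e.Pull pb := by
  classical
  have h1 : ∀ (X : M.VF) (ω : E), ∃ u : E, (ω ∈ e.W → fderiv ℂ e.ψ ω u =
      (X : CN M.N → CN M.N) (e.ψ ω)) ∧ (ω ∉ e.W → u = 0) := fun X ω => by
    by_cases hω : ω ∈ e.W
    · have h2 := X.2.2.1 _ (e.maps hω)
      rw [← e.drange ω hω] at h2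
      obtain ⟨u, hu⟩ := h2
      exact ⟨u, fun _ => hu, fun h => absurd hω h⟩
    · exact ⟨0, fun h => absurd h hω, fun _ => rfl⟩
  choose f hf hf0 using h1
  let pb : M.VF →ₗ[ℂ] (E → E) :=
    { toFun := f
      map_add' := fun X Y => funext fun ω => by
        by_cases hω : ω ∈ e.W
        · refine e.dinj ω hω ?_
          rw [Pi.add_apply, map_add, hf _ _ hω, hf _ _ hω, hf _ _ hω]; rfl
        · rw [Pi.add_apply, hf0 _ _ hω, hf0 _ _ hω, hf0 _ _ hω, add_zero]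
      map_smul' := fun a X => funext fun ω => by
        by_cases hω : ω ∈ e.W
        · refine e.dinj ω hω ?_
          rw [Pi.smul_apply, map_smul, hf _ _ hω, hf _ _ hω]; rfl
        · rw [Pi.smul_apply, hf0 _ _ hω, hf0 _ _ hω, smul_zero] }
  have hd : ∀ X, DifferentiableOn ℂ (f X) e.W := fun X =>
    e.diff_of_push e.W_open Subset.rfl (X.2.1.comp_differentiableOn e.diff e.maps) (hf X)
  have key : ∀ (X : M.VF), ∀ ω ∈ e.W, ∀ u, M.D (X : CN M.N → CN M.N) (e.ψ ω) (fderiv ℂ e.ψ ω u) =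
      fderiv ℂ e.ψ ω (fderiv ℂ (f X) ω u) + fderiv ℂ (fderiv ℂ e.ψ) ω u (f X ω) := by
    intro X ω hω u
    have hn := e.W_open.mem_nhds hω
    have h2 : (fun b => (X : CN M.N → CN M.N) (e.ψ b)) =ᶠ[𝓝 ω] fun b => fderiv ℂ e.ψ b (f X b) := by
      filter_upwards [hn] with b hb using (hf X b hb).symm
    rw [← X.2.1.fderiv_comp (e.diff.differentiableAt hn) (mem_of_superset hn e.maps), h2.fderiv_eq,
      fderiv_clm_apply ((SCV.differentiableOn_fderiv e.W_open e.diff).differentiableAt hn)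
        ((hd X).differentiableAt hn)]
    rfl
  refine ⟨pb, hd, hf, fun X Y ω hω => e.dinj ω hω ?_, fun X ω hω h0 u => ?_⟩
  · have hs := (SCV.analyticAt e.diff (e.W_open.mem_nhds hω)).contDiffAt.isSymmSndFDerivAt_of_omega
      (f X ω) (f Y ω)
    change fderiv ℂ e.ψ ω (f ⁅X, Y⁆ ω) =
      fderiv ℂ e.ψ ω (fderiv ℂ (f Y) ω (f X ω) - fderiv ℂ (f X) ω (f Y ω))
    rw [hf _ _ hω, coe_lie, br, indicator_of_mem (e.maps hω), ← hf X ω hω, ← hf Y ω hω,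
      key Y ω hω, key X ω hω, hs, map_sub, add_sub_add_right_eq_sub]
  · have h2 : f X ω = 0 := e.dinj ω hω (by rw [hf X ω hω, h0, map_zero])
    rw [key X ω hω, h2, map_zero, add_zero]
    rfl

variable [NormedSpace ℝ E] [IsScalarTower ℝ ℂ E]

/-- The pulled back Lie algebra. -/
def Emb.lv (e : M.Emb E) {pb : M.VF →ₗ[ℂ] (E → E)} (h : e.Pull pb) : LV M.g E where
  W := e.W
  W_open := e.W_open
  ev := (pb.restrictScalars ℝ).comp M.g.toSubmodule.subtype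
  diff X := h.diff X
  lie X Y := h.lie X Y

theorem Emb.lv_ev (e : M.Emb E) {pb : M.VF →ₗ[ℂ] (E → E)} (h : e.Pull pb) (X : M.g) :
    (e.lv h).ev X = pb X := rfl

section
variable {e : M.Emb E} {pb : M.VF →ₗ[ℂ] (E → E)} (h : e.Pull pb) {s : LieIdeal ℝ M.g} {ω : E}
  {P : PD s E}

theorem Emb.Pull.v_eq (hω : ω ∈ e.W) (hP : ((e.lv h).res s).At ω P) (X : s) :
    fderiv ℂ e.ψ ω (P.v X) = M.fn X (e.ψ ω) := by
  rw [hP.1 X]
  exact h.push _ ω hω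

theorem Emb.Pull.d_eq (hω : ω ∈ e.W) (hP : ((e.lv h).res s).At ω P) {X : s}
    (h0 : M.fn X (e.ψ ω) = 0) (u : E) :
    fderiv ℂ e.ψ ω (P.d X u) = M.D (M.fn X) (e.ψ ω) (fderiv ℂ e.ψ ω u) := by
  rw [hP.2 X]
  exact (h.dzero _ ω hω h0 u).symm

theorem Emb.Pull.h91_zero (hω : ω ∈ e.W) (hP : ((e.lv h).res s).At ω P) (X : s) :
    P.v X = 0 ↔ M.fn X (e.ψ ω) = 0 := by
  rw [← h.v_eq hω hP, map_eq_zero_iff _ (e.dinj ω hω)]

theorem Emb.Pull.hs_iff (hω : ω ∈ e.W) (hP : ((e.lv h).res s).At ω P) (Z1 : s) :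
    P.HS Z1 ↔ M.fn Z1 (e.ψ ω) = 0 ∧
      (∀ X ∈ s, M.fn ⁅X, (Z1 : M.g)⁆ (e.ψ ω) = I • M.fn X (e.ψ ω)) ∧
      ∀ K ∈ s, M.fn K (e.ψ ω) = 0 → ⁅K, (Z1 : M.g)⁆ = 0 := by
  have hz := fun X => Emb.Pull.h91_zero h hω hP X
  have hc : ∀ X : s, P.v ⁅X, Z1⁆ = I • P.v X ↔
      M.fn ⁅(X : M.g), (Z1 : M.g)⁆ (e.ψ ω) = I • M.fn X (e.ψ ω) := fun X => by
    rw [← (e.dinj ω hω).eq_iff, map_smul, h.v_eq hω hP, h.v_eq hω hP]
    rfl
  constructor
  · intro H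
    exact ⟨(hz Z1).1 H.zero, fun X hX => (hc ⟨X, hX⟩).1 (H.cx _), fun K hK h0 =>
      congrArg Subtype.val (H.comm ⟨K, hK⟩ ((hz ⟨K, hK⟩).2 h0))⟩
  · rintro ⟨h1, h2, h3⟩
    exact ⟨(hz Z1).2 h1, fun X => (hc X).2 (h2 X X.2), fun K h0 =>
      Subtype.ext (h3 K K.2 ((hz K).1 h0))⟩

theorem Emb.Pull.val_iff (hω : ω ∈ e.W) (hP : ((e.lv h).res s).At ω P) (u : E) :
    fderiv ℂ e.ψ ω u ∈ M.val s (e.ψ ω) ↔ u ∈ P.val := by
  have h1 : M.val s (e.ψ ω) = P.val.map (fderiv ℂ e.ψ ω : E →ₗ[ℂ] CN M.N) := by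
    rw [PD.val, Submodule.map_span, val]
    congr 1
    ext v
    constructor
    · rintro ⟨X, hX, rfl⟩
      exact ⟨_, ⟨⟨X, hX⟩, rfl⟩, h.v_eq hω hP ⟨X, hX⟩⟩
    · rintro ⟨_, ⟨X, rfl⟩, rfl⟩
      exact ⟨X, X.2, h.v_eq hω hP X⟩
  rw [h1]
  constructor
  · rintro ⟨u', hu', he⟩
    exact e.dinj ω hω he ▸ hu'
  · exact fun hu => ⟨u, hu, rfl⟩

/-- `dzero` for the field `a + I • b ∈ M.VF`; `M.D` is additive on holomorphic maps
(`fderivWithin` on tangent vectors, `Hol.fderiv_comp`). -/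
theorem Emb.Pull.dist_iff (hω : ω ∈ e.W) (hP : ((e.lv h).res s).At ω P) (u : E) :
    fderiv ℂ e.ψ ω u ∈ M.Dist s (e.ψ ω) ↔ u ∈ P.Dist := by
  have hT : fderiv ℂ e.ψ ω u ∈ M.T (e.ψ ω) := e.drange ω hω ▸ ⟨u, rfl⟩
  have h1 : ∀ a b : s, P.v a + I • P.v b = 0 ↔ M.fn a (e.ψ ω) + I • M.fn b (e.ψ ω) = 0 :=
    fun a b => by
      rw [← map_eq_zero_iff _ (e.dinj ω hω), map_add, map_smul, h.v_eq hω hP, h.v_eq hω hP]
  have h2 : ∀ a b : s, M.fn a (e.ψ ω) + I • M.fn b (e.ψ ω) = 0 →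
      (P.d a u + I • P.d b u = 0 ↔ M.D (M.fn a) (e.ψ ω) (fderiv ℂ e.ψ ω u) +
        I • M.D (M.fn b) (e.ψ ω) (fderiv ℂ e.ψ ω u) = 0) := fun a b hab => by
    have h3 := h.dzero (((a : M.g) : M.VF) + I • ((b : M.g) : M.VF)) ω hω hab u
    have ha := (h.diff ((a : M.g) : M.VF)).differentiableAt (e.W_open.mem_nhds hω)
    have hb := (h.diff ((b : M.g) : M.VF)).differentiableAt (e.W_open.mem_nhds hω)
    rw [map_add, map_smul, fderiv_add ha (hb.const_smul I), fderiv_const_smul hb] at h3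
    have h4 := M.D_add_T (M.hol_fn a) ((M.hol_fn b).const_smul I) (e.maps hω) hT
    rw [M.D_smul_T (M.hol_fn b) I (e.maps hω) hT] at h4
    rw [← h4, hP.2 a, hP.2 b, ← map_eq_zero_iff _ (e.dinj ω hω)]
    exact Eq.congr_left h3.symm
  constructor
  · intro H a b hab
    exact (h2 a b ((h1 a b).1 hab)).2 (H.2 a a.2 b b.2 ((h1 a b).1 hab))
  · intro H
    exact ⟨hT, fun a ha b hb hab =>
      (h2 ⟨a, ha⟩ ⟨b, hb⟩ hab).1 (H ⟨a, ha⟩ ⟨b, hb⟩ ((h1 ⟨a, ha⟩ ⟨b, hb⟩).2 hab))⟩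

theorem Emb.Pull.neg [LieAlgebra.IsKilling ℝ s] (hω : ω ∈ e.W) (hP : ((e.lv h).res s).At ω P) :
    P.Neg := by
  exact neg_res s P fun K hK =>
    M.isSkew_of_zero K (e.maps hω) ((Emb.Pull.h91_zero h hω hP K).1 hK)

end

end TM

end Crest.Agent.R264
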