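import Crest.Agent.R264.P5.GM4

/-! Row 264, P5/P6: the ideal generated by the dilation field. -/

set_option autoImplicit false
open Set Filter Topology Metric Complex
open scoped Matrix

noncomputable section
namespace Crest.Agent.R264.P5

namespace GM0
variable {𝔤 : Type} [LieRing 𝔤] [LieAlgebra ℝ 𝔤] [FiniteDimensional ℝ 𝔤] {r k : ℕ}
  {G : GM0 𝔤 r k} {Zp : 𝔤}

theorem Gr.wt_ZpX (h : G.Gr Zp) (η : CN r) : G.Wt (1 / 2) ⁅Zp, G.Xn η⁆ := by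
  exact h.wZp.lie (G.wt_X η) (by norm_num)

theorem Gr.Z_ZpX (h : G.Gr Zp) (η : CN r) : ⁅G.Z, ⁅Zp, G.Xn η⁆⁆ = -G.Xn η := by
  have h1 : ⁅G.A, G.Xn η⁆ = (-1 / 2 : ℝ) • G.Xn η := G.wt_X η
  rw [leibniz_lie, h.hZ, G.Z_X, lie_zero, add_zero, smul_lie, h1, smul_smul]
  norm_num

theorem Gr.Zp_ZpX (h : G.Gr Zp) (η : CN r) : ⁅Zp, ⁅Zp, G.Xn η⁆⁆ = 0 := by
  exact h.low (3 / 2) _ (h.wZp.lie (h.wt_ZpX η) (by norm_num)) (by norm_num) (by norm_num)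
    (by norm_num) (by norm_num) (by norm_num)

/-- Euler's identity. -/
theorem Gr.ev_ZpX (h : G.Gr Zp) (η : CN r) {w : ℂ} (hw : 0 < w.im) {t : CN k} (ht : t ∈ G.T) :
    G.ev ⁅Zp, G.Xn η⁆ (sl w t) = (0, -(w • bz (G.κ t) η), 0) := by
  have hE := (h.wt_ZpX η).euler hw ht
  rw [h.Z_ZpX, map_neg, Pi.neg_apply, G.ev_X_sl η hw ht] at hE
  have h1 := congrArg Prod.fst hE
  have h2 := congrArg (fun p => p.2.1) hE
  have h3 := congrArg (fun p => p.2.2) hE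
  simp only [Prod.neg_mk, neg_zero, Prod.smul_mk, smul_zero] at h1 h2 h3
  refine Prod.ext ?_ (Prod.ext ?_ ?_)
  · refine (mul_eq_zero.1 h1.symm).resolve_left ?_
    push_cast
    norm_num
  · have e : (((1 / 2 : ℝ) : ℂ) + 1 / 2) = 1 := by
      push_cast
      norm_num
    rw [e, one_smul, smul_neg] at h2
    exact h2.symm
  · refine (smul_eq_zero.1 h3.symm).resolve_left ?_
    push_cast
    norm_num

theorem Gr.mu_symm (h : G.Gr Zp) (ζ η : CN r) : G.mu Zp ζ η = G.mu Zp η ζ := by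
  have h1 : ⁅Zp, G.Z⁆ = -((2 : ℝ) • G.A) := by rw [← h.hZ, lie_skew]
  have h2 : ⁅⁅G.Xn ζ, Zp⁆, G.Xn η⁆ = ⁅G.Xn η, ⁅Zp, G.Xn ζ⁆⁆ := by
    rw [← lie_skew ⁅G.Xn ζ, Zp⁆, ← lie_skew (G.Xn ζ) Zp, lie_neg, neg_neg]
  unfold mu
  rw [leibniz_lie (G.Xn ζ) Zp, h2, G.X_X, lie_smul, h1, om_swap η ζ]
  module

theorem mu_add (ζ ζ' η : CN r) : G.mu Zp (ζ + ζ') η = G.mu Zp ζ η + G.mu Zp ζ' η := by
  unfold mu
  rw [map_add, add_lie, om_add_left]
  module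

theorem mu_smul (a : ℝ) (ζ η : CN r) : G.mu Zp (a • ζ) η = a • G.mu Zp ζ η := by
  unfold mu
  rw [map_smul, smul_lie, om_smul_left]
  module

theorem mu_neg (ζ η : CN r) : G.mu Zp (-ζ) η = -G.mu Zp ζ η := by
  unfold mu
  rw [map_neg, neg_lie, om_neg_left]
  module

theorem mu_mem (ζ η : CN r) : G.mu Zp ζ η ∈ G.s0 Zp := by
  exact Submodule.subset_span ⟨ζ, η, rfl⟩

theorem Gr.s0_wt (h : G.Gr Zp) {K : 𝔤} (hK : K ∈ G.s0 Zp) : G.Wt 0 K := by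
  induction hK using Submodule.span_induction with
  | mem x hx =>
    obtain ⟨ζ, η, rfl⟩ := hx
    exact ((G.wt_X ζ).lie (h.wt_ZpX η) (by norm_num)).add (G.wt_A.smul _)
  | zero => exact Wt.zero 0
  | add x y _ _ hx hy => exact hx.add hy
  | smul a x _ hx => exact hx.smul a

theorem Gr.s0_Z (h : G.Gr Zp) {K : 𝔤} (hK : K ∈ G.s0 Zp) : ⁅G.Z, K⁆ = 0 := by
  induction hK using Submodule.span_induction with
  | mem x hx =>
    obtain ⟨ζ, η, rfl⟩ := hx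
    have h0 : ⁅G.A, G.Z⁆ = (-1 : ℝ) • G.Z := G.wt_Z
    have h1 : ⁅G.Z, G.A⁆ = G.Z := by rw [← lie_skew, h0, neg_smul, one_smul, neg_neg]
    unfold mu
    rw [lie_add, leibniz_lie, G.Z_X, zero_lie, zero_add, h.Z_ZpX, lie_neg, G.X_X, lie_smul, h1,
      neg_add_cancel]
  | zero => exact lie_zero _
  | add x y _ _ hx hy => rw [lie_add, hx, hy, add_zero]
  | smul a x _ hx => rw [lie_smul, hx, smul_zero]

/-- `[Zp,K] = b • Zp` and `[Z,[Zp,K]] = 2 [A,K] = 0`. -/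
theorem Gr.Zp_comm (h : G.Gr Zp) {K : 𝔤} (hK : G.Wt 0 K) (hZ : ⁅G.Z, K⁆ = 0) : ⁅Zp, K⁆ = 0 := by
  have h0 : ⁅G.A, K⁆ = (0 : ℝ) • K := hK
  refine (h.wZp.lie hK (add_zero 1)).Z_inj one_pos ?_
  rw [leibniz_lie, h.hZ, hZ, lie_zero, add_zero, smul_lie, h0, zero_smul, smul_zero]

theorem Gr.exists_act (h : G.Gr Zp) {K : 𝔤} (hK : G.Wt 0 K) : ∃ L, G.Act K L := by
  obtain ⟨L, hL⟩ := exists_linear_of_rel (V := CN r) (V' := CN r)
    (fun ζ η => ⁅G.Xn ζ, K⁆ = G.Xn η)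
    (fun x y x' y' hx hy => by rw [map_add, map_add, add_lie, hx, hy])
    (fun c x x' hx => by rw [map_smul, map_smul, smul_lie, hx])
    (fun ζ => h.mh _ ((G.wt_X ζ).lie hK (add_zero _)))
    (fun x' hx => G.Xn_inj (by rw [← hx, map_zero, zero_lie]))
  exact ⟨L, fun ζ => (hL ζ _).2 rfl⟩

/-- Euler's identity. -/
theorem ev_sl_of_comm {K : 𝔤} (hK : G.Wt 0 K) (hZ : ⁅G.Z, K⁆ = 0) {w : ℂ} (hw : 0 < w.im)
    {t : CN k} (ht : t ∈ G.T) : G.ev K (sl w t) = (0, 0, (G.ev K (sl w t)).2.2) := by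
  have hE := hK.euler hw ht
  rw [hZ, map_zero, Pi.zero_apply, smul_zero] at hE
  have h1 := congrArg Prod.fst hE
  have h2 := congrArg (fun p => p.2.1) hE
  simp only [Prod.fst_zero, Prod.snd_zero] at h1 h2
  refine Prod.ext ?_ (Prod.ext ?_ rfl)
  · refine (mul_eq_zero.1 h1.symm).resolve_left ?_
    push_cast
    norm_num
  · refine (smul_eq_zero.1 h2.symm).resolve_left ?_
    push_cast
    norm_num

/-- `InS` as a submodule. -/
def s1h_iS (G : GM0 𝔤 r k) (Zp : 𝔤) : Submodule ℝ 𝔤 where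
  carrier := {X | G.InS Zp X}
  zero_mem' := ⟨0, 0, 0, 0, 0, 0, zero_mem _, by simp⟩
  add_mem' := by
    rintro _ _ ⟨a, ζ, c, K, η, b, hK, rfl⟩ ⟨a', ζ', c', K', η', b', hK', rfl⟩
    refine ⟨a + a', ζ + ζ', c + c', K + K', η + η', b + b', add_mem hK hK', ?_⟩
    simp only [map_add, lie_add, add_smul]
    abel
  smul_mem' := by
    rintro t _ ⟨a, ζ, c, K, η, b, hK, rfl⟩
    refine ⟨t * a, t • ζ, t * c, t • K, t • η, t * b, Submodule.smul_mem _ t hK, ?_⟩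
    simp only [map_smul, lie_smul, mul_smul, smul_add]

omit [FiniteDimensional ℝ 𝔤] in
theorem s1h_A : G.A ∈ s1h_iS G Zp := ⟨0, 0, 1, 0, 0, 0, zero_mem _, by simp⟩

omit [FiniteDimensional ℝ 𝔤] in
theorem s1h_K {K : 𝔤} (hK : K ∈ G.s0 Zp) : K ∈ s1h_iS G Zp := ⟨0, 0, 0, K, 0, 0, hK, by simp⟩

theorem s1h_half (h : G.Gr Zp) {X Y : 𝔤} (hX : G.Wt (-1 / 2) X) (hY : G.Wt (1 / 2) Y) :
    ⁅X, Y⁆ ∈ s1h_iS G Zp := by
  obtain ⟨ζ, rfl⟩ := h.mh X hX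
  obtain ⟨η, rfl⟩ := h.ph Y hY
  have e : ⁅G.Xn ζ, ⁅Zp, G.Xn η⁆⁆ = G.mu Zp ζ η - om ζ η • G.A := by simp [mu]
  rw [e]
  exact sub_mem (s1h_K (mu_mem ζ η)) (Submodule.smul_mem _ _ s1h_A)

omit [FiniteDimensional ℝ 𝔤] in
theorem s1h_lieA {K : 𝔤} (hK : G.Wt 0 K) : ⁅K, G.A⁆ = 0 := by
  rw [← lie_skew, show ⁅G.A, K⁆ = (0 : ℝ) • K from hK, zero_smul, neg_zero]

omit [FiniteDimensional ℝ 𝔤] in
theorem s1h_ZA : ⁅G.Z, G.A⁆ = G.Z := by
  rw [← lie_skew, show ⁅G.A, G.Z⁆ = (-1 : ℝ) • G.Z from G.wt_Z, neg_smul, one_smul, neg_neg]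

theorem s1h_comp (h : G.Gr Zp) {a b : ℝ} {ζ η : CN r} {K : 𝔤} (hK : G.Wt 0 K)
    (e : a • G.Z + G.Xn ζ + K + ⁅Zp, G.Xn η⁆ + b • Zp = 0) :
    a • G.Z = 0 ∧ G.Xn ζ = 0 ∧ K = 0 ∧ ⁅Zp, G.Xn η⁆ = 0 ∧ b • Zp = 0 := by
  simpa only [Submodule.mem_bot] using comp_mem (LieAlgebra.ad ℝ 𝔤 G.A) ⊥
    (fun x hx => by rw [Submodule.mem_bot] at hx ⊢; rw [hx, map_zero])
    (G.wt_Z.smul a) (G.wt_X ζ) hK (h.wt_ZpX η) (h.wZp.smul b) ((Submodule.mem_bot ℝ).2 e)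

theorem Gr.inS_of_wt (h : G.Gr Zp) {μ : ℝ} {X : 𝔤} (hX : G.Wt μ X) (hμ : μ ≠ 0) :
    G.InS Zp X := by
  by_cases h1 : μ = -1
  · obtain ⟨a, rfl⟩ := h.m1 X (h1 ▸ hX)
    exact ⟨a, 0, 0, 0, 0, 0, zero_mem _, by simp⟩
  by_cases h2 : μ = -1 / 2
  · obtain ⟨ζ, rfl⟩ := h.mh X (h2 ▸ hX)
    exact ⟨0, ζ, 0, 0, 0, 0, zero_mem _, by simp⟩
  by_cases h3 : μ = 1 / 2
  · obtain ⟨η, rfl⟩ := h.ph X (h3 ▸ hX)
    exact ⟨0, 0, 0, 0, η, 0, zero_mem _, by simp⟩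
  by_cases h4 : μ = 1
  · obtain ⟨b, rfl⟩ := h.p1 X (h4 ▸ hX)
    exact ⟨0, 0, 0, 0, 0, b, zero_mem _, by simp⟩
  rw [h.low μ X hX h1 h2 hμ h3 h4]
  exact (s1h_iS G Zp).zero_mem


/-- `[K, mu ζ η] = -(mu (L ζ) η + mu ζ (L η))` up to multiples of `A`; more precisely for `K` of
weight zero `[K, [X ζ, [Zp, X η]]] = [[K, X ζ], [Zp, X η]] + [X ζ, [K, [Zp, X η]]]` and both terms
have the form `[X ζ', [Zp, X η']] = mu ζ' η' - om ζ' η' • A` (`mh`, `ph`). -/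
theorem Gr.inS_lie_s0 (h : G.Gr Zp) {K K' : 𝔤} (hK : G.Wt 0 K) (hK' : K' ∈ G.s0 Zp) :
    G.InS Zp ⁅K, K'⁆ := by
  change ⁅K, K'⁆ ∈ s1h_iS G Zp
  induction hK' using Submodule.span_induction with
  | mem x hx =>
    obtain ⟨ζ, η, rfl⟩ := hx
    rw [mu, lie_add, lie_smul, s1h_lieA hK, smul_zero, add_zero, leibniz_lie]
    exact add_mem (s1h_half h (hK.lie (G.wt_X ζ) (by norm_num)) (h.wt_ZpX η))
      (s1h_half h (G.wt_X ζ) (hK.lie (h.wt_ZpX η) (by norm_num)))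
  | zero => rw [lie_zero]; exact zero_mem _
  | add x y _ _ hx hy => rw [lie_add]; exact add_mem hx hy
  | smul a x _ hx => rw [lie_smul]; exact Submodule.smul_mem _ a hx


/-- `InS` is a submodule; it is an ideal: decompose both arguments (`dec`), brackets of nonzero
weight are in `InS` (`inS_of_wt`), the six brackets of weight zero by hand.  Conversely the ideal
generated by `A` contains all elements of nonzero weight, hence `mu`. -/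
theorem Gr.mem_span_iff (h : G.Gr Zp) (X : 𝔤) :
    X ∈ LieSubmodule.lieSpan ℝ 𝔤 {G.A} ↔ G.InS Zp X := by
  constructor
  · intro hX
    have key : ∀ (ν : ℝ) (Y : 𝔤), G.Wt ν Y → (∀ U, G.Wt (-ν) U → ⁅U, Y⁆ ∈ s1h_iS G Zp) →
        ∀ U : 𝔤, ⁅U, Y⁆ ∈ s1h_iS G Zp := fun ν Y hY h0 U => by
      have one : ∀ (μ : ℝ) (U : 𝔤), G.Wt μ U → ⁅U, Y⁆ ∈ s1h_iS G Zp := fun μ U hU => by
        by_cases e : μ + ν = 0
        · exact h0 U (by rwa [← eq_neg_of_add_eq_zero_left e])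
        · exact h.inS_of_wt (hU.lie hY rfl) e
      obtain ⟨a, ζ, K, η, b, hK, rfl⟩ := h.dec U
      simp only [add_lie]
      exact add_mem (add_mem (add_mem (add_mem (one _ _ (G.wt_Z.smul a)) (one _ _ (G.wt_X ζ)))
        (one _ _ hK)) (one _ _ (h.wt_ZpX η))) (one _ _ (h.wZp.smul b))
    let I : LieIdeal ℝ 𝔤 :=
      { s1h_iS G Zp with
        lie_mem := by
          rintro U _ ⟨a, ζ, c, K, η, b, hK, rfl⟩
          change _ ∈ s1h_iS G Zp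
          simp only [lie_add, lie_smul]
          refine add_mem (add_mem (add_mem (add_mem (add_mem (Submodule.smul_mem _ _ ?_) ?_)
            (Submodule.smul_mem _ _ ?_)) ?_) ?_) (Submodule.smul_mem _ _ ?_)
          · refine key _ _ G.wt_Z (fun V hV => ?_) U
            obtain ⟨b, rfl⟩ := h.p1 V (by simpa using hV)
            rw [smul_lie, ← lie_skew, h.hZ]
            exact Submodule.smul_mem _ _ (neg_mem (Submodule.smul_mem _ _ s1h_A))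
          · refine key _ _ (G.wt_X ζ) (fun V hV => ?_) U
            rw [← lie_skew]
            exact neg_mem (s1h_half h (G.wt_X ζ) (by convert hV using 1; norm_num))
          · refine key _ _ G.wt_A (fun V hV => ?_) U
            rw [s1h_lieA (by simpa using hV)]
            exact zero_mem _
          · exact key _ _ (h.s0_wt hK) (fun V hV => h.inS_lie_s0 (by simpa using hV) hK) U
          · exact key _ _ (h.wt_ZpX η)
              (fun V hV => s1h_half h (by convert hV using 1; norm_num) (h.wt_ZpX η)) U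
          · refine key _ _ h.wZp (fun V hV => ?_) U
            obtain ⟨a, rfl⟩ := h.m1 V hV
            rw [smul_lie, h.hZ]
            exact Submodule.smul_mem _ _ (Submodule.smul_mem _ _ s1h_A) }
    exact (LieSubmodule.lieSpan_le (N := I)).2 (singleton_subset_iff.2 s1h_A) hX
  · rintro ⟨a, ζ, c, K, η, b, hK, rfl⟩
    have hA : G.A ∈ LieSubmodule.lieSpan ℝ 𝔤 {G.A} := LieSubmodule.subset_lieSpan rfl
    have hw : ∀ (μ : ℝ) (Y : 𝔤), G.Wt μ Y → μ ≠ 0 → Y ∈ LieSubmodule.lieSpan ℝ 𝔤 {G.A} :=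
      fun μ Y hY hμ => by
        have e : Y = (-μ⁻¹) • ⁅Y, G.A⁆ := by
          rw [← lie_skew, show ⁅G.A, Y⁆ = μ • Y from hY, smul_neg, neg_smul, neg_neg, smul_smul,
            inv_mul_cancel₀ hμ, one_smul]
        rw [e]
        exact SMulMemClass.smul_mem _ (LieSubmodule.lie_mem _ hA)
    have hs : G.s0 Zp ≤ (LieSubmodule.lieSpan ℝ 𝔤 {G.A}).toSubmodule := by
      refine Submodule.span_le.2 ?_
      rintro _ ⟨ζ, η, rfl⟩
      exact add_mem (LieSubmodule.lie_mem _ (hw _ _ (h.wt_ZpX η) (by norm_num)))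
        (SMulMemClass.smul_mem _ hA)
    exact add_mem (add_mem (add_mem (add_mem (add_mem (hw _ _ (G.wt_Z.smul a) (by norm_num))
      (hw _ _ (G.wt_X ζ) (by norm_num))) (SMulMemClass.smul_mem _ hA)) (hs hK))
      (hw _ _ (h.wt_ZpX η) (by norm_num))) (hw _ _ (h.wZp.smul b) (by norm_num))


/-- Uniqueness of the decomposition (`comp_mem` with `⊥`). -/
theorem Gr.dec_uniq (h : G.Gr Zp) {a c b : ℝ} {ζ η : CN r} {K : 𝔤} (hK : K ∈ G.s0 Zp)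
    (e : a • G.Z + G.Xn ζ + c • G.A + K + ⁅Zp, G.Xn η⁆ + b • Zp = 0) :
    a = 0 ∧ ζ = 0 ∧ c = 0 ∧ K = 0 ∧ η = 0 ∧ b = 0 := by
  obtain ⟨e1, e2, e3, e4, e5⟩ := s1h_comp h ((G.wt_A.smul c).add (h.s0_wt hK))
    (a := a) (ζ := ζ) (η := η) (b := b) (by rw [← e]; abel)
  have hc : c = 0 := by
    have := congrArg (fun Y => ⁅G.Z, Y⁆) e3
    simp only [lie_add, lie_smul, s1h_ZA, h.s0_Z hK, add_zero, lie_zero] at this
    exact (smul_eq_zero.1 this).resolve_right G.Z_ne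
  refine ⟨(smul_eq_zero.1 e1).resolve_right G.Z_ne, G.Xn_inj (by rw [e2, map_zero]), hc,
    by simpa [hc] using e3, G.Xn_inj ?_, ?_⟩
  · have := h.Z_ZpX η
    rw [e4, lie_zero] at this
    rw [map_zero, ← neg_eq_zero, ← this]
  · refine (smul_eq_zero.1 e5).resolve_right fun e6 => G.A_ne ?_
    have := h.hZ
    rw [e6, lie_zero] at this
    exact (smul_eq_zero.1 this.symm).resolve_left two_ne_zero


theorem Gr.mem_s0 (h : G.Gr Zp) {X : 𝔤} (hX : G.InS Zp X) (h0 : G.Wt 0 X) (hZ : ⁅G.Z, X⁆ = 0) :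
    X ∈ G.s0 Zp := by
  obtain ⟨a, ζ, c, K, η, b, hK, e⟩ := hX
  obtain ⟨-, -, e3, -, -⟩ := s1h_comp h (((G.wt_A.smul c).add (h.s0_wt hK)).sub h0)
    (a := a) (ζ := ζ) (η := η) (b := b) (by rw [e]; abel)
  have e4 : X = c • G.A + K := (sub_eq_zero.1 e3).symm
  rw [e4, lie_add, lie_smul, s1h_ZA, h.s0_Z hK, add_zero] at hZ
  rw [e4, (smul_eq_zero.1 hZ).resolve_right G.Z_ne, zero_smul, zero_add]
  exact hK


theorem Gr.s0_lie (h : G.Gr Zp) {K K' : 𝔤} (hK : K ∈ G.s0 Zp) (hK' : K' ∈ G.s0 Zp) :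
    ⁅K, K'⁆ ∈ G.s0 Zp := by
  refine h.mem_s0 (h.inS_lie_s0 (h.s0_wt hK) hK')
    ((h.s0_wt hK).lie (h.s0_wt hK') (by norm_num)) ?_
  rw [leibniz_lie, h.s0_Z hK, h.s0_Z hK', zero_lie, lie_zero, add_zero]


/-- `trace_eq_sum_eigen` for `(ad A)²` with the eigenvalues `0, 1/4, 1`. -/
theorem Gr.killing_A (h : G.Gr Zp) : 0 < killingForm ℝ 𝔤 G.A G.A := by
  classical
  set f := LieAlgebra.ad ℝ 𝔤 G.A * LieAlgebra.ad ℝ 𝔤 G.A with hf
  have hmem : ∀ {μ ν : ℝ} {X : 𝔤}, G.Wt μ X → μ * μ = ν → X ∈ f.eigenspace ν := by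
    intro μ ν X hX e
    have h0 : ⁅G.A, X⁆ = μ • X := hX
    rw [Module.End.mem_eigenspace_iff, hf, Module.End.mul_apply, LieAlgebra.ad_apply,
      LieAlgebra.ad_apply, h0, lie_smul, h0, smul_smul, e]
  have htop : ⨆ μ ∈ ({0, 1 / 4, 1} : Finset ℝ), f.eigenspace μ = ⊤ := by
    refine eq_top_iff.2 fun X _ => ?_
    obtain ⟨a, ζ, K, η, b, hK, rfl⟩ := h.dec X
    have hle : ∀ ν ∈ ({0, 1 / 4, 1} : Finset ℝ),
        f.eigenspace ν ≤ ⨆ μ ∈ ({0, 1 / 4, 1} : Finset ℝ), f.eigenspace μ := fun ν hν =>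
      le_iSup₂_of_le (f := fun μ (_ : μ ∈ ({0, 1 / 4, 1} : Finset ℝ)) => f.eigenspace μ) ν hν le_rfl
    refine Submodule.add_mem _ (Submodule.add_mem _ (Submodule.add_mem _ (Submodule.add_mem _
      ?_ ?_) ?_) ?_) ?_
    · exact hle 1 (by simp) (hmem (G.wt_Z.smul a) (by norm_num))
    · exact hle (1 / 4) (by simp) (hmem (G.wt_X ζ) (by norm_num))
    · exact hle 0 (by simp) (hmem hK (by norm_num))
    · exact hle (1 / 4) (by simp) (hmem (h.wt_ZpX η) (by norm_num))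
    · exact hle 1 (by simp) (hmem (h.wZp.smul b) (by norm_num))
  have h1 : killingForm ℝ 𝔤 G.A G.A = LinearMap.trace ℝ 𝔤 f := rfl
  rw [h1, trace_eq_sum_eigen f _ htop]
  refine Finset.sum_pos' (fun μ hμ => mul_nonneg ?_ (Nat.cast_nonneg _)) ⟨1, by simp, ?_⟩
  · simp only [Finset.mem_insert, Finset.mem_singleton] at hμ
    rcases hμ with rfl | rfl | rfl <;> norm_num
  · rw [one_mul, Nat.cast_pos, Module.finrank_pos_iff_exists_ne_zero]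
    exact ⟨⟨G.Z, hmem G.wt_Z (by norm_num)⟩, fun e => G.Z_ne (congrArg Subtype.val e)⟩

/-- Invariance of the Killing form; `B A K = 0`, `B Z Zp = -2 B A A`. -/
theorem Gr.killing_mu (h : G.Gr Zp) {K : 𝔤} {L : CN r →ₗ[ℝ] CN r} (hZ : ⁅G.Z, K⁆ = 0)
    (hL : G.Act K L) (ζ η : CN r) :
    killingForm ℝ 𝔤 (G.mu Zp ζ η) K = 2 * killingForm ℝ 𝔤 G.A G.A * om η (L ζ) := by
  have h1 : killingForm ℝ 𝔤 G.A K = 0 := by
    have e := killing_lie G.Z Zp K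
    rw [h.hZ, hZ, map_zero, neg_zero, map_smul, LinearMap.smul_apply, smul_eq_mul] at e
    linarith
  have h2 : killingForm ℝ 𝔤 Zp G.Z = -2 * killingForm ℝ 𝔤 G.A G.A := by
    have e := killing_lie' G.Z Zp G.A
    have h0 : ⁅G.A, Zp⁆ = (1 : ℝ) • Zp := h.wZp
    rw [h.hZ, ← lie_skew Zp, h0, one_smul, map_neg, map_smul, LinearMap.smul_apply, smul_eq_mul,
      killing_comm G.Z] at e
    linarith
  unfold mu
  rw [map_add, LinearMap.add_apply, map_smul, LinearMap.smul_apply, h1, smul_zero, add_zero,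
    killing_lie, hL ζ, killing_lie', G.X_X, map_smul, smul_eq_mul, h2]
  ring

end GM0

end Crest.Agent.R264.P5
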