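import Crest.Agent.R264.P5.S1
import Crest.Agent.R264.P5.Pt1

/-! Row 264, P5/P6: the complex structure attached to a base point. -/

set_option autoImplicit false
open Set Filter Topology Metric Complex
open scoped Matrix

noncomputable section
namespace Crest.Agent.R264.P5

namespace GM0
variable {𝔤 : Type} [LieRing 𝔤] [LieAlgebra ℝ 𝔤] [FiniteDimensional ℝ 𝔤] {r k : ℕ}
  {G : GM0 𝔤 r k} {Zp : 𝔤} {t : CN k} {J : CN r →ₗ[ℝ] CN r}

theorem exists_isJ (G : GM0 𝔤 r k) (ht : t ∈ G.T) : ∃ J, G.IsJ t J := by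
  exact exists_J (G.small t ht)

theorem IsJ.JJ (hJ : G.IsJ t J) (ht : t ∈ G.T) (ζ : CN r) : J (J ζ) = -ζ := by
  refine bz_inj (G.small t ht) ?_
  rw [hJ, hJ, smul_smul, I_mul_I, bz_neg, neg_one_smul]

theorem IsJ.ev_X (hJ : G.IsJ t J) (ht : t ∈ G.T) (ζ : CN r) :
    G.ev (G.Xn (J ζ)) (sl I t) = I • G.ev (G.Xn ζ) (sl I t) := by
  rw [G.ev_X_sl _ (by simp) ht, G.ev_X_sl _ (by simp) ht, hJ]
  simp

/-- `X ζ + i X (J ζ)` vanishes at `sl I t`; `PD.lie_q` (with `G.toLV.exists_pd`) and `X_X`. -/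
theorem IsJ.om_J (hJ : G.IsJ t J) (ht : t ∈ G.T) (ζ η : CN r) :
    om (J ζ) (J η) = om ζ η ∧ om (J ζ) η = -om ζ (J η) := by
  obtain ⟨P, hP, -⟩ := G.toLV.exists_pd (G.slI_mem ht)
  have hv : ∀ X, P.v X = G.ev X (sl I t) := hP
  have h0 : ∀ ζ, P.v (G.Xn ζ) + I • P.v (G.Xn (J ζ)) = 0 := fun ζ => by
    rw [hv, hv, hJ.ev_X ht, smul_smul, I_mul_I, neg_one_smul, add_neg_cancel]
  have h1 := congrArg Prod.fst (P.lie_q (h0 ζ) (h0 η))
  simp only [G.X_X, map_smul, hv, Pi.smul_apply, G.ev_Z_sl (w := I) (by simp) ht] at h1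
  have h2 := congrArg Complex.re h1
  have h3 := congrArg Complex.im h1
  simp at h2 h3
  constructor <;> linarith

/-- Both sides have the form `(0,0,c)` (`ev_sl_of_comm`); the base component of
`[X ζ, Y] ω` is that of `DY (0, bz ζ, 0)` (`ev_X_lie`), complex linear in `bz ζ`. -/
theorem Gr.ev_mu_J (h : G.Gr Zp) (hJ : G.IsJ t J) (ht : t ∈ G.T) (ζ η : CN r) :
    G.ev (G.mu Zp (J ζ) η) (sl I t) = I • G.ev (G.mu Zp ζ η) (sl I t) := by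
  have hω := G.slI_mem ht
  have h1 : ∀ ζ, G.ev (G.mu Zp ζ η) (sl I t) =
      (0, 0, (fderiv ℂ (G.ev ⁅Zp, G.Xn η⁆) (sl I t) (G.ev (G.Xn ζ) (sl I t))).2.2) := fun ζ => by
    rw [ev_sl_of_comm (h.s0_wt (mu_mem ζ η)) (h.s0_Z (mu_mem ζ η)) (by simp) ht, mu, map_add,
      map_smul, Pi.add_apply, Pi.smul_apply, G.ev_X_lie _ _ hω, G.ev_A_sl (by simp) ht,
      G.evX _ _ hω]
    simp
  rw [h1, h1, hJ.ev_X ht, map_smul]
  simp

/-- `K` commutes with `Z, A, Zp, X ζ`, hence with `s0`.  For every `t` there is `K' ∈ s0` with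
`K' ω = i K ω` at `ω = sl I t` (span induction, `ev_mu_J`), `noC` gives `K ω = 0`; `Spec.eq_zero`. -/
theorem Gr.inj0 (h : G.Gr Zp) {K : 𝔤} (hK : K ∈ G.s0 Zp) (hX : ∀ ζ, ⁅G.Xn ζ, K⁆ = 0) : K = 0 := by
  have hA : ⁅K, G.A⁆ = 0 := by rw [← lie_skew, h.s0_wt hK, zero_smul, neg_zero]
  have hX' : ∀ ζ, ⁅K, G.Xn ζ⁆ = 0 := fun ζ => by rw [← lie_skew, hX, neg_zero]
  have hZp : ⁅K, Zp⁆ = 0 := by
    rw [← lie_skew, h.Zp_comm (h.s0_wt hK) (h.s0_Z hK), neg_zero]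
  have hc : ∀ K' ∈ G.s0 Zp, ⁅K, K'⁆ = 0 := fun K' hK' => by
    induction hK' using Submodule.span_induction with
    | mem x hx =>
      obtain ⟨ζ, η, rfl⟩ := hx
      rw [mu, lie_add, lie_smul, hA, leibniz_lie, leibniz_lie K Zp, hX', hX', hZp]
      simp
    | zero => simp
    | add x y _ _ hx hy => rw [lie_add, hx, hy, add_zero]
    | smul a x _ hx => rw [lie_smul, hx, smul_zero]
  refine Spec.eq_zero ⟨h.s0_Z hK, hX⟩ fun t ht => ?_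
  obtain ⟨J, hJ⟩ := G.exists_isJ ht
  have h1 : ∀ K ∈ G.s0 Zp, ∃ K' ∈ G.s0 Zp, G.ev K' (sl I t) = I • G.ev K (sl I t) := by
    intro K hK
    induction hK using Submodule.span_induction with
    | mem x hx =>
      obtain ⟨ζ, η, rfl⟩ := hx
      exact ⟨_, mu_mem _ _, h.ev_mu_J hJ ht ζ η⟩
    | zero => exact ⟨0, Submodule.zero_mem _, by simp⟩
    | add x y _ _ hx hy =>
      obtain ⟨x', a1, a2⟩ := hx
      obtain ⟨y', b1, b2⟩ := hy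
      exact ⟨x' + y', Submodule.add_mem _ a1 b1, by
        rw [map_add, map_add, Pi.add_apply, Pi.add_apply, a2, b2, smul_add]⟩
    | smul a x _ hx =>
      obtain ⟨x', a1, a2⟩ := hx
      exact ⟨a • x', Submodule.smul_mem _ _ a1, by
        rw [map_smul, map_smul, Pi.smul_apply, Pi.smul_apply, a2, smul_comm]⟩
  obtain ⟨K', h2, h3⟩ := h1 K hK
  exact G.noC K K' (hc K' h2) _ (G.slI_mem ht) I (by simp) h3

theorem Gr.act_ext (h : G.Gr Zp) {K K' : 𝔤} (hK : K ∈ G.s0 Zp) (hK' : K' ∈ G.s0 Zp)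
    {L : CN r →ₗ[ℝ] CN r} (hL : G.Act K L) (hL' : G.Act K' L) : K = K' := by
  exact sub_eq_zero.1 (h.inj0 (Submodule.sub_mem _ hK hK') fun ζ => by
    rw [lie_sub, hL, hL', sub_self])

/-- An ideal `i` of `s` is graded (`comp_mem`).  If it contains `Z` or `Zp` it contains `A`, then
everything.  A nonzero `X ζ` gives `Z` (`om_nondeg`), a nonzero `[Zp, X η]` gives `X η`.  Otherwise
`i ⊆ ℝ A + s0`, its elements commute with `Z` and the `X ζ`; `inj0`. -/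
theorem Gr.simple (h : G.Gr Zp) (i : Submodule ℝ 𝔤) (hi : ∀ X ∈ i, G.InS Zp X)
    (hl : ∀ U, G.InS Zp U → ∀ X ∈ i, ⁅U, X⁆ ∈ i) : (∀ X, G.InS Zp X → X ∈ i) ∨ i = ⊥ := by
  have sZ := h.inS_of_wt G.wt_Z (by norm_num)
  have sZp := h.inS_of_wt h.wZp (by norm_num)
  have sX := fun ζ => h.inS_of_wt (G.wt_X ζ) (by norm_num)
  have hZA : ⁅G.Z, G.A⁆ = G.Z := by rw [← lie_skew, G.wt_Z, neg_one_smul, neg_neg]
  by_cases hA : G.A ∈ i
  · left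
    have h1 : ∀ {μ : ℝ} {X : 𝔤}, G.Wt μ X → μ ≠ 0 → X ∈ i := fun {μ X} hX hμ => by
      have h2 := hl X (h.inS_of_wt hX hμ) _ hA
      rw [← lie_skew, hX, neg_mem_iff] at h2
      exact (i.smul_mem_iff hμ).1 h2
    have h2 : G.s0 Zp ≤ i := Submodule.span_le.2 (by
      rintro _ ⟨ζ, η, rfl⟩
      exact i.add_mem (hl _ (sX ζ) _ (h1 (h.wt_ZpX η) (by norm_num))) (i.smul_mem _ hA))
    rintro _ ⟨a, ζ, c, K, η, b, hK, rfl⟩
    exact i.add_mem (i.add_mem (i.add_mem (i.add_mem (i.add_mem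
      (i.smul_mem _ (h1 G.wt_Z (by norm_num))) (h1 (G.wt_X ζ) (by norm_num))) (i.smul_mem _ hA))
      (h2 hK)) (h1 (h.wt_ZpX η) (by norm_num))) (i.smul_mem _ (h1 h.wZp (by norm_num)))
  right
  have h1 : ∀ a : ℝ, a • G.Z ∈ i → a = 0 := fun a ha => by
    by_contra h0
    have h2 := hl _ sZp _ ((i.smul_mem_iff h0).1 ha)
    rw [← lie_skew, h.hZ, neg_mem_iff] at h2
    exact hA ((i.smul_mem_iff two_ne_zero).1 h2)
  have h2 : ∀ a : ℝ, a • Zp ∈ i → a = 0 := fun a ha => by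
    by_contra h0
    have h2 := hl _ sZ _ ((i.smul_mem_iff h0).1 ha)
    rw [h.hZ] at h2
    exact hA ((i.smul_mem_iff two_ne_zero).1 h2)
  have h3 : ∀ ζ, G.Xn ζ ∈ i → ζ = 0 := fun ζ hζ =>
    om_nondeg fun η => h1 _ (G.X_X η ζ ▸ hl _ (sX η) _ hζ)
  have h4 : ∀ η, ⁅Zp, G.Xn η⁆ ∈ i → η = 0 := fun η hη =>
    h3 η (neg_mem_iff.1 (h.Z_ZpX η ▸ hl _ sZ _ hη))
  have sA : G.InS Zp G.A := ⟨0, 0, 1, 0, 0, 0, Submodule.zero_mem _, by simp⟩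
  refine (Submodule.eq_bot_iff i).2 fun X hX => ?_
  obtain ⟨a, ζ, c, K, η, b, hK, rfl⟩ := hi X hX
  rw [add_assoc _ (c • G.A) K] at hX ⊢
  obtain ⟨a1, a2, a3, a4, a5⟩ := comp_mem (LieAlgebra.ad ℝ 𝔤 G.A) i (hl _ sA) (G.wt_Z.smul a)
    (G.wt_X ζ) ((G.wt_A.smul c).add (h.s0_wt hK)) (h.wt_ZpX η) (h.wZp.smul b) hX
  have hc : c = 0 := h1 c (by
    have := hl _ sZ _ a3
    rwa [lie_add, lie_smul, hZA, h.s0_Z hK, add_zero] at this)
  rw [hc, zero_smul, zero_add] at a3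
  have hK0 : K = 0 := h.inj0 hK fun ζ' => by
    obtain ⟨ζ'', e⟩ := h.mh _ ((G.wt_X ζ').lie (h.s0_wt hK) (add_zero _))
    rw [e, h3 ζ'' (e ▸ hl _ (sX ζ') _ a3), map_zero]
  rw [h1 a a1, h3 ζ a2, hc, hK0, h4 η a4, h2 b a5]
  simp

theorem h2_key (hJ : G.IsJ t J) (ht : t ∈ G.T) {K : 𝔤} {L : CN r →ₗ[ℝ] CN r}
    (hL : G.Act K L) (ζ : CN r) :
    bz (G.κ t) (L ζ) + I • bz (G.κ t) (L (J ζ)) =
      -(dκ G.κ t (G.ev K (sl I t)).2.2 *ᵥ (star ζ + I • star (J ζ))) := by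
  have hw : 0 < (I : ℂ).im := by simp
  have key : ∀ ξ : CN r, bz (G.κ t) (L ξ) =
      (fderiv ℂ (G.ev K) (sl I t) (G.ev (G.Xn ξ) (sl I t))).2.1 -
        dκ G.κ t (G.ev K (sl I t)).2.2 *ᵥ star ξ := fun ξ => by
    have h1 := G.ev_X_lie ξ K (G.slI_mem ht)
    rw [hL ξ, G.ev_X_sl _ hw ht, ← G.evX ξ _ (G.slI_mem ht)] at h1
    exact congrArg (fun u : PM r k => u.2.1) h1
  rw [key ζ, key (J ζ), hJ.ev_X ht, map_smul, Prod.smul_snd, Prod.smul_fst, smul_sub, smul_smul,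
    I_mul_I, Matrix.mulVec_add, Matrix.mulVec_smul, neg_one_smul]
  abel

theorem h2_act_add {K K' : 𝔤} {L L' : CN r →ₗ[ℝ] CN r} (h : G.Act K L) (h' : G.Act K' L') :
    G.Act (K + K') (L + L') := fun ζ => by
  rw [lie_add, h, h', LinearMap.add_apply, map_add]

theorem h2_act_sub {K K' : 𝔤} {L L' : CN r →ₗ[ℝ] CN r} (h : G.Act K L) (h' : G.Act K' L') :
    G.Act (K - K') (L - L') := fun ζ => by
  rw [lie_sub, h, h', LinearMap.sub_apply, map_sub]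

theorem h2_act_smul {K : 𝔤} {L : CN r →ₗ[ℝ] CN r} (h : G.Act K L) (a : ℝ) :
    G.Act (a • K) (a • L) := fun ζ => by
  rw [lie_smul, h, LinearMap.smul_apply, map_smul]

theorem h2_ev_mu_J (h : G.Gr Zp) (hJ : G.IsJ t J) (ht : t ∈ G.T) (ζ η : CN r) :
    G.ev (G.mu Zp ζ (J η)) (sl I t) = I • G.ev (G.mu Zp ζ η) (sl I t) := by
  rw [h.mu_symm, h.ev_mu_J hJ ht, h.mu_symm]

theorem h2_ev_mu_JJ (h : G.Gr Zp) (hJ : G.IsJ t J) (ht : t ∈ G.T) (ζ η : CN r) :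
    G.ev (G.mu Zp (J ζ) (J η)) (sl I t) = -G.ev (G.mu Zp ζ η) (sl I t) := by
  rw [h.ev_mu_J hJ ht, h2_ev_mu_J h hJ ht, smul_smul, I_mul_I, neg_one_smul]

theorem h2_ev_plus (h : G.Gr Zp) (hJ : G.IsJ t J) (ht : t ∈ G.T) (ζ η : CN r) :
    G.ev (G.mu Zp ζ η + G.mu Zp (J ζ) (J η)) (sl I t) = 0 := by
  rw [map_add, Pi.add_apply, h2_ev_mu_JJ h hJ ht, add_neg_cancel]

theorem h2_ev_minus (h : G.Gr Zp) (hJ : G.IsJ t J) (ht : t ∈ G.T) (ζ η : CN r) :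
    G.ev (G.mu Zp (J ζ) η + G.mu Zp ζ (J η)) (sl I t) =
      I • G.ev (G.mu Zp ζ η - G.mu Zp (J ζ) (J η)) (sl I t) := by
  rw [map_add, map_sub, Pi.add_apply, Pi.sub_apply, h2_ev_mu_JJ h hJ ht, h2_ev_mu_J h hJ ht,
    h.ev_mu_J hJ ht, sub_neg_eq_add, smul_add]

/-- `PD.lie_q` for `X ζ + i X (Jζ)` and `K + i 0`. -/
theorem IsJ.act_comm (hJ : G.IsJ t J) (ht : t ∈ G.T) {K : 𝔤} {L : CN r →ₗ[ℝ] CN r}
    (hL : G.Act K L) (h0 : G.ev K (sl I t) = 0) (ζ : CN r) : L (J ζ) = J (L ζ) := by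
  have h1 := h2_key hJ ht hL ζ
  rw [h0, Prod.snd_zero, Prod.snd_zero, dκ_zero, Matrix.zero_mulVec, neg_zero] at h1
  refine bz_inj (G.small t ht) ?_
  rw [hJ, eq_neg_of_add_eq_zero_left h1, smul_neg, smul_smul, I_mul_I, neg_one_smul, neg_neg]

/-- `lie0`: `[X ζ,K] ω + i [X (Jζ),K] ω = -(D X ζ + i D X (Jζ)) (K ω)`, second component. -/
theorem IsJ.act_anti (hJ : G.IsJ t J) (ht : t ∈ G.T) {K : 𝔤} {L : CN r →ₗ[ℝ] CN r}
    (hL : G.Act K L) (ha : ∀ ζ, L (J ζ) = -J (L ζ)) (ζ : CN r) :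
    (2 : ℂ) • bz (G.κ t) (L ζ) =
      -(dκ G.κ t (G.ev K (sl I t)).2.2 *ᵥ (star ζ + I • star (J ζ))) := by
  rw [← h2_key hJ ht hL ζ, ha, bz_neg, hJ, smul_neg, smul_smul, I_mul_I, neg_one_smul, neg_neg,
    two_smul]

/-- `K = mu α β - mu (Jα) (Jβ)` anticommutes with `J`: for `K₊ = mu ζ η + mu (Jζ) (Jη)`, which vanishes
at `ω` (`ev_mu_J`, `mu_symm`) and so commutes with `J`, `killing_mu` gives `B K K₊ = 0`; read the
other way: `om η (L ζ) + om (Jη) (L (Jζ)) = 0`, `om_J`, `om_nondeg`. -/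
theorem Gr.anti_mu (h : G.Gr Zp) (hJ : G.IsJ t J) (ht : t ∈ G.T) (α β : CN r)
    {L : CN r →ₗ[ℝ] CN r} (hL : G.Act (G.mu Zp α β - G.mu Zp (J α) (J β)) L) (ζ : CN r) :
    L (J ζ) = -J (L ζ) := by
  have hK : G.mu Zp α β - G.mu Zp (J α) (J β) ∈ G.s0 Zp := sub_mem (mu_mem _ _) (mu_mem _ _)
  have hB := h.killing_A
  have key : ∀ η, om η (L ζ - J (L (J ζ))) = 0 := fun η => by
    have hP : G.mu Zp ζ η + G.mu Zp (J ζ) (J η) ∈ G.s0 Zp := add_mem (mu_mem _ _) (mu_mem _ _)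
    obtain ⟨P, hPa⟩ := h.exists_act (h.s0_wt hP)
    have h1 : killingForm ℝ 𝔤 (G.mu Zp α β - G.mu Zp (J α) (J β))
        (G.mu Zp ζ η + G.mu Zp (J ζ) (J η)) = 0 := by
      rw [LinearMap.map_sub₂, h.killing_mu (h.s0_Z hP) hPa, h.killing_mu (h.s0_Z hP) hPa,
        hJ.act_comm ht hPa (h2_ev_plus h hJ ht ζ η), (hJ.om_J ht _ _).1, sub_self]
    rw [killing_comm, LinearMap.map_add₂, h.killing_mu (h.s0_Z hK) hL,
      h.killing_mu (h.s0_Z hK) hL, (hJ.om_J ht _ _).2, ← mul_add] at h1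
    rw [sub_eq_add_neg, om_add_right, om_neg_right]
    exact (mul_eq_zero.1 h1).resolve_left (by positivity)
  rw [sub_eq_zero.1 (om_nondeg key), hJ.JJ ht, neg_neg]

theorem h2_act_minus (h : G.Gr Zp) (hJ : G.IsJ t J) (ht : t ∈ G.T) (ζ η : CN r)
    {M : CN r →ₗ[ℝ] CN r} (hM : G.Act (G.mu Zp ζ η - G.mu Zp (J ζ) (J η)) M) :
    G.Act (G.mu Zp (J ζ) η + G.mu Zp ζ (J η)) (J ∘ₗ M) := by
  obtain ⟨L', hL'⟩ := h.exists_act (h.s0_wt
    (add_mem (mu_mem (J ζ) η) (mu_mem ζ (J η)) : _ ∈ G.s0 Zp))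
  have a1 := h.anti_mu hJ ht ζ η hM
  have a2 := h.anti_mu hJ ht (J ζ) η (L := L') (by rwa [hJ.JJ ht, mu_neg, sub_neg_eq_add])
  intro x
  rw [hL']
  congr 1
  refine bz_inj (G.small t ht) (smul_right_injective (CN r) (two_ne_zero (α := ℂ)) ?_)
  simp only
  rw [hJ.act_anti ht hL' a2, LinearMap.comp_apply, hJ, smul_comm, hJ.act_anti ht hM a1,
    h2_ev_minus h hJ ht, Prod.smul_snd, Prod.smul_snd, dκ_smul, Matrix.smul_mulVec, smul_neg]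

/-- The generator case of `decomp`, with the explicit `K₋' = (mu (Jζ) η + mu ζ (Jη))/2`
(`= (mu (Jζ) η - mu (J J ζ) (Jη))/2`, `anti_mu`, `act_anti` for both and `bz_inj`). -/
theorem Gr.act_mu_J (h : G.Gr Zp) (hJ : G.IsJ t J) (ht : t ∈ G.T) (ζ η : CN r)
    {L : CN r →ₗ[ℝ] CN r} (hL : G.Act (G.mu Zp ζ η) L) :
    G.Act (G.mu Zp (J ζ) η + G.mu Zp ζ (J η)) (J ∘ₗ L - L ∘ₗ J) := by
  obtain ⟨L₂, hL₂⟩ := h.exists_act (h.s0_wt (mu_mem (J ζ) (J η)))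
  have h1 := h2_act_minus h hJ ht ζ η (h2_act_sub hL hL₂)
  have e : J ∘ₗ L - L ∘ₗ J = J ∘ₗ (L - L₂) := by
    refine LinearMap.ext fun x => ?_
    have a1 := h.anti_mu hJ ht ζ η (h2_act_sub hL hL₂) x
    have a2 := hJ.act_comm ht (h2_act_add hL hL₂) (h2_ev_plus h hJ ht ζ η) x
    simp only [LinearMap.sub_apply, LinearMap.add_apply, LinearMap.comp_apply, map_sub,
      map_add] at a1 a2 ⊢
    have a3 : L (J x) = J (L₂ x) := by
      refine smul_right_injective (CN r) (two_ne_zero (α := ℝ)) ?_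
      simp only [two_smul]
      linear_combination a1 + a2
    rw [a3]
  rwa [e]

/-- Cartan decomposition of `s0` (span induction). -/
theorem Gr.decomp (h : G.Gr Zp) (hJ : G.IsJ t J) (ht : t ∈ G.T) {K : 𝔤} (hK : K ∈ G.s0 Zp) :
    ∃ Kp ∈ G.s0 Zp, ∃ Km ∈ G.s0 Zp, ∃ Km' ∈ G.s0 Zp, ∃ L : CN r →ₗ[ℝ] CN r,
      K = Kp + Km ∧ G.ev Kp (sl I t) = 0 ∧ G.Act Km L ∧ (∀ ζ, L (J ζ) = -J (L ζ)) ∧
      G.Act Km' (J ∘ₗ L) ∧ G.ev Km' (sl I t) = I • G.ev Km (sl I t) := by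
  induction hK using Submodule.span_induction with
  | mem K hK =>
    obtain ⟨ζ, η, rfl⟩ := hK
    have hm : G.mu Zp ζ η - G.mu Zp (J ζ) (J η) ∈ G.s0 Zp := sub_mem (mu_mem _ _) (mu_mem _ _)
    obtain ⟨M, hM⟩ := h.exists_act (h.s0_wt hm)
    refine ⟨(1 / 2 : ℝ) • (G.mu Zp ζ η + G.mu Zp (J ζ) (J η)),
      Submodule.smul_mem _ _ (add_mem (mu_mem _ _) (mu_mem _ _)),
      (1 / 2 : ℝ) • (G.mu Zp ζ η - G.mu Zp (J ζ) (J η)), Submodule.smul_mem _ _ hm,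
      (1 / 2 : ℝ) • (G.mu Zp (J ζ) η + G.mu Zp ζ (J η)),
      Submodule.smul_mem _ _ (add_mem (mu_mem _ _) (mu_mem _ _)), (1 / 2 : ℝ) • M, by module, ?_,
      h2_act_smul hM _, fun x => ?_, ?_, ?_⟩
    · rw [map_smul, Pi.smul_apply, h2_ev_plus h hJ ht, smul_zero]
    · rw [LinearMap.smul_apply, LinearMap.smul_apply, h.anti_mu hJ ht ζ η hM, map_smul, smul_neg]
    · rw [LinearMap.comp_smul]
      exact h2_act_smul (h2_act_minus h hJ ht ζ η hM) _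
    · rw [map_smul, map_smul, Pi.smul_apply, Pi.smul_apply, h2_ev_minus h hJ ht, smul_comm]
  | zero =>
    refine ⟨0, zero_mem _, 0, zero_mem _, 0, zero_mem _, 0, by simp, by simp, fun x => by simp,
      fun x => by simp, fun x => by simp, by simp⟩
  | add K K' _ _ ih ih' =>
    obtain ⟨P, hP, M, hM, N, hN, L, e, h1, h2, h3, h4, h5⟩ := ih
    obtain ⟨P', hP', M', hM', N', hN', L', e', h1', h2', h3', h4', h5'⟩ := ih'
    refine ⟨P + P', add_mem hP hP', M + M', add_mem hM hM', N + N', add_mem hN hN', L + L',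
      by rw [e, e']; abel, ?_, h2_act_add h2 h2', fun x => ?_, ?_, ?_⟩
    · rw [map_add, Pi.add_apply, h1, h1', add_zero]
    · rw [LinearMap.add_apply, LinearMap.add_apply, h3, h3', map_add, neg_add]
    · rw [LinearMap.comp_add]
      exact h2_act_add h4 h4'
    · rw [map_add, map_add, Pi.add_apply, Pi.add_apply, h5, h5', smul_add]
  | smul a K _ ih =>
    obtain ⟨P, hP, M, hM, N, hN, L, e, h1, h2, h3, h4, h5⟩ := ih
    refine ⟨a • P, Submodule.smul_mem _ _ hP, a • M, Submodule.smul_mem _ _ hM, a • N,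
      Submodule.smul_mem _ _ hN, a • L, by rw [e, smul_add], ?_, h2_act_smul h2 a, fun x => ?_,
      ?_, ?_⟩
    · rw [map_smul, Pi.smul_apply, h1, smul_zero]
    · rw [LinearMap.smul_apply, LinearMap.smul_apply, h3, map_smul, smul_neg]
    · rw [LinearMap.comp_smul]
      exact h2_act_smul h4 a
    · rw [map_smul, map_smul, Pi.smul_apply, Pi.smul_apply, h5, smul_comm]

end GM0

end Crest.Agent.R264.P5
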