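import Crest.Agent.R264.P5.S2
import Crest.Agent.R264.P5.Ideal

/-! Row 264, P5/P6: the complex structure is an inner derivation. -/

set_option autoImplicit false
open Set Filter Topology Metric Complex
open scoped Matrix

noncomputable section
namespace Crest.Agent.R264.P5

namespace GM0
variable {𝔤 : Type} [LieRing 𝔤] [LieAlgebra ℝ 𝔤] [FiniteDimensional ℝ 𝔤] {r k : ℕ}
  {G : GM0 𝔤 r k} {Zp : 𝔤} {t : CN k} {J : CN r →ₗ[ℝ] CN r}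

/-- The ideal generated by the dilation field. -/
abbrev s (G : GM0 𝔤 r k) : LieIdeal ℝ 𝔤 := LieSubmodule.lieSpan ℝ 𝔤 {G.A}

theorem Gr.simple_s (h : G.Gr Zp) (i : Submodule ℝ 𝔤) (hi : ∀ X ∈ i, X ∈ G.s)
    (hl : ∀ U ∈ G.s, ∀ X ∈ i, ⁅U, X⁆ ∈ i) : (∀ X ∈ G.s, X ∈ i) ∨ i = ⊥ := by
  simp only [h.mem_span_iff] at hi hl ⊢
  exact h.simple i hi hl

theorem A_mem (G : GM0 𝔤 r k) : G.A ∈ G.s := LieSubmodule.subset_lieSpan rfl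

theorem Gr.simp (h : G.Gr Zp) : Simp G.s := simp_res _ h.simple_s

theorem Gr.pos (h : G.Gr Zp) : Pos G.s := pos_res _ ⟨G.A, G.A_mem, h.killing_A⟩

theorem Gr.isKilling (h : G.Gr Zp) : LieAlgebra.IsKilling ℝ G.s := isKilling_of_simp h.simp h.pos

theorem Gr.mem_s_of_wt (h : G.Gr Zp) {μ : ℝ} {X : 𝔤} (hX : G.Wt μ X) (hμ : μ ≠ 0) : X ∈ G.s :=
  (h.mem_span_iff X).2 (h.inS_of_wt hX hμ)

theorem Gr.mem_s_of_s0 (h : G.Gr Zp) {X : 𝔤} (hX : X ∈ G.s0 Zp) : X ∈ G.s :=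
  (h.mem_span_iff X).2 ⟨0, 0, 0, X, 0, 0, hX, by simp⟩

/-- The graph of the derivation. -/
def DRel (G : GM0 𝔤 r k) (Zp : 𝔤) (J : CN r →ₗ[ℝ] CN r) (X X' : 𝔤) : Prop :=
  ∃ (a : ℝ) (ζ : CN r) (c : ℝ) (K : 𝔤) (η : CN r) (b : ℝ) (K' : 𝔤) (L : CN r →ₗ[ℝ] CN r),
    K ∈ G.s0 Zp ∧ K' ∈ G.s0 Zp ∧ G.Act K L ∧ G.Act K' (J ∘ₗ L - L ∘ₗ J) ∧
    X = a • G.Z + G.Xn ζ + c • G.A + K + ⁅Zp, G.Xn η⁆ + b • Zp ∧
    X' = G.Xn (J ζ) + K' + ⁅Zp, G.Xn (J η)⁆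

theorem s3_act_zero (G : GM0 𝔤 r k) : G.Act 0 0 := fun ζ => by simp

theorem s3_act_zero' (G : GM0 𝔤 r k) (J : CN r →ₗ[ℝ] CN r) : G.Act 0 (J ∘ₗ 0 - 0 ∘ₗ J) :=
  fun ζ => by simp

omit [FiniteDimensional ℝ 𝔤] in
theorem Act.s3add {K K' : 𝔤} {L L' : CN r →ₗ[ℝ] CN r} (h : G.Act K L) (h' : G.Act K' L') :
    G.Act (K + K') (L + L') := fun ζ => by
  rw [lie_add, h ζ, h' ζ, LinearMap.add_apply, map_add]

omit [FiniteDimensional ℝ 𝔤] in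
theorem Act.s3smul {K : 𝔤} {L : CN r →ₗ[ℝ] CN r} (h : G.Act K L) (c : ℝ) :
    G.Act (c • K) (c • L) := fun ζ => by
  rw [lie_smul, h ζ, LinearMap.smul_apply, map_smul]

omit [FiniteDimensional ℝ 𝔤] in
theorem Act.s3uniq {K : 𝔤} {L L' : CN r →ₗ[ℝ] CN r} (h : G.Act K L) (h' : G.Act K L') : L = L' :=
  LinearMap.ext fun ζ => G.Xn_inj ((h ζ).symm.trans (h' ζ))

omit [FiniteDimensional ℝ 𝔤] in
theorem s3_Z_A (G : GM0 𝔤 r k) : ⁅G.Z, G.A⁆ = G.Z := by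
  rw [← lie_skew, G.wt_Z]
  simp

omit [FiniteDimensional ℝ 𝔤] in
theorem s3_X_A (G : GM0 𝔤 r k) (ξ : CN r) : ⁅G.Xn ξ, G.A⁆ = (1 / 2 : ℝ) • G.Xn ξ := by
  rw [← lie_skew, G.wt_X ξ, ← neg_smul]
  norm_num

omit [FiniteDimensional ℝ 𝔤] in
theorem s3_X_Z (G : GM0 𝔤 r k) (ξ : CN r) : ⁅G.Xn ξ, G.Z⁆ = 0 := by
  rw [← lie_skew, G.Z_X, neg_zero]

omit [FiniteDimensional ℝ 𝔤] in
theorem s3_X_dec (ξ : CN r) {K : 𝔤} {L : CN r →ₗ[ℝ] CN r} (hL : G.Act K L) (a c b : ℝ)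
    (ζ η : CN r) :
    ⁅G.Xn ξ, a • G.Z + G.Xn ζ + c • G.A + K + ⁅Zp, G.Xn η⁆ + b • Zp⁆ =
      om ξ ζ • G.Z + ((c / 2) • G.Xn ξ + G.Xn (L ξ)) + (-om ξ η) • G.A + G.mu Zp ξ η -
        b • ⁅Zp, G.Xn ξ⁆ := by
  have e : ⁅G.Xn ξ, Zp⁆ = -⁅Zp, G.Xn ξ⁆ := (lie_skew _ _).symm
  simp only [lie_add, lie_smul, s3_X_Z, s3_X_A, G.X_X, hL ξ, e, mu]
  module

/-- `exists_linear_of_rel` on `G.s`.  Total: `decomp` (`K' = 2 • Km'`, `exists_act`, `act_comm`).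
Single valued: `dec_uniq`, `Xn_inj`, `inj0`. -/
theorem Gr.exists_delta (h : G.Gr Zp) (hJ : G.IsJ t J) (ht : t ∈ G.T) :
    ∃ δ : G.s →ₗ[ℝ] G.s, ∀ X X' : G.s, G.DRel Zp J X X' ↔ δ X = X' := by
  refine exists_linear_of_rel (fun X X' : G.s => G.DRel Zp J X X') ?_ ?_ ?_ ?_
  · rintro x y x' y' ⟨a, ζ, c, K, η, b, K', L, h1, h2, h3, h4, h5, h6⟩
      ⟨a₂, ζ₂, c₂, K₂, η₂, b₂, K₂', L₂, g1, g2, g3, g4, g5, g6⟩
    refine ⟨a + a₂, ζ + ζ₂, c + c₂, K + K₂, η + η₂, b + b₂, K' + K₂', L + L₂, add_mem h1 g1,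
      add_mem h2 g2, h3.s3add g3, ?_, ?_, ?_⟩
    · convert h4.s3add g4 using 1
      refine LinearMap.ext fun ξ => ?_
      simp only [LinearMap.sub_apply, LinearMap.add_apply, LinearMap.comp_apply, map_add]
      abel
    · change (x : 𝔤) + y = _
      rw [h5, g5]
      simp only [map_add, lie_add]
      module
    · change (x' : 𝔤) + y' = _
      rw [h6, g6]
      simp only [map_add, lie_add]
      abel
  · rintro m x x' ⟨a, ζ, c, K, η, b, K', L, h1, h2, h3, h4, h5, h6⟩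
    refine ⟨m * a, m • ζ, m * c, m • K, m • η, m * b, m • K', m • L, Submodule.smul_mem _ _ h1,
      Submodule.smul_mem _ _ h2, h3.s3smul m, ?_, ?_, ?_⟩
    · convert h4.s3smul m using 1
      refine LinearMap.ext fun ξ => ?_
      simp only [LinearMap.sub_apply, LinearMap.smul_apply, LinearMap.comp_apply, map_smul, smul_sub]
    · change m • (x : 𝔤) = _
      rw [h5]
      simp only [map_smul, lie_smul]
      module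
    · change m • (x' : 𝔤) = _
      rw [h6]
      simp only [map_smul, lie_smul]
      module
  · intro x
    obtain ⟨a, ζ, c, K, η, b, hK, hx⟩ := (h.mem_span_iff x).1 x.2
    obtain ⟨Kp, hp, Km, hm, Km', hm', L, e, hp0, hL, ha, hL', -⟩ := h.decomp hJ ht hK
    obtain ⟨Lp, hLp⟩ := h.exists_act (h.s0_wt hp)
    have hc := hJ.act_comm ht hLp hp0
    have h2 : (2 : ℝ) • Km' ∈ G.s0 Zp := Submodule.smul_mem _ _ hm'
    refine ⟨⟨G.Xn (J ζ) + (2 : ℝ) • Km' + ⁅Zp, G.Xn (J η)⁆, add_mem (add_mem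
      (h.mem_s_of_wt (G.wt_X _) (by norm_num)) (h.mem_s_of_s0 h2))
      (h.mem_s_of_wt (h.wt_ZpX _) (by norm_num))⟩, a, ζ, c, K, η, b, (2 : ℝ) • Km', Lp + L, hK, h2,
      e ▸ hLp.s3add hL, ?_, hx, rfl⟩
    convert hL'.s3smul 2 using 1
    refine LinearMap.ext fun ξ => ?_
    simp only [LinearMap.sub_apply, LinearMap.add_apply, LinearMap.smul_apply, LinearMap.comp_apply,
      map_add, hc, ha]
    module
  · rintro x' ⟨a, ζ, c, K, η, b, K', L, h1, h2, h3, h4, h5, h6⟩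
    obtain ⟨-, rfl, -, rfl, rfl, -⟩ := h.dec_uniq h1 h5.symm
    obtain rfl := h3.s3uniq G.s3_act_zero
    have : K' = 0 := h.act_ext h2 (zero_mem _) h4 (G.s3_act_zero' J)
    apply Subtype.ext
    change (x' : 𝔤) = 0
    rw [h6, this]
    simp

/-- The derivation identity for `U = A` (`δ A = 0`). -/
theorem Gr.drel_A (h : G.Gr Zp) {Y Y' : 𝔤} (hY : G.DRel Zp J Y Y') :
    G.DRel Zp J ⁅G.A, Y⁆ ⁅G.A, Y'⁆ := by
  obtain ⟨a, ζ, c, K, η, b, K', L, h1, h2, -, -, rfl, rfl⟩ := hY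
  have e1 : ⁅G.A, G.Z⁆ = _ := G.wt_Z
  have e2 : ∀ ξ, ⁅G.A, G.Xn ξ⁆ = _ := G.wt_X
  have e3 : ⁅G.A, K⁆ = _ := h.s0_wt h1
  have e4 : ⁅G.A, K'⁆ = _ := h.s0_wt h2
  have e5 : ∀ ξ, ⁅G.A, ⁅Zp, G.Xn ξ⁆⁆ = _ := h.wt_ZpX
  have e6 : ⁅G.A, Zp⁆ = _ := h.wZp
  refine ⟨-a, (-1 / 2 : ℝ) • ζ, 0, 0, (1 / 2 : ℝ) • η, b, 0, 0, zero_mem _, zero_mem _,
    G.s3_act_zero, G.s3_act_zero' J, ?_, ?_⟩
  · simp only [lie_add, lie_smul, e1, e2, e3, e5, e6, lie_self, map_smul]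
    module
  · simp only [lie_add, lie_smul, e2, e4, e5, map_smul]
    module

/-- The derivation identity for `U = Z` (`δ Z = 0`). -/
theorem Gr.drel_Z (h : G.Gr Zp) {Y Y' : 𝔤} (hY : G.DRel Zp J Y Y') :
    G.DRel Zp J ⁅G.Z, Y⁆ ⁅G.Z, Y'⁆ := by
  obtain ⟨a, ζ, c, K, η, b, K', L, h1, h2, -, -, rfl, rfl⟩ := hY
  refine ⟨c, -η, 2 * b, 0, 0, 0, 0, 0, zero_mem _, zero_mem _,
    G.s3_act_zero, G.s3_act_zero' J, ?_, ?_⟩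
  · simp only [lie_add, lie_smul, lie_self, G.Z_X, G.s3_Z_A, h.s0_Z h1, h.Z_ZpX, h.hZ, map_neg,
      map_zero, lie_zero]
    module
  · simp only [lie_add, G.Z_X, h.s0_Z h2, h.Z_ZpX, map_neg, map_zero, lie_zero]
    module

/-- The derivation identity for `U = X ξ` (`δ (X ξ) = X (J ξ)`).  With `Y` as in `DRel`:
`[X ξ, Y] = om ξ ζ • Z + X (c/2 • ξ + L ξ) - om ξ η • A + mu ξ η + [Zp, X (-b • ξ)]`; use `om_J` and
`act_mu_J`. -/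
theorem Gr.drel_X (h : G.Gr Zp) (hJ : G.IsJ t J) (ht : t ∈ G.T) (ξ : CN r) {Y Y' : 𝔤}
    (hY : G.DRel Zp J Y Y') : G.DRel Zp J ⁅G.Xn ξ, Y⁆ (⁅G.Xn (J ξ), Y⁆ + ⁅G.Xn ξ, Y'⁆) := by
  obtain ⟨a, ζ, c, K, η, b, K', L, h1, h2, h3, h4, rfl, rfl⟩ := hY
  obtain ⟨L', hL'⟩ := h.exists_act (h.s0_wt (mu_mem ξ η))
  refine ⟨om ξ ζ, (c / 2) • ξ + L ξ, -om ξ η, G.mu Zp ξ η, (-b) • ξ, 0,
    G.mu Zp (J ξ) η + G.mu Zp ξ (J η), L', mu_mem _ _, add_mem (mu_mem _ _) (mu_mem _ _), hL',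
    h.act_mu_J hJ ht ξ η hL', ?_, ?_⟩
  · rw [s3_X_dec ξ h3]
    simp only [map_add, map_smul, lie_smul]
    module
  · have e : G.Xn (J ζ) + K' + ⁅Zp, G.Xn (J η)⁆ = (0 : ℝ) • G.Z + G.Xn (J ζ) + (0 : ℝ) • G.A + K' +
        ⁅Zp, G.Xn (J η)⁆ + (0 : ℝ) • Zp := by simp
    rw [e, s3_X_dec (J ξ) h3, s3_X_dec ξ h4, (hJ.om_J ht ξ ζ).2, (hJ.om_J ht ξ η).2]
    simp only [map_add, map_smul, lie_smul, LinearMap.sub_apply, LinearMap.comp_apply, map_sub]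
    module

/-- `exists_inner` in `G.s` (`isKilling`) gives `K₁` with `[K₁,A] = 0`, `[K₁,Z] = 0`,
`[K₁, X ξ] = X (J ξ)`; `K2 = -K₁ ∈ s0` (`mem_s0`).  By `decomp`, `K2 = Kp + Km` and the action
`J - L_p` of `Km` commutes and anticommutes with `J`, so it is zero, `Km = 0` (`inj0`). -/
theorem Gr.exists_K2 (h : G.Gr Zp) (hJ : G.IsJ t J) (ht : t ∈ G.T) :
    ∃ K2 ∈ G.s0 Zp, G.Act K2 J ∧ G.ev K2 (sl I t) = 0 := by
  haveI := h.isKilling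
  obtain ⟨δ, hδ⟩ := h.exists_delta hJ ht
  obtain ⟨K₁, hK₁⟩ := exists_inner δ
  have hrel : ∀ Y : G.s, G.DRel Zp J Y (δ Y) := fun Y => (hδ Y _).2 rfl
  set A' : G.s := ⟨G.A, G.A_mem⟩ with hA'
  set Z' : G.s := ⟨G.Z, h.mem_s_of_wt G.wt_Z (by norm_num)⟩ with hZ'
  set X' : CN r → G.s := fun ξ => ⟨G.Xn ξ, h.mem_s_of_wt (G.wt_X ξ) (by norm_num)⟩ with hX'
  have dA : δ A' = 0 := (hδ A' 0).1 ⟨0, 0, 1, 0, 0, 0, 0, 0, zero_mem _, zero_mem _,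
    G.s3_act_zero, G.s3_act_zero' J, by simp [hA'], by simp⟩
  have dZ : δ Z' = 0 := (hδ Z' 0).1 ⟨1, 0, 0, 0, 0, 0, 0, 0, zero_mem _, zero_mem _,
    G.s3_act_zero, G.s3_act_zero' J, by simp [hZ'], by simp⟩
  have dX : ∀ ξ, δ (X' ξ) = X' (J ξ) := fun ξ => (hδ (X' ξ) _).1 ⟨0, ξ, 0, 0, 0, 0, 0, 0,
    zero_mem _, zero_mem _, G.s3_act_zero, G.s3_act_zero' J, by simp [hX'], by simp [hX']⟩
  have kA : ⁅K₁, A'⁆ = 0 := by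
    rw [← dA]
    refine hK₁ A' fun Y => ?_
    rw [dA, zero_lie, zero_add]
    exact (hδ _ _).1 (h.drel_A (hrel Y))
  have kZ : ⁅K₁, Z'⁆ = 0 := by
    rw [← dZ]
    refine hK₁ Z' fun Y => ?_
    rw [dZ, zero_lie, zero_add]
    exact (hδ _ _).1 (h.drel_Z (hrel Y))
  have kX : ∀ ξ, ⁅K₁, X' ξ⁆ = X' (J ξ) := by
    intro ξ
    rw [← dX]
    refine hK₁ (X' ξ) fun Y => ?_
    rw [dX]
    exact (hδ _ _).1 (h.drel_X hJ ht ξ (hrel Y))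
  have kA' : ⁅(K₁ : 𝔤), G.A⁆ = 0 := congrArg Subtype.val kA
  have kZ' : ⁅(K₁ : 𝔤), G.Z⁆ = 0 := congrArg Subtype.val kZ
  have kX' : ∀ ξ, ⁅(K₁ : 𝔤), G.Xn ξ⁆ = G.Xn (J ξ) := fun ξ => congrArg Subtype.val (kX ξ)
  have h2 : -(K₁ : 𝔤) ∈ G.s0 Zp := by
    refine h.mem_s0 ((h.mem_span_iff _).1 (neg_mem K₁.2)) ?_ ?_
    · change ⁅G.A, -(K₁ : 𝔤)⁆ = _
      rw [lie_neg, lie_skew, kA', zero_smul]
    · rw [lie_neg, lie_skew, kZ']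
  have hA : G.Act (-(K₁ : 𝔤)) J := fun ξ => by rw [lie_neg, lie_skew, kX']
  refine ⟨_, h2, hA, ?_⟩
  obtain ⟨Kp, hp, Km, hm, Km', -, L, e, hp0, hL, ha, -, -⟩ := h.decomp hJ ht h2
  obtain ⟨Lp, hLp⟩ := h.exists_act (h.s0_wt hp)
  have hc := hJ.act_comm ht hLp hp0
  have e2 : J = Lp + L := hA.s3uniq (e ▸ hLp.s3add hL)
  have hL0 : ∀ ξ, L ξ = 0 := by
    intro ξ
    have a1 : J (J ξ) = Lp (J ξ) + L (J ξ) := by
      have := LinearMap.congr_fun e2 (J ξ)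
      simpa using this
    have a2 : J (J ξ) = J (Lp ξ) + J (L ξ) := by
      have := LinearMap.congr_fun e2 ξ
      rw [LinearMap.add_apply] at this
      rw [← map_add, ← this]
    rw [hc, ha, a2] at a1
    have a3 : J (L ξ) = 0 := by
      have : (2 : ℝ) • J (L ξ) = 0 := by
        rw [two_smul]
        linear_combination (exp := 1) a1
      simpa using this
    have a4 := hJ.JJ ht (L ξ)
    rw [a3, map_zero] at a4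
    exact neg_eq_zero.1 a4.symm
  have hm0 : Km = 0 := h.inj0 hm fun ξ => by rw [hL ξ, hL0, map_zero]
  rw [e, hm0, add_zero, hp0]

end GM0

end Crest.Agent.R264.P5
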