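import Crest.Agent.R264.P5.S3

/-! Row 264, P5/P6: slice points are hermitian symmetric. -/

set_option autoImplicit false
open Set Filter Topology Metric Complex
open scoped Matrix

noncomputable section
namespace Crest.Agent.R264.P5

namespace GM0
variable {𝔤 : Type} [LieRing 𝔤] [LieAlgebra ℝ 𝔤] [FiniteDimensional ℝ 𝔤] {r k : ℕ}
  {G : GM0 𝔤 r k} {Zp : 𝔤} {t : CN k} {J : CN r →ₗ[ℝ] CN r}

/-- Value of a general element at `sl I t`. -/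
theorem Gr.ev_dec (h : G.Gr Zp) (ht : t ∈ G.T) (a c b : ℝ) (ζ η : CN r) {K : 𝔤}
    (hK : K ∈ G.s0 Zp) :
    G.ev (a • G.Z + G.Xn ζ + c • G.A + K + ⁅Zp, G.Xn η⁆ + b • Zp) (sl I t) =
      ((a : ℂ) + c * I - b, bz (G.κ t) ζ - I • bz (G.κ t) η, (G.ev K (sl I t)).2.2) := by
  have hI : 0 < (I : ℂ).im := by simp
  simp only [map_add, map_smul, Pi.add_apply, Pi.smul_apply]
  rw [G.ev_Z_sl hI ht, G.ev_X_sl _ hI ht, G.ev_A_sl hI ht, h.ev_ZpX _ hI ht, h.evZp I hI t ht,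
    ev_sl_of_comm (h.s0_wt hK) (h.s0_Z hK) hI ht]
  refine Prod.ext ?_ (Prod.ext ?_ ?_)
  · simp [sub_eq_add_neg]
  · simp [sub_eq_add_neg]
  · simp

/-- `decomp`, `act_anti`, `bz_inj`, `inj0`: the anticommuting part of `K` vanishes. -/
theorem Gr.s0_dκ (h : G.Gr Zp) (hJ : G.IsJ t J) (ht : t ∈ G.T) {K : 𝔤} (hK : K ∈ G.s0 Zp)
    (h0 : dκ G.κ t (G.ev K (sl I t)).2.2 = 0) : G.ev K (sl I t) = 0 := by
  obtain ⟨Kp, -, Km, hm, Km', -, L, e, h1, h2, h3, -, -⟩ := h.decomp hJ ht hK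
  have e2 : G.ev K (sl I t) = G.ev Km (sl I t) := by
    rw [e, map_add, Pi.add_apply, h1, zero_add]
  rw [e2] at h0 ⊢
  have h4 : Km = 0 := h.inj0 hm fun ζ => by
    have h5 := hJ.act_anti ht h2 h3 ζ
    rw [h0, Matrix.zero_mulVec, neg_zero] at h5
    have h6 : bz (G.κ t) (L ζ) = bz (G.κ t) 0 := by
      rw [(smul_eq_zero.1 h5).resolve_left two_ne_zero]
      simp [bz]
    rw [h2, bz_inj (G.small t ht) h6, map_zero]
  rw [h4, map_zero, Pi.zero_apply]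

omit [FiniteDimensional ℝ 𝔤] in
theorem S4_act {K K2 : 𝔤} {L : CN r →ₗ[ℝ] CN r} (hL : G.Act K L) (hA : G.Act K2 J) (ζ : CN r) :
    ⁅G.Xn ζ, ⁅K, K2⁆⁆ = G.Xn (J (L ζ) - L (J ζ)) := by
  rw [leibniz_lie, hL, hA, hA, ← lie_skew K, hL, map_sub, sub_eq_add_neg]

theorem S4_zero (h : G.Gr Zp) (hJ : G.IsJ t J) (ht : t ∈ G.T) {K2 : 𝔤} (h2 : K2 ∈ G.s0 Zp)
    (hA : G.Act K2 J) {K : 𝔤} (hK : K ∈ G.s0 Zp) (h0 : G.ev K (sl I t) = 0) : ⁅K, K2⁆ = 0 := by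
  obtain ⟨L, hL⟩ := h.exists_act (h.s0_wt hK)
  refine h.inj0 (h.s0_lie hK h2) fun ζ => ?_
  rw [S4_act hL hA, hJ.act_comm ht hL h0, sub_self, map_zero]

/-- For `K ∈ s0` (`decomp`): `[Kp, K2] = 0` and `[Km, K2] = 2 • Km'` (`act_ext`, `s0_lie`; the action of
`[K,K2]` is `J L - L J`). -/
theorem Gr.lie_K2 (h : G.Gr Zp) (hJ : G.IsJ t J) (ht : t ∈ G.T) {K2 : 𝔤} (h2 : K2 ∈ G.s0 Zp)
    (hA : G.Act K2 J) {K : 𝔤} (hK : K ∈ G.s0 Zp) :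
    G.ev ⁅K, K2⁆ (sl I t) = (2 * I) • G.ev K (sl I t) ∧ (G.ev K (sl I t) = 0 → ⁅K, K2⁆ = 0) := by
  refine ⟨?_, S4_zero h hJ ht h2 hA hK⟩
  obtain ⟨Kp, hp, Km, hm, Km', hm', L, e, h1, h3, h4, h5, h6⟩ := h.decomp hJ ht hK
  have e2 : G.ev K (sl I t) = G.ev Km (sl I t) := by
    rw [e, map_add, Pi.add_apply, h1, zero_add]
  have e3 : ⁅Km, K2⁆ = (2 : ℝ) • Km' := by
    refine sub_eq_zero.1 (h.inj0 (Submodule.sub_mem _ (h.s0_lie hm h2)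
      (Submodule.smul_mem _ _ hm')) fun ζ => ?_)
    rw [lie_sub, S4_act h3 hA, lie_smul, h5, h4, sub_neg_eq_add, map_add, two_smul,
      LinearMap.comp_apply, sub_self]
  rw [e2, e, add_lie, S4_zero h hJ ht h2 hA hp h1, zero_add, e3, map_smul, Pi.smul_apply, h6,
    mul_smul, two_smul, two_smul]

theorem S4_lie (h : G.Gr Zp) {K2 : 𝔤} (h2 : K2 ∈ G.s0 Zp) (hA : G.Act K2 J) (a c b : ℝ)
    (ζ η : CN r) {K : 𝔤} (hK : K ∈ G.s0 Zp) :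
    ⁅a • G.Z + G.Xn ζ + c • G.A + K + ⁅Zp, G.Xn η⁆ + b • Zp, (1 / 2 : ℝ) • (G.Z + Zp + K2)⁆ =
      (-c / 2) • G.Z + G.Xn ((1 / 2 : ℝ) • (J ζ + η)) + (a - b) • G.A + (1 / 2 : ℝ) • ⁅K, K2⁆ +
        ⁅Zp, G.Xn ((1 / 2 : ℝ) • (J η - ζ))⁆ + (c / 2) • Zp := by
  have a1 : ⁅G.Z, G.Z + Zp + K2⁆ = (2 : ℝ) • G.A := by
    rw [lie_add, lie_add, lie_self, h.hZ, h.s0_Z h2, zero_add, add_zero]
  have a2 : ⁅G.Xn ζ, G.Z + Zp + K2⁆ = G.Xn (J ζ) - ⁅Zp, G.Xn ζ⁆ := by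
    rw [lie_add, lie_add, hA, ← lie_skew _ G.Z, G.Z_X, ← lie_skew _ Zp]
    module
  have a3 : ⁅G.A, G.Z + Zp + K2⁆ = Zp - G.Z := by
    rw [lie_add, lie_add, G.wt_Z, h.wZp, h.s0_wt h2]
    module
  have a4 : ⁅K, G.Z + Zp + K2⁆ = ⁅K, K2⁆ := by
    rw [lie_add, lie_add, ← lie_skew K G.Z, h.s0_Z hK, ← lie_skew K Zp,
      h.Zp_comm (h.s0_wt hK) (h.s0_Z hK)]
    simp
  have a5 : ⁅⁅Zp, G.Xn η⁆, G.Z + Zp + K2⁆ = G.Xn η + ⁅Zp, G.Xn (J η)⁆ := by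
    rw [lie_add, lie_add, ← lie_skew _ G.Z, h.Z_ZpX, ← lie_skew _ Zp, h.Zp_ZpX, lie_lie, hA,
      h.Zp_comm (h.s0_wt h2) (h.s0_Z h2)]
    simp
  have a6 : ⁅Zp, G.Z + Zp + K2⁆ = -((2 : ℝ) • G.A) := by
    rw [lie_add, lie_add, lie_self, ← lie_skew _ G.Z, h.hZ, h.Zp_comm (h.s0_wt h2) (h.s0_Z h2),
      add_zero, add_zero]
  rw [lie_smul]
  simp only [add_lie, smul_lie]
  rw [a1, a2, a3, a4, a5, a6]
  simp only [map_smul, map_add, map_sub, lie_smul, lie_sub]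
  module

/-- `Z1 = (Z + Zp + K2)/2`.  Brackets: `[Z,Z1] = A`, `[X ζ, Z1] = (-[Zp, X ζ] + X (Jζ))/2`,
`[A,Z1] = (Zp - Z)/2`, `[K,Z1] = [K,K2]/2`, `[[Zp,X η],Z1] = (X η + [Zp, X (Jη)])/2`, `[Zp,Z1] = -A`.
An element which vanishes at the point has `c = 0`, `a = b`, `ζ = J η`, `K ω = 0` (`ev_dec`). -/
theorem Gr.hs_slice (h : G.Gr Zp) (hJ : G.IsJ t J) (ht : t ∈ G.T) {K2 : 𝔤} (h2 : K2 ∈ G.s0 Zp)
    (hA : G.Act K2 J) (h0 : G.ev K2 (sl I t) = 0) :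
    G.ev ((1 / 2 : ℝ) • (G.Z + Zp + K2)) (sl I t) = 0 ∧
    (∀ X ∈ G.s, G.ev ⁅X, (1 / 2 : ℝ) • (G.Z + Zp + K2)⁆ (sl I t) = I • G.ev X (sl I t)) ∧
    ∀ K ∈ G.s, G.ev K (sl I t) = 0 → ⁅K, (1 / 2 : ℝ) • (G.Z + Zp + K2)⁆ = 0 := by
  have hI : 0 < (I : ℂ).im := by simp
  have hm : ∀ {K : 𝔤}, K ∈ G.s0 Zp → (1 / 2 : ℝ) • ⁅K, K2⁆ ∈ G.s0 Zp := fun hK =>
    Submodule.smul_mem _ _ (h.s0_lie hK h2)
  refine ⟨?_, fun X hX => ?_, fun X hX hX0 => ?_⟩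
  · simp only [map_add, map_smul, Pi.add_apply, Pi.smul_apply]
    rw [G.ev_Z_sl hI ht, h.evZp I hI t ht, h0]
    simp
  · obtain ⟨a, ζ, c, K, η, b, hK, rfl⟩ := (h.mem_span_iff X).1 hX
    rw [S4_lie h h2 hA a c b ζ η hK, h.ev_dec ht _ _ _ _ _ (hm hK), h.ev_dec ht _ _ _ _ _ hK,
      map_smul, Pi.smul_apply, (h.lie_K2 hJ ht h2 hA hK).1]
    refine Prod.ext ?_ (Prod.ext ?_ ?_)
    · simp only [Prod.smul_mk, smul_eq_mul]
      push_cast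
      linear_combination (-c) * I_mul_I
    · simp only [Prod.smul_mk, bz_smul, bz_add, bz_sub, hJ _]
      funext i
      simp only [Pi.sub_apply, Pi.smul_apply, Pi.add_apply, smul_eq_mul, real_smul]
      push_cast
      linear_combination (1 / 2 * bz (G.κ t) η i) * I_mul_I
    · funext i
      simp only [Prod.smul_mk, Prod.smul_snd, Pi.smul_apply, smul_eq_mul, real_smul]
      push_cast
      ring
  · obtain ⟨a, ζ, c, K, η, b, hK, rfl⟩ := (h.mem_span_iff X).1 hX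
    rw [h.ev_dec ht _ _ _ _ _ hK] at hX0
    have e1 : (a : ℂ) + c * I - b = 0 := congrArg Prod.fst hX0
    have e2 : bz (G.κ t) ζ - I • bz (G.κ t) η = 0 := congrArg (fun p => p.2.1) hX0
    have e3 : (G.ev K (sl I t)).2.2 = 0 := congrArg (fun p => p.2.2) hX0
    have e4 : c = 0 := by simpa using congrArg Complex.im e1
    have e5 : a - b = 0 := by simpa using congrArg Complex.re e1
    have e6 : ζ = J η := bz_inj (G.small t ht) (by rw [hJ]; exact sub_eq_zero.1 e2)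
    have e7 : G.ev K (sl I t) = 0 := by
      rw [ev_sl_of_comm (h.s0_wt hK) (h.s0_Z hK) hI ht, e3]
      rfl
    rw [S4_lie h h2 hA a c b ζ η hK, (h.lie_K2 hJ ht h2 hA hK).2 e7, e4, e5, e6, hJ.JJ ht]
    simp

theorem Gr.h50_dZp (h : G.Gr Zp) (ht : t ∈ G.T) (u : PM r k) :
    fderiv ℂ (G.ev Zp) (sl I t) u = (2 * I * u.1, I • u.2.1, 0) := by
  have hω := G.slI_mem ht
  have a1 : fderiv ℂ (G.ev Zp) (sl I t) (1, 0, 0) = (2 * I, 0, 0) := by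
    rw [← G.ev_Z_lie Zp hω, h.hZ, map_smul, Pi.smul_apply, G.ev_A_sl (by simp) ht]
    simp
  have a2 : fderiv ℂ (G.ev Zp) (sl I t) (0, u.2.1, 0) = (0, I • u.2.1, 0) := by
    obtain ⟨ζ, hζ⟩ := bz_surj (G.small t ht) u.2.1
    have e := G.ev_X_lie ζ Zp hω
    rw [← G.evX _ _ hω, G.ev_X_sl ζ (by simp) ht, h.evZp I (by simp) t ht, ← lie_skew, map_neg,
      Pi.neg_apply, h.ev_ZpX ζ (by simp) ht, hζ] at e
    simp only [dotProduct_zero, mul_zero, dκ_zero, Matrix.zero_mulVec] at e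
    rw [show ((0, 0, 0) : PM r k) = 0 from rfl, sub_zero] at e
    rw [← e]
    simp
  have a3 : fderiv ℂ (G.ev Zp) (sl I t) (0, 0, u.2.2) = 0 :=
    fderiv_slice_clm G.toMBase (G.diff Zp) (ContinuousLinearMap.id ℂ _) (w := I)
      (by simp) (fun t' ht' => h.evZp I (by simp) t' ht') ht u.2.2
  have e : u = u.1 • (1, 0, 0) + (0, u.2.1, 0) + (0, 0, u.2.2) := by simp
  conv_lhs => rw [e, map_add, map_add, map_smul, a1, a2, a3]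
  simp [mul_comm]

omit [FiniteDimensional ℝ 𝔤] in
theorem IsJ.h50_dκ (hJ : G.IsJ t J) (ht : t ∈ G.T) {u : PM r k}
    (hu : ∀ ζ, fderiv ℂ (G.ev (G.Xn ζ)) (sl I t) u +
      I • fderiv ℂ (G.ev (G.Xn (J ζ))) (sl I t) u = 0) : dκ G.κ t u.2.2 = 0 := by
  have hω := G.slI_mem ht
  refine Matrix.ext_of_mulVec_single fun i => ?_
  obtain ⟨ζ, hζ⟩ := starJ_surj hJ (Pi.single i 1)
  have e := congrArg (fun p => p.2.1) (hu ζ)
  simp only [G.d_X _ hω, Prod.snd_add, Prod.fst_add, Prod.smul_snd, Prod.smul_fst,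
    Prod.snd_zero, Prod.fst_zero] at e
  rw [← hζ, Matrix.mulVec_add, Matrix.mulVec_smul, e, Matrix.zero_mulVec]

/-- Test with `Z + Zp` (derivative `(2i u.1, i u.2.1, 0)`: `ev_Z_lie`, `ev_X_lie`, `bz_surj`,
`fderiv_slice_clm` with `evZp`) and then with `a = X ζ`, `b = X (J ζ)` (`d_X`, `starJ_surj`). -/
theorem Gr.dist_sub (h : G.Gr Zp) (ht : t ∈ G.T) {u : PM r k}
    (hu : ∀ a ∈ G.s, ∀ b ∈ G.s, G.ev a (sl I t) + I • G.ev b (sl I t) = 0 →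
      fderiv ℂ (G.ev a) (sl I t) u + I • fderiv ℂ (G.ev b) (sl I t) u = 0) :
    u.1 = 0 ∧ u.2.1 = 0 ∧ dκ G.κ t u.2.2 = 0 := by
  have hω := G.slI_mem ht
  obtain ⟨P, hv, hd⟩ := G.toLV.exists_pd hω
  have hd : ∀ X, P.d X = fderiv ℂ (G.ev X) (sl I t) := hd
  obtain ⟨J, hJ⟩ := G.exists_isJ ht
  have sX := fun ζ => h.mem_s_of_wt (G.wt_X ζ) (by norm_num)
  have h1 := hu (G.Z + Zp) (add_mem (h.mem_s_of_wt G.wt_Z (by norm_num))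
    (h.mem_s_of_wt h.wZp (by norm_num))) 0 (zero_mem _) (by
      rw [map_add, Pi.add_apply, G.ev_Z_sl (by simp) ht, h.evZp I (by simp) t ht]
      simp)
  rw [← hd, ← hd, map_add, map_zero, hd, hd, G.d_Z hω, zero_add, h.h50_dZp ht] at h1
  simp only [_root_.zero_apply, smul_zero, add_zero, Prod.mk_eq_zero, mul_eq_zero,
    OfNat.ofNat_ne_zero, I_ne_zero, false_or, smul_eq_zero, and_true] at h1
  refine ⟨h1.1, h1.2, hJ.h50_dκ ht fun ζ => ?_⟩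
  exact hu _ (sX ζ) _ (sX (J ζ)) (by
    rw [hJ.ev_X ht, smul_smul, I_mul_I, neg_one_smul, add_neg_cancel])

/-- `D Z = 0`, `D Zp (0,0,e) = 0`, `D K2 (0,0,e) = (0,0,c')` (`ev_sl_of_comm`, `fderiv_slice_clm`).
`lie1` (from `G.toLV.exists_pd`) for `K2` and `W = X ζ + i X (Jζ)`: `[K2,W] = i W`, `DW (0,0,e) = 0`,
so `DW (0,0,c') = 0` and `dκ c' = 0` (`starJ_surj`).  If the value is `X ω` with `X ∈ s`, `ev_dec`
and `s0_dκ` give `c' = 0`. -/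
theorem Gr.dZ1_eq_zero (h : G.Gr Zp) (hJ : G.IsJ t J) (ht : t ∈ G.T) {K2 : 𝔤}
    (h2 : K2 ∈ G.s0 Zp) (hA : G.Act K2 J) (h0 : G.ev K2 (sl I t) = 0) {e : CN k}
    (he : dκ G.κ t e = 0)
    (hv : ∃ X ∈ G.s, G.ev X (sl I t) =
      fderiv ℂ (G.ev ((1 / 2 : ℝ) • (G.Z + Zp + K2))) (sl I t) (0, 0, e)) :
    fderiv ℂ (G.ev ((1 / 2 : ℝ) • (G.Z + Zp + K2))) (sl I t) (0, 0, e) = 0 := by
  have hω := G.slI_mem ht
  obtain ⟨P, hv', hd⟩ := G.toLV.exists_pd hω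
  have hv' : ∀ X, P.v X = G.ev X (sl I t) := hv'
  have hd : ∀ X, P.d X = fderiv ℂ (G.ev X) (sl I t) := hd
  obtain ⟨c, hc⟩ : ∃ c, P.d K2 (0, 0, e) = (0, 0, c) := by
    have e1 := fun t' (ht' : t' ∈ G.T) =>
      ev_sl_of_comm (h.s0_wt h2) (h.s0_Z h2) (w := I) (by simp) ht'
    have a1 := fderiv_slice_clm G.toMBase (G.diff K2) (ContinuousLinearMap.fst ℂ _ _) (w := I)
      (by simp) (c := 0) (fun t' ht' => congrArg Prod.fst (e1 t' ht')) ht e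
    have a2 := fderiv_slice_clm G.toMBase (G.diff K2)
      ((ContinuousLinearMap.fst ℂ _ _).comp (ContinuousLinearMap.snd ℂ _ _)) (w := I)
      (by simp) (c := 0) (fun t' ht' => congrArg (fun p => p.2.1) (e1 t' ht')) ht e
    rw [hd]
    exact ⟨_, Prod.ext a1 (Prod.ext a2 rfl)⟩
  have hX : ∀ ζ, P.d (G.Xn ζ) (0, 0, e) = 0 := fun ζ => by
    rw [hd, G.d_X ζ hω]
    simp [he]
  have hK : ∀ ζ, P.d ⁅K2, G.Xn ζ⁆ (0, 0, e) = 0 := fun ζ => by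
    rw [← lie_skew, hA, ← map_neg, hX]
  have hκ : dκ G.κ t c = 0 := by
    refine hJ.h50_dκ ht (u := (0, 0, c)) fun ζ => ?_
    have := P.lie1 K2 (G.Xn ζ) (G.Xn (J ζ)) (by rw [hv', h0]) (by
      rw [hv', hv', hJ.ev_X ht, smul_smul, I_mul_I, neg_one_smul, add_neg_cancel]) (0, 0, e)
    rw [hK, hK, hX, hX, hc, smul_zero, add_zero, map_zero, sub_zero, hd, hd] at this
    exact this.symm
  have hD : fderiv ℂ (G.ev ((1 / 2 : ℝ) • (G.Z + Zp + K2))) (sl I t) (0, 0, e) =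
      (0, 0, (1 / 2 : ℂ) • c) := by
    rw [← hd, map_smul, map_add, map_add, _root_.smul_apply,
      _root_.add_apply, _root_.add_apply, hc, hd, hd, G.d_Z hω,
      h.h50_dZp ht]
    refine Prod.ext (by simp) (Prod.ext (by simp) ?_)
    ext i
    simp
  obtain ⟨X, hXs, hXe⟩ := hv
  obtain ⟨a, ζ, c', K, η, b, hK', rfl⟩ := (h.mem_span_iff X).1 hXs
  rw [h.ev_dec ht _ _ _ _ _ hK', hD] at hXe
  have e3 : (G.ev K (sl I t)).2.2 = (1 / 2 : ℂ) • c := congrArg (fun p => p.2.2) hXe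
  have e4 := h.s0_dκ hJ ht hK' (by rw [e3, dκ_smul, hκ, smul_zero])
  rw [hD, ← e3, e4]
  rfl

end GM0

end Crest.Agent.R264.P5
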